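import Vale.Agent.P322.Defs

/-!
# P322 (JB): entropy-improved Jensen inequality for `J`
-/

open Real Set Filter Topology

namespace Vale.Agent.P322

namespace JBaux

variable {ι : Type*} [Fintype ι]

lemma avg_add (f g : ι → ℝ) : avg (fun i => f i + g i) = avg f + avg g := by
  simp only [avg, Finset.sum_add_distrib, add_div]

lemma avg_sub (f g : ι → ℝ) : avg (fun i => f i - g i) = avg f - avg g := by
  simp only [avg, Finset.sum_sub_distrib, sub_div]

lemma avg_mul_left (c : ℝ) (f : ι → ℝ) : avg (fun i => c * f i) = c * avg f := by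
  simp only [avg, ← Finset.mul_sum, mul_div_assoc]

lemma avg_const [Nonempty ι] (c : ℝ) : avg (fun _ : ι => c) = c := by
  have h : (Fintype.card ι : ℝ) ≠ 0 := by
    exact_mod_cast Fintype.card_ne_zero
  simp only [avg, Finset.sum_const, Finset.card_univ, nsmul_eq_mul]
  field_simp

lemma avg_mono {f g : ι → ℝ} (h : ∀ i, f i ≤ g i) : avg f ≤ avg g := by
  unfold avg
  exact div_le_div_of_nonneg_right (Finset.sum_le_sum fun i _ => h i) (Nat.cast_nonneg _)

lemma avg_nonneg {f : ι → ℝ} (h : ∀ i, 0 ≤ f i) : 0 ≤ avg f := by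
  unfold avg
  exact div_nonneg (Finset.sum_nonneg fun i _ => h i) (Nat.cast_nonneg _)

lemma avg_mem [Nonempty ι] {f : ι → ℝ} (h : ∀ i, f i ∈ Ioo (-1 : ℝ) 1) :
    avg f ∈ Ioo (-1 : ℝ) 1 := by
  have hc : (0 : ℝ) < Fintype.card ι := by exact_mod_cast Fintype.card_pos
  constructor
  · unfold avg
    rw [lt_div_iff₀ hc]
    have : ∑ _i : ι, (-1 : ℝ) < ∑ i, f i :=
      Finset.sum_lt_sum_of_nonempty Finset.univ_nonempty fun i _ => (h i).1
    simpa [mul_comm] using this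
  · unfold avg
    rw [div_lt_iff₀ hc]
    have : ∑ i, f i < ∑ _i : ι, (1 : ℝ) :=
      Finset.sum_lt_sum_of_nonempty Finset.univ_nonempty fun i _ => (h i).2
    simpa [mul_comm] using this

lemma hasDerivAt_avg {f : ι → ℝ → ℝ} {f' : ι → ℝ} {x : ℝ}
    (h : ∀ i, HasDerivAt (f i) (f' i) x) :
    HasDerivAt (fun x => avg fun i => f i x) (avg f') x := by
  unfold avg
  exact (HasDerivAt.fun_sum fun i _ => h i).div_const _

lemma hasDerivAt_ath {x : ℝ} (hx : x ∈ Ioo (-1 : ℝ) 1) :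
    HasDerivAt ath (1 / (1 - x ^ 2)) x := by
  have h1 : (1 : ℝ) + x ≠ 0 := by have := hx.1; linarith
  have h2 : (1 : ℝ) - x ≠ 0 := by have := hx.2; intro h; linarith
  have h3 : (1 : ℝ) - x ^ 2 ≠ 0 := by
    have : (1 : ℝ) - x ^ 2 = (1 + x) * (1 - x) := by ring
    rw [this]; exact mul_ne_zero h1 h2
  have e1 : HasDerivAt (fun x : ℝ => log (1 + x)) (1 / (1 + x)) x :=
    HasDerivAt.log ((hasDerivAt_id x).const_add 1) h1
  have e2 : HasDerivAt (fun x : ℝ => log (1 - x)) (-1 / (1 - x)) x :=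
    HasDerivAt.log ((hasDerivAt_id x).const_sub 1) h2
  have e3 := (e1.sub e2).div_const 2
  refine HasDerivAt.congr_deriv (f' := _) e3 ?_
  field_simp
  ring

lemma hasDerivAt_Phi {x : ℝ} (hx : x ∈ Ioo (-1 : ℝ) 1) :
    HasDerivAt Phi (ath x) x := by
  have h1 : (1 : ℝ) + x ≠ 0 := by have := hx.1; linarith
  have h2 : (1 : ℝ) - x ≠ 0 := by have := hx.2; intro h; linarith
  have a1 : HasDerivAt (fun x : ℝ => 1 + x) 1 x := (hasDerivAt_id x).const_add 1
  have a2 : HasDerivAt (fun x : ℝ => 1 - x) (-1) x := (hasDerivAt_id x).const_sub 1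
  have e1 : HasDerivAt (fun x : ℝ => log (1 + x)) (1 / (1 + x)) x := a1.log h1
  have e2 : HasDerivAt (fun x : ℝ => log (1 - x)) (-1 / (1 - x)) x := a2.log h2
  have e3 := ((a1.mul e1).add (a2.mul e2)).div_const 2
  refine HasDerivAt.congr_deriv (f' := _) e3 ?_
  unfold ath
  field_simp
  ring

/-- `Φ(σ) - Φ(m) - Φ'(m)(σ-m)` as a relative entropy -/
lemma KL_eq (σ m : ℝ) : Phi σ - Phi m - ath m * (σ - m) =
    ((1 + σ) * (log (1 + σ) - log (1 + m)) + (1 - σ) * (log (1 - σ) - log (1 - m))) / 2 := by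
  unfold Phi ath
  ring

lemma one_sub_sq_pos {x : ℝ} (hx : x ∈ Ioo (-1 : ℝ) 1) : 0 < 1 - x ^ 2 := by
  have := hx.1; have := hx.2; nlinarith

lemma KL_nonneg {σ m : ℝ} (hσ : σ ∈ Ioo (-1 : ℝ) 1) (hm : m ∈ Ioo (-1 : ℝ) 1) :
    0 ≤ Phi σ - Phi m - ath m * (σ - m) := by
  rw [KL_eq]
  have s1 : 0 < 1 + σ := by have := hσ.1; linarith
  have s2 : 0 < 1 - σ := by have := hσ.2; linarith
  have m1 : 0 < 1 + m := by have := hm.1; linarith
  have m2 : 0 < 1 - m := by have := hm.2; linarith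
  have k1 : log (1 + m) - log (1 + σ) ≤ (1 + m) / (1 + σ) - 1 := by
    rw [← log_div m1.ne' s1.ne']
    exact log_le_sub_one_of_pos (div_pos m1 s1)
  have k2 : log (1 - m) - log (1 - σ) ≤ (1 - m) / (1 - σ) - 1 := by
    rw [← log_div m2.ne' s2.ne']
    exact log_le_sub_one_of_pos (div_pos m2 s2)
  have l1 := mul_le_mul_of_nonneg_left k1 s1.le
  have l2 := mul_le_mul_of_nonneg_left k2 s2.le
  have r1 : (1 + σ) * ((1 + m) / (1 + σ) - 1) = m - σ := by field_simp; ring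
  have r2 : (1 - σ) * ((1 - m) / (1 - σ) - 1) = σ - m := by field_simp; ring
  rw [r1] at l1
  rw [r2] at l2
  nlinarith

lemma KL_le {σ m : ℝ} (hσ : σ ∈ Ioo (-1 : ℝ) 1) (hm : m ∈ Ioo (-1 : ℝ) 1) :
    Phi σ - Phi m - ath m * (σ - m) ≤ (σ - m) ^ 2 / (1 - m ^ 2) := by
  rw [KL_eq]
  have s1 : 0 < 1 + σ := by have := hσ.1; linarith
  have s2 : 0 < 1 - σ := by have := hσ.2; linarith
  have m1 : 0 < 1 + m := by have := hm.1; linarith
  have m2 : 0 < 1 - m := by have := hm.2; linarith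
  have k1 : log (1 + σ) - log (1 + m) ≤ (1 + σ) / (1 + m) - 1 := by
    rw [← log_div s1.ne' m1.ne']
    exact log_le_sub_one_of_pos (div_pos s1 m1)
  have k2 : log (1 - σ) - log (1 - m) ≤ (1 - σ) / (1 - m) - 1 := by
    rw [← log_div s2.ne' m2.ne']
    exact log_le_sub_one_of_pos (div_pos s2 m2)
  have l1 := mul_le_mul_of_nonneg_left k1 s1.le
  have l2 := mul_le_mul_of_nonneg_left k2 s2.le
  have h3 : (1 : ℝ) - m ^ 2 = (1 + m) * (1 - m) := by ring
  have r : (1 + σ) * ((1 + σ) / (1 + m) - 1) + (1 - σ) * ((1 - σ) / (1 - m) - 1)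
      = 2 * ((σ - m) ^ 2 / (1 - m ^ 2)) := by
    rw [h3]; field_simp; ring
  linarith

/-- pointwise inequality behind `(1-m²) Γ'' ≥ D² Γ` -/
lemma pointwise {σ m p D : ℝ} (hσ : σ ∈ Ioo (-1 : ℝ) 1) (hm : m ∈ Ioo (-1 : ℝ) 1) :
    D ^ 2 / (1 - m ^ 2) * (Phi σ - Phi m - ath m * (σ - m))
      + (2 * (D / (1 - m ^ 2)) * p - (D / (1 - m ^ 2)) ^ 2 * (1 - m ^ 2)
        + 2 * m * (D / (1 - m ^ 2)) ^ 2 * (σ - m)) ≤ p ^ 2 * (1 / (1 - σ ^ 2)) := by
  have hs := one_sub_sq_pos hσ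
  have hm' := one_sub_sq_pos hm
  set l := D / (1 - m ^ 2) with hl
  have h1 : 2 * l * p - l ^ 2 * (1 - σ ^ 2) ≤ p ^ 2 * (1 / (1 - σ ^ 2)) := by
    rw [mul_one_div, le_div_iff₀ hs]
    nlinarith [sq_nonneg (p - l * (1 - σ ^ 2))]
  have h2 : D ^ 2 / (1 - m ^ 2) * (Phi σ - Phi m - ath m * (σ - m)) ≤ l ^ 2 * (σ - m) ^ 2 := by
    have h3 : D ^ 2 / (1 - m ^ 2) * ((σ - m) ^ 2 / (1 - m ^ 2)) = l ^ 2 * (σ - m) ^ 2 := by
      rw [hl]; field_simp
    rw [← h3]
    exact mul_le_mul_of_nonneg_left (KL_le hσ hm) (by positivity)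
  nlinarith

end JBaux

open JBaux in
/-- (JB) -/
theorem jb {ι : Type*} [Fintype ι] [Nonempty ι] (s t : ι → ℝ)
    (hs : ∀ i, s i ∈ Ioo (-1 : ℝ) 1) (ht : ∀ i, t i ∈ Ioo (-1 : ℝ) 1) (hst : avg s ≤ avg t)
    {A : ℝ} (hA : 0 ≤ A)
    (hAm : ∀ m ∈ Icc (avg s) (avg t), A * (2 * (1 - m ^ 2) + (avg t - m) * (m - avg s)) ≤ 1) :
    JJ (avg s) (avg t) + (avg t - avg s) ^ 2 / 2 * A * ((Ent s + Ent t) / 2)
      ≤ avg fun i => JJ (s i) (t i) := by
  set m0 := avg s with hm0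
  set m1 := avg t with hm1
  set D := m1 - m0 with hD
  have hm0' : m0 ∈ Ioo (-1 : ℝ) 1 := avg_mem hs
  have hm1' : m1 ∈ Ioo (-1 : ℝ) 1 := avg_mem ht
  -- the interpolation
  let σ : ι → ℝ → ℝ := fun i w => s i + w * (t i - s i)
  let m : ℝ → ℝ := fun w => m0 + w * D
  have hσ : ∀ i, ∀ w ∈ Icc (0 : ℝ) 1, σ i w ∈ Ioo (-1 : ℝ) 1 := by
    intro i w hw
    obtain ⟨a1, a2⟩ := hs i
    obtain ⟨b1, b2⟩ := ht i
    obtain ⟨w0, w1⟩ := hw
    simp only [σ]
    constructor
    · rcases eq_or_lt_of_le w1 with h | h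
      · subst h; linarith
      · nlinarith [mul_nonneg w0 (by linarith : (0 : ℝ) ≤ t i + 1), mul_pos (by linarith : 0 < 1 - w) (by linarith : (0 : ℝ) < s i + 1)]
    · rcases eq_or_lt_of_le w1 with h | h
      · subst h; linarith
      · nlinarith [mul_nonneg w0 (by linarith : (0 : ℝ) ≤ 1 - t i), mul_pos (by linarith : 0 < 1 - w) (by linarith : (0 : ℝ) < 1 - s i)]
  have hm : ∀ w ∈ Icc (0 : ℝ) 1, m w ∈ Icc m0 m1 := by
    intro w hw
    have hD0 : 0 ≤ D := by linarith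
    simp only [m]
    constructor
    · nlinarith [mul_nonneg hw.1 hD0]
    · nlinarith [mul_nonneg (by linarith [hw.2] : 0 ≤ 1 - w) hD0]
  have hm' : ∀ w ∈ Icc (0 : ℝ) 1, m w ∈ Ioo (-1 : ℝ) 1 := by
    intro w hw
    have := hm w hw
    exact ⟨lt_of_lt_of_le hm0'.1 this.1, lt_of_le_of_lt this.2 hm1'.2⟩
  have hσd : ∀ i w, HasDerivAt (σ i) (t i - s i) w := by
    intro i w
    have := ((hasDerivAt_id w).mul_const (t i - s i)).const_add (s i)
    simpa [σ] using this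
  have hmd : ∀ w, HasDerivAt m D w := by
    intro w
    have := ((hasDerivAt_id w).mul_const D).const_add m0
    simpa [m] using this
  have hmavg : ∀ w, avg (fun i => σ i w) = m w := by
    intro w
    have : avg (fun i => σ i w) = avg s + w * (avg t - avg s) := by
      simp only [σ, avg_add, avg_mul_left, avg_sub]
    rw [this]
  have hpavg : avg (fun i => t i - s i) = D := by
    rw [avg_sub]
  -- Γ and derivatives
  let G0 : ℝ → ℝ := fun w => avg (fun i => Phi (σ i w)) - Phi (m w)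
  let G1 : ℝ → ℝ := fun w => avg (fun i => ath (σ i w) * (t i - s i)) - ath (m w) * D
  let G2' : ℝ → ℝ := fun w => avg (fun i => (t i - s i) ^ 2 * (1 / (1 - (σ i w) ^ 2)))
    - D ^ 2 * (1 / (1 - (m w) ^ 2))
  have dG0 : ∀ w ∈ Icc (0 : ℝ) 1, HasDerivAt G0 (G1 w) w := by
    intro w hw
    refine HasDerivAt.sub (hasDerivAt_avg fun i => ?_) ?_
    · exact HasDerivAt.comp w (hasDerivAt_Phi (hσ i w hw)) (hσd i w)
    · exact HasDerivAt.comp w (hasDerivAt_Phi (hm' w hw)) (hmd w)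
  have dG1 : ∀ w ∈ Icc (0 : ℝ) 1, HasDerivAt G1 (G2' w) w := by
    intro w hw
    refine HasDerivAt.sub (hasDerivAt_avg fun i => ?_) ?_
    · have h := (HasDerivAt.comp w (hasDerivAt_ath (hσ i w hw)) (hσd i w)).mul_const (t i - s i)
      refine HasDerivAt.congr_deriv (f' := _) h ?_
      ring
    · have h := (HasDerivAt.comp w (hasDerivAt_ath (hm' w hw)) (hmd w)).mul_const D
      refine HasDerivAt.congr_deriv (f' := _) h ?_
      ring
  have hG0 : ∀ w ∈ Icc (0 : ℝ) 1, 0 ≤ G0 w := by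
    intro w hw
    have h := avg_nonneg (fun i => KL_nonneg (hσ i w hw) (hm' w hw))
    rw [avg_sub, avg_sub, avg_const, avg_mul_left, avg_sub, avg_const, hmavg] at h
    simpa [G0] using h
  have hG2 : ∀ w ∈ Icc (0 : ℝ) 1, D ^ 2 / (1 - (m w) ^ 2) * G0 w ≤ G2' w := by
    intro w hw
    have h := avg_mono (fun i => pointwise (p := t i - s i) (D := D) (hσ i w hw) (hm' w hw))
    have hm2 := one_sub_sq_pos (hm' w hw)
    rw [avg_add, avg_mul_left, avg_sub, avg_sub, avg_const, avg_mul_left, avg_sub, avg_const,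
      hmavg, avg_add, avg_sub, avg_const, avg_mul_left, avg_mul_left, hpavg,
      avg_sub (fun i => σ i w) (fun _ => m w), hmavg, avg_const] at h
    have e1 : 2 * (D / (1 - (m w) ^ 2)) * D - (D / (1 - (m w) ^ 2)) ^ 2 * (1 - (m w) ^ 2)
        = D ^ 2 * (1 / (1 - (m w) ^ 2)) := by
      field_simp; ring
    simp only [G2', G0]
    have e2 : m w - m w = 0 := sub_self _
    rw [e2, mul_zero, mul_zero] at h
    linarith
  -- the monotone function
  let ψ : ℝ → ℝ := fun w => 1 - A * D ^ 2 * (w * (1 - w))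
  let ψ1 : ℝ → ℝ := fun w => -(A * D ^ 2) * (1 - 2 * w)
  have dψ : ∀ w, HasDerivAt ψ (ψ1 w) w := by
    intro w
    have h := (((hasDerivAt_id w).mul ((hasDerivAt_id w).const_sub 1)).const_mul
      (A * D ^ 2)).const_sub 1
    refine HasDerivAt.congr_deriv (f' := _) h ?_
    simp only [ψ1, id]; ring
  have dψ1 : ∀ w, HasDerivAt ψ1 (2 * (A * D ^ 2)) w := by
    intro w
    have h := (((hasDerivAt_id w).const_mul 2).const_sub 1).const_mul (-(A * D ^ 2))
    refine HasDerivAt.congr_deriv (f' := _) h ?_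
    ring
  let F : ℝ → ℝ := fun w => ψ w * G1 w - ψ1 w * G0 w
  have dF : ∀ w ∈ Icc (0 : ℝ) 1, HasDerivAt F (ψ w * G2' w - 2 * (A * D ^ 2) * G0 w) w := by
    intro w hw
    have h := ((dψ w).mul (dG1 w hw)).sub ((dψ1 w).mul (dG0 w hw))
    refine HasDerivAt.congr_deriv (f' := _) h ?_
    ring
  have hψ : ∀ w ∈ Icc (0 : ℝ) 1, 2 * A * (1 - (m w) ^ 2) ≤ ψ w := by
    intro w hw
    have h := hAm (m w) (hm w hw)
    have e : (m1 - m w) * (m w - m0) = D ^ 2 * (w * (1 - w)) := by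
      simp only [m, hD]; ring
    rw [e] at h
    simp only [ψ]
    nlinarith
  have hmono : MonotoneOn F (Icc 0 1) := by
    apply monotoneOn_of_deriv_nonneg (convex_Icc 0 1)
    · intro w hw
      exact (dF w hw).continuousAt.continuousWithinAt
    · intro w hw
      rw [interior_Icc] at hw
      exact (dF w (Ioo_subset_Icc_self hw)).differentiableAt.differentiableWithinAt
    · intro w hw
      rw [interior_Icc] at hw
      have hw' := Ioo_subset_Icc_self hw
      rw [(dF w hw').deriv]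
      have hm2 := one_sub_sq_pos (hm' w hw')
      have h1 := hψ w hw'
      have h2 := hG2 w hw'
      have h0 := hG0 w hw'
      have hψ0 : 0 ≤ ψ w := le_trans (by positivity) h1
      have h3 : ψ w * (D ^ 2 / (1 - (m w) ^ 2) * G0 w) ≤ ψ w * G2' w :=
        mul_le_mul_of_nonneg_left h2 hψ0
      have h4 : 2 * (A * D ^ 2) * G0 w ≤ ψ w * (D ^ 2 / (1 - (m w) ^ 2) * G0 w) := by
        have h5 : 2 * (A * D ^ 2) * G0 w
            = (2 * A * (1 - (m w) ^ 2)) * (D ^ 2 / (1 - (m w) ^ 2) * G0 w) := by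
          field_simp
        rw [h5]
        exact mul_le_mul_of_nonneg_right h1 (by positivity)
      linarith
  have key := hmono (left_mem_Icc.2 zero_le_one) (right_mem_Icc.2 zero_le_one) zero_le_one
  have g00 : G0 0 = Ent s := by
    simp only [G0, σ, m, Ent, zero_mul, add_zero]
    rw [← hm0]
  have g01 : G0 1 = Ent t := by
    have e1 : ∀ i, s i + 1 * (t i - s i) = t i := fun i => by ring
    have e2 : m0 + 1 * D = m1 := by rw [hD]; ring
    simp only [G0, σ, m, Ent, e1, e2]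
    rw [← hm1]
  have g10 : G1 0 = avg (fun i => ath (s i) * (t i - s i)) - ath m0 * D := by
    simp only [G1, σ, m, zero_mul, add_zero]
  have g11 : G1 1 = avg (fun i => ath (t i) * (t i - s i)) - ath m1 * D := by
    have e1 : ∀ i, s i + 1 * (t i - s i) = t i := fun i => by ring
    have e2 : m0 + 1 * D = m1 := by rw [hD]; ring
    simp only [G1, σ, m, e1, e2]
  simp only [F, g00, g01, g10, g11, ψ, ψ1] at key
  have e3 : avg (fun i => JJ (s i) (t i)) =
      (avg (fun i => ath (t i) * (t i - s i)) - avg (fun i => ath (s i) * (t i - s i))) / 4 := by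
    rw [← avg_sub]
    have : ∀ i, JJ (s i) (t i) = (1 / 4) * (ath (t i) * (t i - s i) - ath (s i) * (t i - s i)) := by
      intro i; unfold JJ; ring
    simp only [this]
    rw [avg_mul_left]; ring
  have e4 : JJ m0 m1 = (ath m1 * D - ath m0 * D) / 4 := by
    unfold JJ; rw [hD]; ring
  rw [e3, e4]
  nlinarith
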