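import Vale.Agent.P322.BEDefs
import Vale.Agent.P322.JB

/-! (S1): calculus in `ω` for the elementary inequality (BE) -/

open Real Set Filter Topology
namespace Vale.Agent.P322
namespace BE

namespace CalcAux

lemma hasDerivAt_sq' (o : ℝ) : HasDerivAt (fun x : ℝ => x ^ 2) (2 * o) o := by
  simpa using hasDerivAt_pow 2 o

lemma hasDerivAt_cube' (o : ℝ) : HasDerivAt (fun x : ℝ => x ^ 3) (3 * o ^ 2) o := by
  simpa using hasDerivAt_pow 3 o

/-- `u` -/
noncomputable def uu (z o : ℝ) : ℝ := 1 - (1 - o) * z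

/-- `m` -/
noncomputable def mm (z o : ℝ) : ℝ := √(o * (1 - (1 - o) * z))

/-- `a` -/
noncomputable def av (z o : ℝ) : ℝ :=
  ath (z * √(o * (1 - (1 - o) * z)) / (1 - (1 - o) * z))

lemma uu_pos {z o : ℝ} (hz0 : 0 < z) (hz1 : z < 1) (ho : 0 ≤ o) : 0 < uu z o := by
  unfold uu
  nlinarith [mul_nonneg ho hz0.le]

lemma mm_sq {z o : ℝ} (hz0 : 0 < z) (hz1 : z < 1) (ho : 0 ≤ o) : mm z o ^ 2 = o * uu z o := by
  have := uu_pos hz0 hz1 ho
  unfold mm
  rw [Real.sq_sqrt]
  · rfl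
  · exact mul_nonneg ho this.le

lemma mm_pos {z o : ℝ} (hz0 : 0 < z) (hz1 : z < 1) (ho : 0 < o) : 0 < mm z o := by
  have := uu_pos hz0 hz1 ho.le
  exact Real.sqrt_pos.2 (mul_pos ho this)

lemma mm_nonneg (z o : ℝ) : 0 ≤ mm z o := Real.sqrt_nonneg _

lemma y_sq {z o : ℝ} (hz0 : 0 < z) (hz1 : z < 1) (ho : 0 ≤ o) :
    1 - (z * mm z o / uu z o) ^ 2 = (1 - z) * (1 + o * z) / uu z o := by
  have h1 := uu_pos hz0 hz1 ho
  rw [div_pow, mul_pow, mm_sq hz0 hz1 ho]
  field_simp
  unfold uu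
  ring

lemma y_mem {z o : ℝ} (hz0 : 0 < z) (hz1 : z < 1) (ho : 0 ≤ o) :
    0 ≤ z * mm z o / uu z o ∧ z * mm z o / uu z o < 1 := by
  have h1 := uu_pos hz0 hz1 ho
  have h2 := mm_nonneg z o
  have h3 : 0 ≤ z * mm z o / uu z o := by positivity
  refine ⟨h3, ?_⟩
  have h4 := y_sq hz0 hz1 ho
  have h5 : 0 < (1 - z) * (1 + o * z) / uu z o := by
    have : 0 < 1 - z := by linarith
    positivity
  rw [← h4] at h5
  nlinarith

lemma hasDerivAt_uu (z o : ℝ) : HasDerivAt (uu z) z o := by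
  unfold uu
  refine ((((hasDerivAt_id' o).const_sub 1).mul_const z).const_sub 1).congr_deriv ?_
  ring

lemma hasDerivAt_mm {z o : ℝ} (hz0 : 0 < z) (hz1 : z < 1) (ho : 0 < o) :
    HasDerivAt (mm z) ((uu z o + o * z) / (2 * mm z o)) o := by
  have h1 := (hasDerivAt_id' o).mul (hasDerivAt_uu z o)
  have h2 : o * uu z o ≠ 0 := (mul_pos ho (uu_pos hz0 hz1 ho.le)).ne'
  refine (h1.sqrt h2).congr_deriv ?_
  simp only [one_mul]
  rfl

lemma hasDerivAt_av {z o : ℝ} (hz0 : 0 < z) (hz1 : z < 1) (ho : 0 < o) :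
    HasDerivAt (av z) (z / (2 * mm z o * (1 + o * z))) o := by
  have hu := uu_pos hz0 hz1 ho.le
  have hm := mm_pos hz0 hz1 ho
  have hm2 := mm_sq hz0 hz1 ho.le
  have h1 := ((hasDerivAt_mm hz0 hz1 ho).const_mul z).div (hasDerivAt_uu z o) hu.ne'
  obtain ⟨hy0, hy1⟩ := y_mem hz0 hz1 ho.le
  have h2 := JBaux.hasDerivAt_ath (x := z * mm z o / uu z o) ⟨by linarith, hy1⟩
  have h3 := h2.comp o h1
  refine h3.congr_deriv ?_
  rw [y_sq hz0 hz1 ho.le]
  have h4 : z * ((uu z o + o * z) / (2 * mm z o)) * uu z o - z * mm z o * z =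
      z * (1 - z) * uu z o / (2 * mm z o) := by
    rw [eq_div_iff (by positivity)]
    have e : (z * ((uu z o + o * z) / (2 * mm z o)) * uu z o - z * mm z o * z) * (2 * mm z o) =
        z * (uu z o + o * z) * uu z o - 2 * z ^ 2 * mm z o ^ 2 := by
      field_simp
    rw [e, hm2]
    unfold uu
    ring
  rw [h4]
  have h5 : 0 < 1 - z := by linarith
  have h6 : 0 < 1 + o * z := by positivity
  field_simp

/-- first derivative of `PP z` -/
noncomputable def PP1 (z o : ℝ) : ℝ :=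
  -log (1 - z) - (uu z o + o * z) / mm z o * av z o

/-- second derivative of `PP z` -/
noncomputable def PP2 (z o : ℝ) : ℝ :=
  (1 - z) ^ 2 * av z o / (2 * mm z o ^ 3) -
    z * (uu z o + o * z) / (2 * mm z o ^ 2 * (1 + o * z))

lemma hasDerivAt_PP {z o : ℝ} (hz0 : 0 < z) (hz1 : z < 1) (ho : 0 < o) :
    HasDerivAt (PP z) (PP1 z o) o := by
  have hm := mm_pos hz0 hz1 ho
  have h6 : 0 < 1 + o * z := by positivity
  have h1 : HasDerivAt (fun o : ℝ => -(o * log (1 - z))) (-log (1 - z)) o := by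
    refine ((hasDerivAt_id' o).mul_const (log (1 - z))).neg.congr_deriv ?_
    ring
  have h2 : HasDerivAt (fun o : ℝ => log (1 + o * z)) (z / (1 + o * z)) o := by
    refine ((((hasDerivAt_id' o).mul_const z).const_add 1).log h6.ne').congr_deriv ?_
    ring
  have h3 := ((hasDerivAt_mm hz0 hz1 ho).const_mul 2).mul (hasDerivAt_av hz0 hz1 ho)
  refine ((h1.add h2).sub h3).congr_deriv ?_
  unfold PP1
  field_simp
  ring

lemma hasDerivAt_PP1 {z o : ℝ} (hz0 : 0 < z) (hz1 : z < 1) (ho : 0 < o) :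
    HasDerivAt (PP1 z) (PP2 z o) o := by
  have hu := uu_pos hz0 hz1 ho.le
  have hm := mm_pos hz0 hz1 ho
  have hm2 := mm_sq hz0 hz1 ho.le
  have h6 : 0 < 1 + o * z := by positivity
  have h1 : HasDerivAt (fun o => uu z o + o * z) (2 * z) o := by
    refine ((hasDerivAt_uu z o).add ((hasDerivAt_id' o).mul_const z)).congr_deriv ?_
    ring
  have h2 := h1.div (hasDerivAt_mm hz0 hz1 ho) hm.ne'
  have h3 : (2 * z * mm z o - (uu z o + o * z) * ((uu z o + o * z) / (2 * mm z o))) /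
      mm z o ^ 2 = -((1 - z) ^ 2 / (2 * mm z o ^ 3)) := by
    have e : 2 * z * mm z o - (uu z o + o * z) * ((uu z o + o * z) / (2 * mm z o)) =
        -((1 - z) ^ 2) / (2 * mm z o) := by
      rw [eq_div_iff (by positivity)]
      have e2 : (2 * z * mm z o - (uu z o + o * z) * ((uu z o + o * z) / (2 * mm z o))) *
          (2 * mm z o) = 4 * z * mm z o ^ 2 - (uu z o + o * z) ^ 2 := by
        field_simp
        ring
      rw [e2, hm2]
      unfold uu
      ring
    rw [e]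
    field_simp
  have h4 := h2.mul (hasDerivAt_av hz0 hz1 ho)
  refine (h4.const_sub (-log (1 - z))).congr_deriv ?_
  rw [h3]
  unfold PP2
  simp only [Pi.div_apply]
  field_simp
  ring

/-- `artanh y ≤ y (2/3 + 1/(3(1-y²)))` -/
lemma ath_le {y : ℝ} (h0 : 0 ≤ y) (h1 : y < 1) :
    ath y ≤ y * (2 / 3 + 1 / (3 * (1 - y ^ 2))) := by
  have hd : ∀ x ∈ Ico (0 : ℝ) 1, HasDerivAt
      (fun x => x * (2 / 3 + 1 / (3 * (1 - x ^ 2))) - ath x)
      (2 * x ^ 4 / (3 * (1 - x ^ 2) ^ 2)) x := by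
    intro x hx
    have hx1 : 0 < 1 - x ^ 2 := by nlinarith [hx.1, hx.2]
    have e1 : HasDerivAt (fun x : ℝ => 3 * (1 - x ^ 2)) (-(6 * x)) x := by
      refine (((hasDerivAt_sq' x).const_sub 1).const_mul 3).congr_deriv ?_
      ring
    have e2 := (((hasDerivAt_const x (1 : ℝ)).div e1 (by positivity)).const_add (2 / 3))
    have e3 := (hasDerivAt_id' x).mul e2
    have e4 := JBaux.hasDerivAt_ath (x := x) ⟨by linarith [hx.1], hx.2⟩
    refine (e3.sub e4).congr_deriv ?_
    simp only [Pi.div_apply]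
    field_simp
    ring
  have hmono : MonotoneOn (fun x => x * (2 / 3 + 1 / (3 * (1 - x ^ 2))) - ath x) (Icc 0 y) := by
    apply monotoneOn_of_deriv_nonneg (convex_Icc 0 y)
    · intro x hx
      exact (hd x ⟨hx.1, hx.2.trans_lt h1⟩).continuousAt.continuousWithinAt
    · intro x hx
      rw [interior_Icc] at hx
      exact (hd x ⟨hx.1.le, hx.2.trans h1⟩).differentiableAt.differentiableWithinAt
    · intro x hx
      rw [interior_Icc] at hx
      rw [(hd x ⟨hx.1.le, hx.2.trans h1⟩).deriv]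
      positivity
  have := hmono (left_mem_Icc.2 h0) (right_mem_Icc.2 h0) h0
  simp only [zero_mul, zero_sub] at this
  have h3 : ath 0 = 0 := by simp [ath]
  rw [h3] at this
  linarith

lemma PP2_le {z o : ℝ} (hz0 : 0 < z) (hz1 : z < 1) (ho : 0 < o) :
    PP2 z o ≤ -RR z o := by
  have hu := uu_pos hz0 hz1 ho.le
  have hm := mm_pos hz0 hz1 ho
  have hm2 := mm_sq hz0 hz1 ho.le
  have h6 : 0 < 1 + o * z := by positivity
  have h7 : 0 < 1 - z := by linarith
  obtain ⟨hy0, hy1⟩ := y_mem hz0 hz1 ho.le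
  have h1 : av z o ≤ z * mm z o / uu z o * (2 / 3 + 1 / (3 * ((1 - z) * (1 + o * z) / uu z o))) := by
    have := ath_le hy0 hy1
    rw [y_sq hz0 hz1 ho.le] at this
    exact this
  have h2 : (1 - z) ^ 2 * av z o / (2 * mm z o ^ 3) ≤
      (1 - z) ^ 2 * (z * mm z o / uu z o * (2 / 3 + 1 / (3 * ((1 - z) * (1 + o * z) / uu z o)))) /
        (2 * mm z o ^ 3) := by
    apply div_le_div_of_nonneg_right _ (by positivity)
    exact mul_le_mul_of_nonneg_left h1 (by positivity)
  have h3 : (1 - z) ^ 2 * (z * mm z o / uu z o * (2 / 3 + 1 / (3 * ((1 - z) * (1 + o * z) /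
      uu z o)))) / (2 * mm z o ^ 3) =
      (1 - z) ^ 2 * z / (2 * uu z o * mm z o ^ 2) *
        (2 / 3 + uu z o / (3 * ((1 - z) * (1 + o * z)))) := by
    field_simp
  have h4 : (1 - z) ^ 2 * z / (2 * uu z o * mm z o ^ 2) *
        (2 / 3 + uu z o / (3 * ((1 - z) * (1 + o * z)))) -
      z * (uu z o + o * z) / (2 * mm z o ^ 2 * (1 + o * z)) = -RR z o := by
    rw [hm2]
    unfold RR
    have e : 1 - z + o * z = uu z o := by unfold uu; ring
    rw [e]
    field_simp
    unfold uu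
    ring
  unfold PP2
  linarith

/-- derivative of `bq` -/
noncomputable def bq1 (z o : ℝ) : ℝ :=
  (18 * z - 1 - 9 * z ^ 2) / 5 + 16 * z * (2 * z - 1) * o / 5 - 24 * z ^ 2 * o ^ 2 / 5

/-- first derivative of `QB` -/
noncomputable def QB1 (z L s K o : ℝ) : ℝ :=
  -(L / 2 * Bq z o + c0 / 2 * Bq z o ^ 2 - s * bq z o + K) +
    (1 - o) * (L / 2 * Bq1 z o + c0 * Bq z o * Bq1 z o - s * bq1 z o)

lemma hasDerivAt_Bq (z o : ℝ) : HasDerivAt (Bq z) (Bq1 z o) o := by
  unfold Bq Bq1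
  have h1 := ((hasDerivAt_id' o).mul_const (6 * z - 1)).div_const 5
  have h2 := (((hasDerivAt_sq' o).mul_const z).mul_const (2 - z)).div_const 5
  have h3 := ((hasDerivAt_cube' o).mul_const (z ^ 2)).div_const 5
  refine ((h1.sub h2).sub h3).congr_deriv ?_
  ring

lemma hasDerivAt_Bq1 (z o : ℝ) : HasDerivAt (Bq1 z) (Bq2 z o) o := by
  unfold Bq1 Bq2
  have h2 := ((((hasDerivAt_id' o).const_mul 2).mul_const z).mul_const (2 - z)).div_const 5
  have h3 := (((hasDerivAt_sq' o).const_mul 3).mul_const (z ^ 2)).div_const 5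
  refine ((h2.const_sub ((6 * z - 1) / 5)).sub h3).congr_deriv ?_
  ring

lemma hasDerivAt_bq (z o : ℝ) : HasDerivAt (bq z) (bq1 z o) o := by
  unfold bq bq1
  have h1 := ((hasDerivAt_id' o).mul_const (18 * z - 1 - 9 * z ^ 2)).div_const 5
  have h2 := ((hasDerivAt_sq' o).const_mul (8 * z * (2 * z - 1))).div_const 5
  have h3 := ((hasDerivAt_cube' o).const_mul (8 * z ^ 2)).div_const 5
  refine (((h1.const_add ((1 - z) * (5 - z) / 5)).add h2).sub h3).congr_deriv ?_
  ring

lemma hasDerivAt_bq1 (z o : ℝ) :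
    HasDerivAt (bq1 z) (16 * z * (2 * z - 1) / 5 - 48 * z ^ 2 * o / 5) o := by
  unfold bq1
  have h1 := ((hasDerivAt_id' o).const_mul (16 * z * (2 * z - 1))).div_const 5
  have h2 := ((hasDerivAt_sq' o).const_mul (24 * z ^ 2)).div_const 5
  refine ((h1.const_add ((18 * z - 1 - 9 * z ^ 2) / 5)).sub h2).congr_deriv ?_
  ring

lemma hasDerivAt_Bqsq (z o : ℝ) :
    HasDerivAt (fun o => Bq z o ^ 2) (2 * Bq z o * Bq1 z o) o :=
  (hasDerivAt_sq' (Bq z o)).comp o (hasDerivAt_Bq z o)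

lemma hasDerivAt_QB (z L s K o : ℝ) : HasDerivAt (QB z L s K) (QB1 z L s K o) o := by
  have h1 := (hasDerivAt_Bq z o).const_mul (L / 2)
  have h2 := (hasDerivAt_Bqsq z o).const_mul (c0 / 2)
  have h3 := (hasDerivAt_bq z o).const_mul s
  have h4 := ((h1.add h2).sub h3).add_const K
  have h5 := ((hasDerivAt_id' o).const_sub 1).mul h4
  refine h5.congr_deriv ?_
  unfold QB1
  simp only [Pi.add_apply, Pi.sub_apply]
  ring

lemma hasDerivAt_QB1 (z L s K o : ℝ) : HasDerivAt (QB1 z L s K) (QB2 z L s o) o := by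
  have h1 := (hasDerivAt_Bq z o).const_mul (L / 2)
  have h2 := (hasDerivAt_Bqsq z o).const_mul (c0 / 2)
  have h3 := (hasDerivAt_bq z o).const_mul s
  have h4 := ((h1.add h2).sub h3).add_const K
  have g1 := (hasDerivAt_Bq1 z o).const_mul (L / 2)
  have g2 := ((hasDerivAt_Bq z o).const_mul c0).mul (hasDerivAt_Bq1 z o)
  have g3 := (hasDerivAt_bq1 z o).const_mul s
  have g4 := (g1.add g2).sub g3
  have h5 := h4.neg.add (((hasDerivAt_id' o).const_sub 1).mul g4)
  refine h5.congr_deriv ?_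
  simp only [Pi.add_apply, Pi.sub_apply, Pi.mul_apply]
  unfold QB2 Bq1 Bq2 bq1 Bq
  ring

end CalcAux

open CalcAux

theorem PP_zero (z : ℝ) : PP z 0 = 0 := by
  simp [PP]

theorem PP_one {z : ℝ} (hz0 : 0 < z) (hz1 : z < 1) : PP z 1 = 0 := by
  have _ := hz0
  have _ := hz1
  simp [PP, ath]
  ring

theorem QB_le_PP {z L s K a b : ℝ} (hz0 : 0 < z) (hz1 : z < 1) (ha : 0 ≤ a) (hab : a < b)
    (hb : b ≤ 1) (hconc : ∀ o ∈ Ioo a b, 0 ≤ RR z o + QB2 z L s o)
    (hva : QB z L s K a ≤ PP z a) (hvb : QB z L s K b ≤ PP z b) {o : ℝ} (ho : o ∈ Icc a b) :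
    QB z L s K o ≤ PP z o := by
  have _ := hb
  have hcont : ContinuousOn (fun o => PP z o - QB z L s K o) (Icc a b) := by
    apply ContinuousOn.sub
    · unfold PP
      have hu : ContinuousOn (fun o : ℝ => 1 - (1 - o) * z) (Icc a b) := by fun_prop
      have hm : ContinuousOn (fun o : ℝ => √(o * (1 - (1 - o) * z))) (Icc a b) := by fun_prop
      have hy : ContinuousOn
          (fun o : ℝ => z * √(o * (1 - (1 - o) * z)) / (1 - (1 - o) * z)) (Icc a b) := by
        apply (hm.const_mul z).div hu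
        intro x hx
        exact (uu_pos hz0 hz1 (ha.trans hx.1)).ne'
      have hath : ContinuousOn
          (fun o : ℝ => ath (z * √(o * (1 - (1 - o) * z)) / (1 - (1 - o) * z))) (Icc a b) := by
        intro x hx
        obtain ⟨hy0, hy1⟩ := y_mem hz0 hz1 (ha.trans hx.1)
        have h2 := JBaux.hasDerivAt_ath (x := z * mm z x / uu z x) ⟨by linarith, hy1⟩
        exact ContinuousAt.comp_continuousWithinAt (g := ath) h2.continuousAt (hy x hx)
      apply ContinuousOn.sub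
      · apply ContinuousOn.add
        · fun_prop
        · apply ContinuousOn.log (by fun_prop)
          intro x hx
          have : 0 ≤ x * z := mul_nonneg (ha.trans hx.1) hz0.le
          linarith
      · exact (hm.const_mul 2).mul hath
    · intro x _
      exact (hasDerivAt_QB z L s K x).continuousAt.continuousWithinAt
  have hconcave : ConcaveOn ℝ (Icc a b) (fun o => PP z o - QB z L s K o) := by
    apply concaveOn_of_hasDerivWithinAt2_nonpos (convex_Icc a b) hcont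
      (f' := fun o => PP1 z o - QB1 z L s K o) (f'' := fun o => PP2 z o - QB2 z L s o)
    · intro x hx
      rw [interior_Icc] at hx
      exact ((hasDerivAt_PP hz0 hz1 (ha.trans_lt hx.1)).sub
        (hasDerivAt_QB z L s K x)).hasDerivWithinAt
    · intro x hx
      rw [interior_Icc] at hx
      exact ((hasDerivAt_PP1 hz0 hz1 (ha.trans_lt hx.1)).sub
        (hasDerivAt_QB1 z L s K x)).hasDerivWithinAt
    · intro x hx
      rw [interior_Icc] at hx
      have h1 := PP2_le hz0 hz1 (ha.trans_lt hx.1)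
      have h2 := hconc x hx
      linarith
  have h1 := hconcave.min_le_of_mem_Icc (left_mem_Icc.2 hab.le) (right_mem_Icc.2 hab.le) ho
  have h2 : 0 ≤ min (PP z a - QB z L s K a) (PP z b - QB z L s K b) :=
    le_min (by linarith) (by linarith)
  linarith

end BE
end Vale.Agent.P322
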