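import Vale.Agent.P322.Defs

/-!
# The elementary inequality (BE): definitions and exact sub-statements
-/

open Real Set Filter Topology

namespace Vale.Agent.P322
namespace BE

/-- `b - 1` -/
noncomputable def Bq (z o : ℝ) : ℝ :=
  o * (6 * z - 1) / 5 - o ^ 2 * z * (2 - z) / 5 - o ^ 3 * z ^ 2 / 5

/-- first derivative of `Bq` in `o` -/
noncomputable def Bq1 (z o : ℝ) : ℝ :=
  (6 * z - 1) / 5 - 2 * o * z * (2 - z) / 5 - 3 * o ^ 2 * z ^ 2 / 5

/-- second derivative of `Bq` in `o` -/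
noncomputable def Bq2 (z o : ℝ) : ℝ := -(2 * z * (2 - z) / 5) - 6 * o * z ^ 2 / 5

/-- `b'` -/
noncomputable def bq (z o : ℝ) : ℝ :=
  (1 - z) * (5 - z) / 5 + o * (18 * z - 1 - 9 * z ^ 2) / 5 + 8 * z * (2 * z - 1) * o ^ 2 / 5
    - 8 * z ^ 2 * o ^ 3 / 5

/-- right hand side of (BE) -/
noncomputable def PP (z o : ℝ) : ℝ :=
  -(o * log (1 - z)) + log (1 + o * z) - 2 * √(o * (1 - (1 - o) * z)) *
    ath (z * √(o * (1 - (1 - o) * z)) / (1 - (1 - o) * z))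

/-- rational lower bound for `-∂²PP/∂o²` -/
noncomputable def RR (z o : ℝ) : ℝ :=
  z ^ 2 * (1 - z + o * z + z * (1 - z) / 3) / ((1 + o * z) * (1 - z + o * z) ^ 2)

/-- the left hand side minorant -/
noncomputable def QB (z L s K o : ℝ) : ℝ :=
  (1 - o) * (L / 2 * Bq z o + c0 / 2 * Bq z o ^ 2 - s * bq z o + K)

/-- second derivative of `QB` in `o` -/
noncomputable def QB2 (z L s o : ℝ) : ℝ :=
  L / 5 * ((1 - z) ^ 2 - 6 * z * (1 - o) * (1 + z * o))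
    + c0 / 2 * (2 * (1 - o) * (Bq z o * Bq2 z o + Bq1 z o ^ 2) - 4 * Bq z o * Bq1 z o)
    - s * (2 / 5) * ((1 - z) ^ 2 - 24 * z * (1 - o) * (1 - z + 2 * z * o))

/-- `t` as a function of `L` -/
noncomputable def tt (L : ℝ) : ℝ := exp (-(L / 2 - log 2 + 1 / 2) / c0)

end BE
end Vale.Agent.P322
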