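import Vale.Agent.P322.BEDefs

/-!
# (BE), part S2b: concavity on the left piece `o ≤ .355 e`
-/

open Real Set Filter Topology

namespace Vale.Agent.P322
namespace BE
namespace LeftAux

theorem pl0 {e : ℝ} (h0 : 0 ≤ e) (h1 : e ≤ 3/4) :
    0 ≤ (131072/729) * e + (-65536/405) * e ^ 2 + (-5828608/91125) * e ^ 3 + (32768/1215) * e ^ 6 := by
  obtain ⟨p, hp⟩ : ∃ p, p = e - 0 := ⟨_, rfl⟩
  obtain ⟨q, hq⟩ : ∃ q, q = 3/4 - e := ⟨_, rfl⟩
  have hp0 : 0 ≤ p := by linarith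
  have hq0 : 0 ≤ q := by linarith
  have e1 : (131072/729) * e + (-65536/405) * e ^ 2 + (-5828608/91125) * e ^ 3 + (32768/1215) * e ^ 6 = 137438953472/43046721 * p ^ 1 * q ^ 10 + 6408091205632/215233605 * p ^ 2 * q ^ 9 + 73920950566912/597871125 * p ^ 3 * q ^ 8 + 538870219276288/1793613375 * p ^ 4 * q ^ 7 + 845804688375808/1793613375 * p ^ 5 * q ^ 6 + 297363436470272/597871125 * p ^ 6 * q ^ 5 + 127268840013824/358722675 * p ^ 7 * q ^ 4 + 300360417673216/1793613375 * p ^ 8 * q ^ 3 + 29497634062336/597871125 * p ^ 9 * q ^ 2 + 42985811083264/5380840125 * p ^ 10 * q ^ 1 + 2757134123008/5380840125 * p ^ 11 := by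
    rw [hp, hq]; ring
  rw [e1]
  positivity

theorem pl1 {e : ℝ} (h0 : 0 ≤ e) (h1 : e ≤ 3/4) :
    0 ≤ (4096/81) + (2834432/3645) * e + (-8848384/10125) * e ^ 2 + (-4722688/18225) * e ^ 3 + (24064/3375) * e ^ 4 + (57344/405) * e ^ 5 + (4312576/30375) * e ^ 6 + (-4096/405) * e ^ 7 + (-4096/405) * e ^ 9 := by
  obtain ⟨p, hp⟩ : ∃ p, p = e - 0 := ⟨_, rfl⟩
  obtain ⟨q, hq⟩ : ∃ q, q = 3/4 - e := ⟨_, rfl⟩
  have hp0 : 0 ≤ p := by linarith
  have hq0 : 0 ≤ q := by linarith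
  have e1 : (4096/81) + (2834432/3645) * e + (-8848384/10125) * e ^ 2 + (-4722688/18225) * e ^ 3 + (24064/3375) * e ^ 4 + (57344/405) * e ^ 5 + (4312576/30375) * e ^ 6 + (-4096/405) * e ^ 7 + (-4096/405) * e ^ 9 = 17179869184/14348907 * q ^ 11 + 5806795784192/215233605 * p ^ 1 * q ^ 10 + 1034736273195008/5380840125 * p ^ 2 * q ^ 9 + 425450870407168/597871125 * p ^ 3 * q ^ 8 + 2892207598075904/1793613375 * p ^ 4 * q ^ 7 + 862373489410048/358722675 * p ^ 5 * q ^ 6 + 483874965028864/199290375 * p ^ 6 * q ^ 5 + 2984587992498176/1793613375 * p ^ 7 * q ^ 4 + 1355279686959104/1793613375 * p ^ 8 * q ^ 3 + 384898909405184/1793613375 * p ^ 9 * q ^ 2 + 1453876707328/43046721 * p ^ 10 * q ^ 1 + 11708448309248/5380840125 * p ^ 11 := by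
    rw [hp, hq]; ring
  rw [e1]
  positivity

theorem pl2 {e : ℝ} (h0 : 0 ≤ e) (h1 : e ≤ 3/4) :
    0 ≤ (72704/405) + (119359552/91125) * e + (-6336512/3375) * e ^ 2 + (-7233536/18225) * e ^ 3 + (189952/1125) * e ^ 4 + (5815616/10125) * e ^ 5 + (6293504/30375) * e ^ 6 + (-463744/10125) * e ^ 7 + (-512/15) * e ^ 8 + (-16384/405) * e ^ 9 + (1024/135) * e ^ 10 := by
  obtain ⟨p, hp⟩ : ∃ p, p = e - 0 := ⟨_, rfl⟩
  obtain ⟨q, hq⟩ : ∃ q, q = 3/4 - e := ⟨_, rfl⟩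
  have hp0 : 0 ≤ p := by linarith
  have hq0 : 0 ≤ q := by linarith
  have e1 : (72704/405) + (119359552/91125) * e + (-6336512/3375) * e ^ 2 + (-7233536/18225) * e ^ 3 + (189952/1125) * e ^ 4 + (5815616/10125) * e ^ 5 + (6293504/30375) * e ^ 6 + (-463744/10125) * e ^ 7 + (-512/15) * e ^ 8 + (-16384/405) * e ^ 9 + (1024/135) * e ^ 10 = 304942678016/71744535 * q ^ 11 + 376735270961152/5380840125 * p ^ 1 * q ^ 10 + 2374916796055552/5380840125 * p ^ 2 * q ^ 9 + 100907370938368/66430125 * p ^ 3 * q ^ 8 + 5852893089366016/1793613375 * p ^ 4 * q ^ 7 + 8338356894957568/1793613375 * p ^ 5 * q ^ 6 + 107600890298368/23914845 * p ^ 6 * q ^ 5 + 5301861415223296/1793613375 * p ^ 7 * q ^ 4 + 2308309450522624/1793613375 * p ^ 8 * q ^ 3 + 630996282933248/1793613375 * p ^ 9 * q ^ 2 + 291751895830528/5380840125 * p ^ 10 * q ^ 1 + 19471233224704/5380840125 * p ^ 11 := by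
    rw [hp, hq]; ring
  rw [e1]
  positivity

theorem pl3 {e : ℝ} (h0 : 0 ≤ e) (h1 : e ≤ 3/4) :
    0 ≤ (31744/135) + (95976256/91125) * e + (-20332456/10125) * e ^ 2 + (-4088576/18225) * e ^ 3 + (525112/1125) * e ^ 4 + (2780416/3375) * e ^ 5 + (1105688/30375) * e ^ 6 + (-330944/3375) * e ^ 7 + (-38024/375) * e ^ 8 + (-832/27) * e ^ 9 + (1024/45) * e ^ 10 + (-64/45) * e ^ 11 := by
  obtain ⟨p, hp⟩ : ∃ p, p = e - 0 := ⟨_, rfl⟩
  obtain ⟨q, hq⟩ : ∃ q, q = 3/4 - e := ⟨_, rfl⟩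
  have hp0 : 0 ≤ p := by linarith
  have hq0 : 0 ≤ q := by linarith
  have e1 : (31744/135) + (95976256/91125) * e + (-20332456/10125) * e ^ 2 + (-4088576/18225) * e ^ 3 + (525112/1125) * e ^ 4 + (2780416/3375) * e ^ 5 + (1105688/30375) * e ^ 6 + (-330944/3375) * e ^ 7 + (-38024/375) * e ^ 8 + (-832/27) * e ^ 9 + (1024/45) * e ^ 10 + (-64/45) * e ^ 11 = 133143986176/23914845 * q ^ 11 + 430169764397056/5380840125 * p ^ 1 * q ^ 10 + 2510129968709632/5380840125 * p ^ 2 * q ^ 9 + 907160345116672/597871125 * p ^ 3 * q ^ 8 + 5568037480431616/1793613375 * p ^ 4 * q ^ 7 + 7568290387984384/1793613375 * p ^ 5 * q ^ 6 + 465302050103296/119574225 * p ^ 6 * q ^ 5 + 34874162044928/14348907 * p ^ 7 * q ^ 4 + 1804270960634368/1793613375 * p ^ 8 * q ^ 3 + 157864995732992/597871125 * p ^ 9 * q ^ 2 + 218557633163776/5380840125 * p ^ 10 * q ^ 1 + 16075161013696/5380840125 * p ^ 11 := by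
    rw [hp, hq]; ring
  rw [e1]
  positivity

theorem pl4 {e : ℝ} (h0 : 0 ≤ e) (h1 : e ≤ 3/4) :
    0 ≤ (54272/405) + (35397056/91125) * e + (-2161088/2025) * e ^ 2 + (461312/18225) * e ^ 3 + (307472/675) * e ^ 4 + (4970048/10125) * e ^ 5 + (-4098032/30375) * e ^ 6 + (-1004032/10125) * e ^ 7 + (-28048/375) * e ^ 8 + (7808/405) * e ^ 9 + (592/45) * e ^ 10 + (-128/45) * e ^ 11 := by
  obtain ⟨p, hp⟩ : ∃ p, p = e - 0 := ⟨_, rfl⟩
  obtain ⟨q, hq⟩ : ∃ q, q = 3/4 - e := ⟨_, rfl⟩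
  have hp0 : 0 ≤ p := by linarith
  have hq0 : 0 ≤ q := by linarith
  have e1 : (54272/405) + (35397056/91125) * e + (-2161088/2025) * e ^ 2 + (461312/18225) * e ^ 3 + (307472/675) * e ^ 4 + (4970048/10125) * e ^ 5 + (-4098032/30375) * e ^ 6 + (-1004032/10125) * e ^ 7 + (-28048/375) * e ^ 8 + (7808/405) * e ^ 9 + (592/45) * e ^ 10 + (-128/45) * e ^ 11 = 227633266688/71744535 * q ^ 11 + 224913948409856/5380840125 * p ^ 1 * q ^ 10 + 246734512979968/1076168025 * p ^ 2 * q ^ 9 + 84449945452544/119574225 * p ^ 3 * q ^ 8 + 490925374308352/358722675 * p ^ 4 * q ^ 7 + 3146377497411584/1793613375 * p ^ 5 * q ^ 6 + 100644253745152/66430125 * p ^ 6 * q ^ 5 + 1578493231087616/1793613375 * p ^ 7 * q ^ 4 + 24320357602304/71744535 * p ^ 8 * q ^ 3 + 152959464264704/1793613375 * p ^ 9 * q ^ 2 + 74666684186048/5380840125 * p ^ 10 * q ^ 1 + 6836354676032/5380840125 * p ^ 11 := by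
    rw [hp, hq]; ring
  rw [e1]
  positivity

theorem pl5 {e : ℝ} (h0 : 0 ≤ e) (h1 : e ≤ 3/4) :
    0 ≤ (11264/405) + (4303552/91125) * e + (-28056/125) * e ^ 2 + (4475942/91125) * e ^ 3 + (18808/125) * e ^ 4 + (962216/10125) * e ^ 5 + (-2403592/30375) * e ^ 6 + (-299644/10125) * e ^ 7 + (-2824/375) * e ^ 8 + (6056/405) * e ^ 9 + (-272/135) * e ^ 10 + (-2/9) * e ^ 11 := by
  obtain ⟨p, hp⟩ : ∃ p, p = e - 0 := ⟨_, rfl⟩
  obtain ⟨q, hq⟩ : ∃ q, q = 3/4 - e := ⟨_, rfl⟩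
  have hp0 : 0 ≤ p := by linarith
  have hq0 : 0 ≤ q := by linarith
  have e1 : (11264/405) + (4303552/91125) * e + (-28056/125) * e ^ 2 + (4475942/91125) * e ^ 3 + (18808/125) * e ^ 4 + (962216/10125) * e ^ 5 + (-2403592/30375) * e ^ 6 + (-299644/10125) * e ^ 7 + (-2824/375) * e ^ 8 + (6056/405) * e ^ 9 + (-272/135) * e ^ 10 + (-2/9) * e ^ 11 = 47244640256/71744535 * q ^ 11 + 43489429553152/5380840125 * p ^ 1 * q ^ 10 + 223925399191552/5380840125 * p ^ 2 * q ^ 9 + 23910989037568/199290375 * p ^ 3 * q ^ 8 + 386317094354944/1793613375 * p ^ 4 * q ^ 7 + 450934847143936/1793613375 * p ^ 5 * q ^ 6 + 115353402400768/597871125 * p ^ 6 * q ^ 5 + 173660754758656/1793613375 * p ^ 7 * q ^ 4 + 57527909267968/1793613375 * p ^ 8 * q ^ 3 + 562428622208/71744535 * p ^ 9 * q ^ 2 + 9155377641664/5380840125 * p ^ 10 * q ^ 1 + 51339025798/215233605 * p ^ 11 := by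
    rw [hp, hq]; ring
  rw [e1]
  positivity

theorem pl {e s : ℝ} (h0 : 0 ≤ e) (h1 : e ≤ 3/4) (h2 : 0 ≤ s) (h3 : s ≤ 3/8) :
    0 ≤ e + s * (1 - e ^ 2) + (1 - e ^ 2) * e / 3 - (1 + e * s * (1 - e ^ 2)) * (e + s * (1 - e ^ 2)) ^ 2 * (6 / 5 - 6 / 5 * e ^ 2 * s * (e + s * (1 - e ^ 2)) - e ^ 4 / 5 + 141 / 1000 * e) := by
  obtain ⟨r, hr⟩ : ∃ r, r = 3/8 - s := ⟨_, rfl⟩
  have hr0 : 0 ≤ r := by linarith
  have g0 := pl0 h0 h1
  have g1 := pl1 h0 h1
  have g2 := pl2 h0 h1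
  have g3 := pl3 h0 h1
  have g4 := pl4 h0 h1
  have g5 := pl5 h0 h1
  have e1 : e + s * (1 - e ^ 2) + (1 - e ^ 2) * e / 3 - (1 + e * s * (1 - e ^ 2)) * (e + s * (1 - e ^ 2)) ^ 2 * (6 / 5 - 6 / 5 * e ^ 2 * s * (e + s * (1 - e ^ 2)) - e ^ 4 / 5 + 141 / 1000 * e) =
      ((131072/729) * e + (-65536/405) * e ^ 2 + (-5828608/91125) * e ^ 3 + (32768/1215) * e ^ 6) * r ^ 5 + ((4096/81) + (2834432/3645) * e + (-8848384/10125) * e ^ 2 + (-4722688/18225) * e ^ 3 + (24064/3375) * e ^ 4 + (57344/405) * e ^ 5 + (4312576/30375) * e ^ 6 + (-4096/405) * e ^ 7 + (-4096/405) * e ^ 9) * s ^ 1 * r ^ 4 + ((72704/405) + (119359552/91125) * e + (-6336512/3375) * e ^ 2 + (-7233536/18225) * e ^ 3 + (189952/1125) * e ^ 4 + (5815616/10125) * e ^ 5 + (6293504/30375) * e ^ 6 + (-463744/10125) * e ^ 7 + (-512/15) * e ^ 8 + (-16384/405) * e ^ 9 + (1024/135) * e ^ 10) * s ^ 2 * r ^ 3 + ((31744/135) + (95976256/91125) *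 e + (-20332456/10125) * e ^ 2 + (-4088576/18225) * e ^ 3 + (525112/1125) * e ^ 4 + (2780416/3375) * e ^ 5 + (1105688/30375) * e ^ 6 + (-330944/3375) * e ^ 7 + (-38024/375) * e ^ 8 + (-832/27) * e ^ 9 + (1024/45) * e ^ 10 + (-64/45) * e ^ 11) * s ^ 3 * r ^ 2 + ((54272/405) + (35397056/91125) * e + (-2161088/2025) * e ^ 2 + (461312/18225) * e ^ 3 + (307472/675) * e ^ 4 + (4970048/10125) * e ^ 5 + (-4098032/30375) * e ^ 6 + (-1004032/10125) * e ^ 7 + (-28048/375) * e ^ 8 + (7808/405) * e ^ 9 + (592/45) * e ^ 10 + (-128/45) * e ^ 11) * s ^ 4 * r ^ 1 + ((11264/405) + (4303552/91125) * e + (-28056/125) * e ^ 2 + (4475942/91125) * e ^ 3 + (18808/125) * e ^ 4 + (962216/10125) * e ^ 5 + (-2403592/30375) * e ^ 6 + (-299644/10125) * e ^ 7 + (-2824/375) * e ^ 8 + (6056/405) * e ^ 9 + (-272/135) * e ^ 10 + (-2/9) * e ^ 11) * s ^ 5 := by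
    rw [hr]; ring
  rw [e1]
  exact (add_nonneg (add_nonneg (add_nonneg (add_nonneg (add_nonneg (mul_nonneg g0 (pow_nonneg hr0 5)) (mul_nonneg (mul_nonneg g1 (pow_nonneg h2 1)) (pow_nonneg hr0 4))) (mul_nonneg (mul_nonneg g2 (pow_nonneg h2 2)) (pow_nonneg hr0 3))) (mul_nonneg (mul_nonneg g3 (pow_nonneg h2 3)) (pow_nonneg hr0 2))) (mul_nonneg (mul_nonneg g4 (pow_nonneg h2 4)) (pow_nonneg hr0 1))) (mul_nonneg g5 (pow_nonneg h2 5)))

theorem gl0 {z : ℝ} (h0 : 49/100 ≤ z) (h1 : z ≤ 1) :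
    0 ≤ (56250000/371293) + (-300000000/371293) * z + (900000000/371293) * z ^ 2 := by
  obtain ⟨p, hp⟩ : ∃ p, p = z - 49/100 := ⟨_, rfl⟩
  obtain ⟨q, hq⟩ : ∃ q, q = 1 - z := ⟨_, rfl⟩
  have hp0 : 0 ≤ p := by linarith
  have hq0 : 0 ≤ q := by linarith
  have e1 : (56250000/371293) + (-300000000/371293) * z + (900000000/371293) * z ^ 2 = 4178000000000000/837290591631 * q ^ 4 + 26606000000000000/837290591631 * p ^ 1 * q ^ 3 + 20851000000000000/279096863877 * p ^ 2 * q ^ 2 + 62000000000000000/837290591631 * p ^ 3 * q ^ 1 + 21875000000000000/837290591631 * p ^ 4 := by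
    rw [hp, hq]; ring
  rw [e1]
  positivity

theorem gl1 {z : ℝ} (h0 : 49/100 ≤ z) (h1 : z ≤ 1) :
    0 ≤ (261750000/371293) + (-1188000000/371293) * z + (3291000000/371293) * z ^ 2 + (18000000/28561) * z ^ 3 := by
  obtain ⟨p, hp⟩ : ∃ p, p = z - 49/100 := ⟨_, rfl⟩
  obtain ⟨q, hq⟩ : ∃ q, q = 1 - z := ⟨_, rfl⟩
  have hp0 : 0 ≤ p := by linarith
  have hq0 : 0 ≤ q := by linarith
  have e1 : (261750000/371293) + (-1188000000/371293) * z + (3291000000/371293) * z ^ 2 + (18000000/28561) * z ^ 3 = 5525877400000000/279096863877 * q ^ 4 + 3844738600000000/31010762653 * p ^ 1 * q ^ 3 + 9017530000000000/31010762653 * p ^ 2 * q ^ 2 + 80956000000000000/279096863877 * p ^ 3 * q ^ 1 + 9625000000000000/93032287959 * p ^ 4 := by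
    rw [hp, hq]; ring
  rw [e1]
  positivity

theorem gl2 {z : ℝ} (h0 : 49/100 ≤ z) (h1 : z ≤ 1) :
    0 ≤ (484500000/371293) + (-1792560000/371293) * z + (4488480000/371293) * z ^ 2 + (50160000/28561) * z ^ 3 + (60000/2197) * z ^ 4 := by
  obtain ⟨p, hp⟩ : ∃ p, p = z - 49/100 := ⟨_, rfl⟩
  obtain ⟨q, hq⟩ : ∃ q, q = 1 - z := ⟨_, rfl⟩
  have hp0 : 0 ≤ p := by linarith
  have hq0 : 0 ≤ q := by linarith
  have e1 : (484500000/371293) + (-1792560000/371293) * z + (4488480000/371293) * z ^ 2 + (50160000/28561) * z ^ 3 + (60000/2197) * z ^ 4 = 8457008430460000/279096863877 * q ^ 4 + 17094951568000000/93032287959 * p ^ 1 * q ^ 3 + 39632222800000000/93032287959 * p ^ 2 * q ^ 2 + 118757200000000000/279096863877 * p ^ 3 * q ^ 1 + 4744000000000000/31010762653 * p ^ 4 := by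
    rw [hp, hq]; ring
  rw [e1]
  positivity

theorem gl3 {z : ℝ} (h0 : 49/100 ≤ z) (h1 : z ≤ 1) :
    0 ≤ (445500000/371293) + (-1249680000/371293) * z + (2693076000/371293) * z ^ 2 + (49240000/28561) * z ^ 3 + (102000/2197) * z ^ 4 := by
  obtain ⟨p, hp⟩ : ∃ p, p = z - 49/100 := ⟨_, rfl⟩
  obtain ⟨q, hq⟩ : ∃ q, q = 1 - z := ⟨_, rfl⟩
  have hp0 : 0 ≤ p := by linarith
  have hq0 : 0 ≤ q := by linarith
  have e1 : (445500000/371293) + (-1249680000/371293) * z + (2693076000/371293) * z ^ 2 + (49240000/28561) * z ^ 3 + (102000/2197) * z ^ 4 = 55606756187638000/2511871774893 * q ^ 4 + 317222002292800000/2511871774893 * p ^ 1 * q ^ 3 + 237731026880000000/837290591631 * p ^ 2 * q ^ 2 + 706086616000000000/2511871774893 * p ^ 3 * q ^ 1 + 254625400000000000/2511871774893 * p ^ 4 := by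
    rw [hp, hq]; ring
  rw [e1]
  positivity

theorem gl4 {z : ℝ} (h0 : 49/100 ≤ z) (h1 : z ≤ 1) :
    0 ≤ (203250000/371293) + (-373680000/371293) * z + (584712000/371293) * z ^ 2 + (19472720/28561) * z ^ 3 + (54420/2197) * z ^ 4 := by
  obtain ⟨p, hp⟩ : ∃ p, p = z - 49/100 := ⟨_, rfl⟩
  obtain ⟨q, hq⟩ : ∃ q, q = 1 - z := ⟨_, rfl⟩
  have hp0 : 0 ≤ p := by linarith
  have hq0 : 0 ≤ q := by linarith
  have e1 : (203250000/371293) + (-373680000/371293) * z + (584712000/371293) * z ^ 2 + (19472720/28561) * z ^ 3 + (54420/2197) * z ^ 4 = 19084863725364980/2511871774893 * q ^ 4 + 96025782566672000/2511871774893 * p ^ 1 * q ^ 3 + 66266690753200000/837290591631 * p ^ 2 * q ^ 2 + 189459368000000000/2511871774893 * p ^ 3 * q ^ 1 + 67662434000000000/2511871774893 * p ^ 4 := by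
    rw [hp, hq]; ring
  rw [e1]
  positivity

theorem gl5 {z : ℝ} (h0 : 49/100 ≤ z) (h1 : z ≤ 1) :
    0 ≤ (36750000/371293) + (-28560000/371293) * z + (-10884000/371293) * z ^ 2 + (2392720/28561) * z ^ 3 + (218226/54925) * z ^ 4 := by
  obtain ⟨p, hp⟩ : ∃ p, p = z - 49/100 := ⟨_, rfl⟩
  obtain ⟨q, hq⟩ : ∃ q, q = 1 - z := ⟨_, rfl⟩
  have hp0 : 0 ≤ p := by linarith
  have hq0 : 0 ≤ q := by linarith
  have e1 : (36750000/371293) + (-28560000/371293) * z + (-10884000/371293) * z ^ 2 + (2392720/28561) * z ^ 3 + (218226/54925) * z ^ 4 = 59717272225851394/62796794372325 * q ^ 4 + 8732291537766496/2511871774893 * p ^ 1 * q ^ 3 + 4275405530235200/837290591631 * p ^ 2 * q ^ 2 + 9461292640960000/2511871774893 * p ^ 3 * q ^ 1 + 2988656776000000/2511871774893 * p ^ 4 := by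
    rw [hp, hq]; ring
  rw [e1]
  positivity

theorem gl {z o : ℝ} (h0 : 49/100 ≤ z) (h1 : z ≤ 1) (h2 : 0 ≤ o) (h3 : o ≤ 13/50) :
    0 ≤ 2 * (1 - o) * (Bq z o * Bq2 z o + Bq1 z o ^ 2) - 4 * Bq z o * Bq1 z o + 1 / 10 := by
  obtain ⟨r, hr⟩ : ∃ r, r = 13/50 - o := ⟨_, rfl⟩
  have hr0 : 0 ≤ r := by linarith
  have g0 := gl0 h0 h1
  have g1 := gl1 h0 h1
  have g2 := gl2 h0 h1
  have g3 := gl3 h0 h1
  have g4 := gl4 h0 h1
  have g5 := gl5 h0 h1
  have e1 : 2 * (1 - o) * (Bq z o * Bq2 z o + Bq1 z o ^ 2) - 4 * Bq z o * Bq1 z o + 1 / 10 =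
      ((56250000/371293) + (-300000000/371293) * z + (900000000/371293) * z ^ 2) * r ^ 5 + ((261750000/371293) + (-1188000000/371293) * z + (3291000000/371293) * z ^ 2 + (18000000/28561) * z ^ 3) * o ^ 1 * r ^ 4 + ((484500000/371293) + (-1792560000/371293) * z + (4488480000/371293) * z ^ 2 + (50160000/28561) * z ^ 3 + (60000/2197) * z ^ 4) * o ^ 2 * r ^ 3 + ((445500000/371293) + (-1249680000/371293) * z + (2693076000/371293) * z ^ 2 + (49240000/28561) * z ^ 3 + (102000/2197) * z ^ 4) * o ^ 3 * r ^ 2 + ((203250000/371293) + (-373680000/371293) * z + (584712000/371293) * z ^ 2 + (19472720/28561) * z ^ 3 + (54420/2197) * z ^ 4) * o ^ 4 * r ^ 1 + ((36750000/371293) + (-28560000/371293) * z + (-10884000/371293) * z ^ 2 + (2392720/28561) * z ^ 3 + (218226/54925) * z ^ 4) * o ^ 5 := by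
    rw [hr]; unfold Bq Bq1 Bq2; ring
  rw [e1]
  exact (add_nonneg (add_nonneg (add_nonneg (add_nonneg (add_nonneg (mul_nonneg g0 (pow_nonneg hr0 5)) (mul_nonneg (mul_nonneg g1 (pow_nonneg h2 1)) (pow_nonneg hr0 4))) (mul_nonneg (mul_nonneg g2 (pow_nonneg h2 2)) (pow_nonneg hr0 3))) (mul_nonneg (mul_nonneg g3 (pow_nonneg h2 3)) (pow_nonneg hr0 2))) (mul_nonneg (mul_nonneg g4 (pow_nonneg h2 4)) (pow_nonneg hr0 1))) (mul_nonneg g5 (pow_nonneg h2 5)))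

theorem coef_neg {z o : ℝ} (hz : 49 / 100 ≤ z) (hz2 : z < 1) (ho : 0 < o) (ho3 : o ≤ 26 / 100) :
    (1 - z) ^ 2 - 6 * z * (1 - o) * (1 + z * o) ≤ 0 := by
  have h1 : 0 ≤ z * o := by positivity
  have h3 : 36 / 100 ≤ z * (1 - o) := by nlinarith
  have h4 : z * (1 - o) * 1 ≤ z * (1 - o) * (1 + z * o) :=
    mul_le_mul_of_nonneg_left (by linarith) (by linarith)
  have h5 : (1 - z) ^ 2 ≤ 1 := by nlinarith
  linarith

end LeftAux

open LeftAux in
theorem conc_left {e o : ℝ} (he : e ∈ Icc (173 / 1000 : ℝ) (708 / 1000))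
    (ho : o ∈ Ioo 0 (355 / 1000 * e)) :
    0 ≤ RR (1 - e ^ 2) o + QB2 (1 - e ^ 2) (-2 * log e) 0 o := by
  obtain ⟨he1, he2⟩ := he
  obtain ⟨ho1, ho2⟩ := ho
  have he0 : 0 < e := by linarith
  obtain ⟨s, hs⟩ : ∃ s, s = o / e := ⟨_, rfl⟩
  have hoes : o = e * s := by rw [hs]; field_simp
  have hs0 : 0 < s := by rw [hs]; positivity
  have hs1 : s < 355 / 1000 := by rw [hs, div_lt_iff₀ he0]; exact ho2
  obtain ⟨z, hz⟩ : ∃ z, z = 1 - e ^ 2 := ⟨_, rfl⟩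
  rw [← hz]
  have hz1 : 498736 / 1000000 ≤ z := by rw [hz]; nlinarith
  have hz2 : z < 1 := by rw [hz]; nlinarith
  have hz0 : 0 < z := by linarith
  have ho3 : o ≤ 26 / 100 := by nlinarith
  -- the `c0` part
  have hG := gl (z := z) (o := o) (by linarith) hz2.le ho1.le (by linarith)
  have hc : c0 ≤ 65 / 100 := by
    unfold c0
    have h1 := Real.log_two_lt_d9
    have h2 := Real.log_two_gt_d9
    nlinarith
  have hc0 : 0 < c0 := by
    unfold c0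
    have h2 := Real.log_two_gt_d9
    positivity
  -- the polynomial inequality
  have hP := pl (e := e) (s := s) he0.le (by linarith) hs0.le (by linarith)
  rw [← hz] at hP
  obtain ⟨y, hy⟩ : ∃ y, y = e + s * z := ⟨_, rfl⟩
  rw [← hy] at hP
  have hy0 : 0 < y := by rw [hy]; positivity
  have hoz : 1 + o * z = 1 + e * s * z := by rw [hoes]
  have hu : 1 - z + o * z = e * y := by rw [hy, hoes, hz]; ring
  have hD : 0 < 1 + e * s * z := by positivity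
  -- lower bound for `RR`
  have hRR : z ^ 2 / e * (6 / 5 - 6 / 5 * e ^ 2 * s * y - e ^ 4 / 5 + 141 / 1000 * e) ≤ RR z o := by
    unfold RR
    rw [hu, hoz]
    have e1 : z ^ 2 * (e * y + z * (1 - z) / 3) / ((1 + e * s * z) * (e * y) ^ 2)
        = z ^ 2 / e * ((y + z * e / 3) / ((1 + e * s * z) * y ^ 2)) := by
      have : 1 - z = e ^ 2 := by rw [hz]; ring
      rw [this]
      field_simp
    rw [e1]
    refine mul_le_mul_of_nonneg_left ?_ (by positivity)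
    rw [le_div_iff₀ (by positivity)]
    linarith
  -- the logarithm
  have hL : -2 * log e ≤ z / e := by
    have h1 : 0 ≤ -log e := by
      have := Real.log_nonpos he0.le (by linarith)
      linarith
    have h2 := Real.self_le_sinh_iff.2 h1
    rw [Real.sinh_eq, neg_neg, Real.exp_log he0, Real.exp_neg, Real.exp_log he0] at h2
    have h3 : z / e = e⁻¹ - e := by
      rw [hz]; field_simp
    rw [h3]
    linarith
  have hcoef := coef_neg (z := z) (o := o) (by linarith) hz2 ho1 ho3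
  have hQ : QB2 z (-2 * log e) 0 o ≥ z / e / 5 * ((1 - z) ^ 2 - 6 * z * (1 - o) * (1 + z * o))
      - 65 / 100 / 2 * (1 / 10) := by
    have h1 : z / e * ((1 - z) ^ 2 - 6 * z * (1 - o) * (1 + z * o)) ≤
        -2 * log e * ((1 - z) ^ 2 - 6 * z * (1 - o) * (1 + z * o)) :=
      mul_le_mul_of_nonpos_right hL hcoef
    have h2 : c0 / 2 * (-(1 / 10)) ≤ c0 / 2 *
        (2 * (1 - o) * (Bq z o * Bq2 z o + Bq1 z o ^ 2) - 4 * Bq z o * Bq1 z o) :=
      mul_le_mul_of_nonneg_left (by linarith) (by positivity)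
    unfold QB2
    linarith
  have e2 : (1 - o) * (1 + z * o) = 1 - e ^ 2 * s * y := by
    rw [hy, hoes, hz]; ring
  have e3 : z / e / 5 * ((1 - z) ^ 2 - 6 * z * (1 - o) * (1 + z * o))
      = z / e / 5 * (e ^ 4 - 6 * z * (1 - e ^ 2 * s * y)) := by
    rw [mul_assoc (6 * z), e2]
    have : 1 - z = e ^ 2 := by rw [hz]; ring
    rw [this]
    ring
  rw [e3] at hQ
  have e4 : z ^ 2 / e * (6 / 5 - 6 / 5 * e ^ 2 * s * y - e ^ 4 / 5 + 141 / 1000 * e)
      + z / e / 5 * (e ^ 4 - 6 * z * (1 - e ^ 2 * s * y))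
      = z * e ^ 3 / 5 * (1 - z) + 141 / 1000 * z ^ 2 := by
    field_simp
    ring
  have h5 : 0 ≤ z * e ^ 3 / 5 * (1 - z) := by
    have : 0 ≤ 1 - z := by linarith
    positivity
  have h6 : 65 / 100 / 2 * (1 / 10) ≤ 141 / 1000 * z ^ 2 := by nlinarith
  linarith

end BE
end Vale.Agent.P322
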