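import Mathlib

/-!
# Kernel-checked positivity of bivariate integer polynomials on boxes (Bernstein)

A bivariate polynomial is a list (powers of `y`) of lists (powers of `x`) of integers.
`check A B D A' B' D' p = true` implies `0 ≤ ev2 x y p` for `A/D ≤ x < B/D`, `A'/D' ≤ y < B'/D'`.
-/

namespace Vale.Agent.P322.Bern

/-- evaluate a univariate polynomial -/
def ev1 (x : ℝ) : List ℤ → ℝ
  | [] => 0
  | c :: cs => c + x * ev1 x cs

/-- addition -/
def add1 : List ℤ → List ℤ → List ℤ
  | [], q => q
  | a :: p, [] => a :: p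
  | a :: p, b :: q => (a + b) :: add1 p q

/-- scalar multiplication -/
def smul1 (k : ℤ) : List ℤ → List ℤ
  | [] => []
  | c :: cs => (k * c) :: smul1 k cs

/-- multiplication by `a + b x` -/
def lin1 (a b : ℤ) (p : List ℤ) : List ℤ := add1 (smul1 a p) (0 :: smul1 b p)

theorem ev1_add (x : ℝ) (p q : List ℤ) : ev1 x (add1 p q) = ev1 x p + ev1 x q := by
  induction p generalizing q with
  | nil => simp [add1, ev1]
  | cons a p ih =>
    cases q with
    | nil => simp [add1, ev1]
    | cons b q =>
      simp only [add1, ev1, ih]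
      push_cast
      ring

theorem ev1_smul (x : ℝ) (k : ℤ) (p : List ℤ) : ev1 x (smul1 k p) = k * ev1 x p := by
  induction p with
  | nil => simp [smul1, ev1]
  | cons a p ih =>
    simp only [smul1, ev1, ih]
    push_cast
    ring

theorem ev1_lin (x : ℝ) (a b : ℤ) (p : List ℤ) : ev1 x (lin1 a b p) = (a + b * x) * ev1 x p := by
  simp only [lin1, ev1_add, ev1_smul, ev1]
  push_cast
  ring

/-- evaluate a bivariate polynomial -/
def ev2 (x y : ℝ) : List (List ℤ) → ℝ
  | [] => 0
  | c :: cs => ev1 x c + y * ev2 x y cs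

/-- addition -/
def add2 : List (List ℤ) → List (List ℤ) → List (List ℤ)
  | [], q => q
  | a :: p, [] => a :: p
  | a :: p, b :: q => add1 a b :: add2 p q

/-- scalar multiplication -/
def smul2 (k : ℤ) : List (List ℤ) → List (List ℤ)
  | [] => []
  | c :: cs => smul1 k c :: smul2 k cs

/-- multiplication by `a + b x` -/
def linx (a b : ℤ) : List (List ℤ) → List (List ℤ)
  | [] => []
  | c :: cs => lin1 a b c :: linx a b cs

/-- multiplication by `a + b y` -/
def liny (a b : ℤ) (p : List (List ℤ)) : List (List ℤ) := add2 (smul2 a p) ([] :: smul2 b p)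

theorem ev2_add (x y : ℝ) (p q : List (List ℤ)) :
    ev2 x y (add2 p q) = ev2 x y p + ev2 x y q := by
  induction p generalizing q with
  | nil => simp [add2, ev2]
  | cons a p ih =>
    cases q with
    | nil => simp [add2, ev2]
    | cons b q =>
      simp only [add2, ev2, ih, ev1_add]
      ring

theorem ev2_smul (x y : ℝ) (k : ℤ) (p : List (List ℤ)) :
    ev2 x y (smul2 k p) = k * ev2 x y p := by
  induction p with
  | nil => simp [smul2, ev2]
  | cons a p ih =>
    simp only [smul2, ev2, ih, ev1_smul]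
    ring

theorem ev2_linx (x y : ℝ) (a b : ℤ) (p : List (List ℤ)) :
    ev2 x y (linx a b p) = (a + b * x) * ev2 x y p := by
  induction p with
  | nil => simp [linx, ev2]
  | cons c p ih =>
    simp only [linx, ev2, ih, ev1_lin]
    ring

theorem ev2_liny (x y : ℝ) (a b : ℤ) (p : List (List ℤ)) :
    ev2 x y (liny a b p) = (a + b * y) * ev2 x y p := by
  simp only [liny, ev2_add, ev2_smul, ev2, ev1]
  ring

/-- pad with zeros to length `m` (drops nothing) -/
def pad : ℕ → List ℤ → List ℤ
  | 0, l => l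
  | m + 1, [] => 0 :: pad m []
  | m + 1, c :: cs => c :: pad m cs

theorem ev1_pad (x : ℝ) (m : ℕ) (l : List ℤ) : ev1 x (pad m l) = ev1 x l := by
  induction m generalizing l with
  | zero => simp [pad]
  | succ m ih =>
    cases l with
    | nil => simp [pad, ev1, ih]
    | cons c cs => simp [pad, ev1, ih]

/-- Moebius transform of a univariate polynomial: `(value, power)` -/
def tr1 (A B D : ℤ) : List ℤ → List ℤ × List ℤ
  | [] => ([], [1])
  | c :: cs =>
    let r := tr1 A B D cs
    (add1 (smul1 c r.2) (lin1 A B r.1), lin1 D D r.2)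

theorem tr1_spec {A B D : ℤ} {x z : ℝ} (hz : (A : ℝ) + B * x = (D + D * x) * z) (l : List ℤ) :
    ev1 x (tr1 A B D l).2 = (D + D * x) ^ l.length ∧
      (D + D * x) * ev1 x (tr1 A B D l).1 = (D + D * x) ^ l.length * ev1 z l := by
  induction l with
  | nil => simp [tr1, ev1]
  | cons c cs ih =>
    obtain ⟨h1, h2⟩ := ih
    simp only [tr1, ev1_lin, ev1_add, ev1_smul, List.length_cons, ev1, h1]
    refine ⟨by ring, ?_⟩
    calc ((D : ℝ) + D * x) * (c * (D + D * x) ^ cs.length + (A + B * x) *
          ev1 x (tr1 A B D cs).1)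
        = c * (D + D * x) ^ (cs.length + 1) + (A + B * x) *
          ((D + D * x) * ev1 x (tr1 A B D cs).1) := by ring
      _ = _ := by rw [h2, hz]; ring

/-- transform every coefficient -/
def trx (A B D : ℤ) (m : ℕ) : List (List ℤ) → List (List ℤ)
  | [] => []
  | c :: cs => (tr1 A B D (pad m c)).1 :: trx A B D m cs

/-- all coefficient lists have length at most `m` -/
def lenOk (m : ℕ) : List (List ℤ) → Bool
  | [] => true
  | c :: cs => decide (c.length ≤ m) && lenOk m cs

theorem pad_length (m : ℕ) (l : List ℤ) (h : l.length ≤ m) : (pad m l).length = m := by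
  induction m generalizing l with
  | zero =>
    cases l with
    | nil => rfl
    | cons c cs => simp at h
  | succ m ih =>
    cases l with
    | nil => simp [pad, ih]
    | cons c cs =>
      simp only [pad, List.length_cons]
      rw [ih]
      simpa using h

theorem trx_spec {A B D : ℤ} {x z : ℝ} (hz : (A : ℝ) + B * x = (D + D * x) * z) (y : ℝ) (m : ℕ)
    (p : List (List ℤ)) (h : lenOk m p = true) :
    (D + D * x) * ev2 x y (trx A B D m p) = (D + D * x) ^ m * ev2 z y p := by
  induction p with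
  | nil => simp [trx, ev2]
  | cons c cs ih =>
    simp only [lenOk, Bool.and_eq_true, decide_eq_true_eq] at h
    have h1 := (tr1_spec hz (pad m c)).2
    rw [pad_length m c h.1, ev1_pad] at h1
    simp only [trx, ev2, mul_add, h1]
    have h2 := ih h.2
    linear_combination y * h2

/-- `c * F(y)` -/
def outer (c : List ℤ) : List ℤ → List (List ℤ)
  | [] => []
  | f :: fs => smul1 f c :: outer c fs

theorem ev2_outer (x y : ℝ) (c F : List ℤ) : ev2 x y (outer c F) = ev1 x c * ev1 y F := by
  induction F with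
  | nil => simp [outer, ev2, ev1]
  | cons f fs ih =>
    simp only [outer, ev2, ev1, ih, ev1_smul]
    ring

/-- Moebius transform in `y` -/
def try2 (A B D : ℤ) : List (List ℤ) → List (List ℤ) × List ℤ
  | [] => ([], [1])
  | c :: cs =>
    let r := try2 A B D cs
    (add2 (outer c r.2) (liny A B r.1), lin1 D D r.2)

theorem try2_spec {A B D : ℤ} {y w : ℝ} (hw : (A : ℝ) + B * y = (D + D * y) * w) (x : ℝ)
    (p : List (List ℤ)) :
    ev1 y (try2 A B D p).2 = (D + D * y) ^ p.length ∧
      (D + D * y) * ev2 x y (try2 A B D p).1 = (D + D * y) ^ p.length * ev2 x w p := by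
  induction p with
  | nil => simp [try2, ev1, ev2]
  | cons c cs ih =>
    obtain ⟨h1, h2⟩ := ih
    simp only [try2, ev1_lin, ev2_add, ev2_outer, ev2_liny, List.length_cons, ev2, h1]
    refine ⟨by ring, ?_⟩
    calc ((D : ℝ) + D * y) * (ev1 x c * (D + D * y) ^ cs.length + (A + B * y) *
          ev2 x y (try2 A B D cs).1)
        = ev1 x c * (D + D * y) ^ (cs.length + 1) + (A + B * y) *
          ((D + D * y) * ev2 x y (try2 A B D cs).1) := by ring
      _ = _ := by rw [h2, hw]; ring

/-- all coefficients nonnegative -/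
def nn1 : List ℤ → Bool
  | [] => true
  | c :: cs => decide (0 ≤ c) && nn1 cs

/-- all coefficients nonnegative -/
def nn2 : List (List ℤ) → Bool
  | [] => true
  | c :: cs => nn1 c && nn2 cs

theorem ev1_nonneg {x : ℝ} (hx : 0 ≤ x) (p : List ℤ) (h : nn1 p = true) : 0 ≤ ev1 x p := by
  induction p with
  | nil => simp [ev1]
  | cons c cs ih =>
    simp only [nn1, Bool.and_eq_true, decide_eq_true_eq] at h
    have h1 : (0 : ℝ) ≤ c := by exact_mod_cast h.1
    exact add_nonneg h1 (mul_nonneg hx (ih h.2))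

theorem ev2_nonneg {x y : ℝ} (hx : 0 ≤ x) (hy : 0 ≤ y) (p : List (List ℤ))
    (h : nn2 p = true) : 0 ≤ ev2 x y p := by
  induction p with
  | nil => simp [ev2]
  | cons c cs ih =>
    simp only [nn2, Bool.and_eq_true] at h
    exact add_nonneg (ev1_nonneg hx c h.1) (mul_nonneg hy (ih h.2))

/-- the check on the box `[A/D, B/D) × [A'/D', B'/D')`; `m` bounds the length of the
coefficient lists -/
def check (m : ℕ) (A B D A' B' D' : ℤ) (p : List (List ℤ)) : Bool :=
  decide (0 < D) && decide (0 < D') && lenOk m p && nn2 (try2 A' B' D' (trx A B D m p)).1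

theorem exists_param {A B D : ℤ} (hD : 0 < D) {z : ℝ} (h1 : (A : ℝ) / D ≤ z)
    (h2 : z < (B : ℝ) / D) : ∃ x : ℝ, 0 ≤ x ∧ (A : ℝ) + B * x = (D + D * x) * z := by
  have hD' : (0 : ℝ) < D := by exact_mod_cast hD
  rw [div_le_iff₀ hD'] at h1
  rw [lt_div_iff₀ hD'] at h2
  refine ⟨(z * D - A) / (B - z * D), div_nonneg (by linarith) (by linarith), ?_⟩
  have : (B : ℝ) - z * D ≠ 0 := by linarith
  field_simp
  ring

theorem nonneg_of_check {m : ℕ} {A B D A' B' D' : ℤ} {p : List (List ℤ)}
    (h : check m A B D A' B' D' p = true) {z w : ℝ} (hz1 : (A : ℝ) / D ≤ z)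
    (hz2 : z < (B : ℝ) / D) (hw1 : (A' : ℝ) / D' ≤ w) (hw2 : w < (B' : ℝ) / D') :
    0 ≤ ev2 z w p := by
  simp only [check, Bool.and_eq_true, decide_eq_true_eq] at h
  obtain ⟨⟨⟨hD, hD'⟩, hlen⟩, hnn⟩ := h
  obtain ⟨x, hx, hxz⟩ := exists_param hD hz1 hz2
  obtain ⟨y, hy, hyw⟩ := exists_param hD' hw1 hw2
  have hDr : (0 : ℝ) < D := by exact_mod_cast hD
  have hDr' : (0 : ℝ) < D' := by exact_mod_cast hD'
  have hE : 0 < (D : ℝ) + D * x := by positivity
  have hF : 0 < (D' : ℝ) + D' * y := by positivity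
  have h1 := trx_spec hxz w m p hlen
  have h2 := (try2_spec hyw x (trx A B D m p)).2
  have h3 := ev2_nonneg hx hy _ hnn
  have h4 : 0 ≤ ev2 x w (trx A B D m p) := by
    have : 0 ≤ ((D' : ℝ) + D' * y) ^ (trx A B D m p).length * ev2 x w (trx A B D m p) := by
      rw [← h2]; exact mul_nonneg hF.le h3
    exact nonneg_of_mul_nonneg_right this (by positivity)
  have h5 : 0 ≤ ((D : ℝ) + D * x) ^ m * ev2 z w p := by
    rw [← h1]; exact mul_nonneg hE.le h4
  exact nonneg_of_mul_nonneg_right h5 (by positivity)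

end Vale.Agent.P322.Bern
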