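import Vale.Agent.P322.BEDefs
import Vale.Agent.P322.Bern

/-!
# (BE), concavity on the right part (S2c)

After multiplication by `(1 + ω z) (1 - z + ω z)²` the inequality is a polynomial in `z, ω`,
affine in `L` and in `c₀`; `L` is between two affine functions of `z` on each of three slabs.
-/

open Real Set

namespace Vale.Agent.P322
namespace BE
namespace Right

open Bern

/-- `375 (1 + ω z) (1 - z + ω z)² (RR + ...)`, part without `L`, `c₀` -/
def lA : List (List ℤ) :=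
  [[15, -420, 1545, -1390, 250],
   [0, 405, -3030, 5595, -2970, 375],
   [0, 0, 1845, -7320, 7305, -1830],
   [0, 0, 0, 3255, -7230, 3255],
   [0, 0, 0, 0, 2520, -2520],
   [0, 0, 0, 0, 0, 720]]

/-- coefficient of `L` -/
def lB : List (List ℤ) :=
  [[48, 6, -756, 1302, -600],
   [0, -54, 2004, -5346, 3996, -600],
   [0, 0, -1296, 7176, -9024, 2694],
   [0, 0, 0, -3084, 8364, -4434],
   [0, 0, 0, 0, -2736, 3186],
   [0, 0, 0, 0, 0, -846]]

/-- coefficient of `c₀` -/
def lC : List (List ℤ) :=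
  [[15, -210, 915, -1260, 540],
   [-45, 855, -4875, 9195, -6210, 1080],
   [0, -495, 5985, -20505, 23490, -8730, 630],
   [0, 0, -2115, 17145, -36780, 24870, -4410, 90],
   [0, 0, 0, -4725, 25155, -32610, 11325, -630],
   [0, 0, 0, 0, -6075, 19935, -13785, 1665],
   [0, 0, 0, 0, 0, -4545, 8085, -2115],
   [0, 0, 0, 0, 0, 0, -1845, 1305],
   [0, 0, 0, 0, 0, 0, 0, -315]]

/-- the combination with `L = (α + β z)/δ`, `c₀ = γ/1000` -/
def mix (lA lB lC : List (List ℤ)) (δ α β γ : ℤ) : List (List ℤ) :=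
  add2 (smul2 (1000 * δ) lA) (add2 (linx (1000 * α) (1000 * β) lB) (smul2 (δ * γ) lC))

theorem mix_nonneg {lA lB lC : List (List ℤ)} {m : ℕ} {δ α β γ A B D A' B' D' : ℤ} (hδ : 0 < δ)
    (h : check m A B D A' B' D' (mix lA lB lC δ α β γ) = true) {z o : ℝ}
    (hz1 : (A : ℝ) / D ≤ z) (hz2 : z < (B : ℝ) / D) (hw1 : (A' : ℝ) / D' ≤ o)
    (hw2 : o < (B' : ℝ) / D') :
    0 ≤ ev2 z o lA + ((α + β * z) / δ) * ev2 z o lB + (γ / 1000) * ev2 z o lC := by
  have h1 := nonneg_of_check h hz1 hz2 hw1 hw2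
  have hδ' : (0 : ℝ) < δ := by exact_mod_cast hδ
  simp only [mix, ev2_add, ev2_smul, ev2_linx] at h1
  push_cast at h1
  have h2 : 0 ≤ (1000 * (δ : ℝ)) * (ev2 z o lA + ((α + β * z) / δ) * ev2 z o lB +
      (γ / 1000) * ev2 z o lC) := by
    have : (1000 * (δ : ℝ)) * (ev2 z o lA + ((α + β * z) / δ) * ev2 z o lB +
      (γ / 1000) * ev2 z o lC) = 1000 * δ * ev2 z o lA + ((1000 * α + 1000 * β * z) * ev2 z o lB
        + δ * γ * ev2 z o lC) := by
      field_simp
      ring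
    rw [this]
    exact h1
  exact nonneg_of_mul_nonneg_right h2 (by positivity)

theorem interp {A B x lo hi : ℝ} (h1 : 0 ≤ A + lo * B) (h2 : 0 ≤ A + hi * B) (hx : lo ≤ x)
    (hx2 : x ≤ hi) : 0 ≤ A + x * B := by
  rcases le_total 0 B with h | h
  · nlinarith
  · nlinarith

/-- interpolation in `L` and `c₀` -/
theorem interp2 {A B C L c l1 l2 c1 c2 : ℝ} (h11 : 0 ≤ A + l1 * B + c1 * C)
    (h12 : 0 ≤ A + l1 * B + c2 * C) (h21 : 0 ≤ A + l2 * B + c1 * C)
    (h22 : 0 ≤ A + l2 * B + c2 * C) (hL1 : l1 ≤ L) (hL2 : L ≤ l2) (hc1 : c1 ≤ c) (hc2 : c ≤ c2) :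
    0 ≤ A + L * B + c * C := by
  have h1 := interp h11 h12 hc1 hc2
  have h2 := interp h21 h22 hc1 hc2
  have h3 : 0 ≤ (A + c * C) + L * B :=
    interp (by linarith) (by linarith) hL1 hL2
  linarith

theorem c0_bounds : 640 / 1000 ≤ c0 ∧ c0 ≤ 641 / 1000 := by
  have h1 := Real.log_two_gt_d9
  have h2 := Real.log_two_lt_d9
  unfold c0
  constructor <;> nlinarith

/-- `log 5` bounds -/
theorem log5 : 16093 / 10000 ≤ log 5 ∧ log 5 ≤ 16095 / 10000 := by
  have h1 := Real.log_two_gt_d9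
  have h2 := Real.log_two_lt_d9
  have h3 := Real.abs_log_sub_add_sum_range_le (x := 1 / 5) (by norm_num [abs_of_pos]) 6
  rw [abs_of_pos (by norm_num : (0 : ℝ) < 1 / 5), abs_le] at h3
  norm_num [Finset.sum_range_succ] at h3
  have h4 : log (4 / 5) = 2 * log 2 - log 5 := by
    rw [log_div (by norm_num) (by norm_num), show (4 : ℝ) = 2 ^ 2 by norm_num, log_pow]
    norm_num
  constructor <;> linarith [h3.1, h3.2]

/-- upper bound for `L` by a chord: `-log v ≤` affine function. -/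
theorem neg_log_le {v v1 v2 l1 l2 : ℝ} (h2 : 0 < v2) (h12 : v2 < v1) (hv : v2 ≤ v) (hv1 : v ≤ v1)
    (hl1 : -log v1 ≤ l1) (hl2 : -log v2 ≤ l2) :
    -log v ≤ (l1 * (v - v2) + l2 * (v1 - v)) / (v1 - v2) := by
  have hd : 0 < v1 - v2 := by linarith
  have hc := strictConcaveOn_log_Ioi.concaveOn.2 (show v1 ∈ Ioi (0 : ℝ) from by
    simp only [mem_Ioi]; linarith) (show v2 ∈ Ioi (0 : ℝ) from h2)
    (show 0 ≤ (v - v2) / (v1 - v2) from div_nonneg (by linarith) hd.le)
    (show 0 ≤ (v1 - v) / (v1 - v2) from div_nonneg (by linarith) hd.le)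
    (by field_simp; ring)
  simp only [smul_eq_mul] at hc
  have h3 : (v - v2) / (v1 - v2) * v1 + (v1 - v) / (v1 - v2) * v2 = v := by
    field_simp
    ring
  rw [h3] at hc
  have h4 : (v - v2) / (v1 - v2) * (-log v1) ≤ (v - v2) / (v1 - v2) * l1 :=
    mul_le_mul_of_nonneg_left hl1 (div_nonneg (by linarith) hd.le)
  have h5 : (v1 - v) / (v1 - v2) * (-log v2) ≤ (v1 - v) / (v1 - v2) * l2 :=
    mul_le_mul_of_nonneg_left hl2 (div_nonneg (by linarith) hd.le)
  have h6 : (l1 * (v - v2) + l2 * (v1 - v)) / (v1 - v2) =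
      (v - v2) / (v1 - v2) * l1 + (v1 - v) / (v1 - v2) * l2 := by
    field_simp
  rw [h6]
  linarith

/-- lower bound for `L` by a tangent -/
theorem le_neg_log {v vm l : ℝ} (hv : 0 < v) (hm : 0 < vm) (hl : l ≤ -log vm) :
    l + 1 - v / vm ≤ -log v := by
  have h := Real.log_le_sub_one_of_pos (div_pos hv hm)
  rw [log_div hv.ne' hm.ne'] at h
  linarith

theorem log5' : log (512 / 1000) = 6 * log 2 - 3 * log 5 ∧ log (1 / 5) = -log 5 ∧
    log (2 / 25) = log 2 - 2 * log 5 ∧ log (16 / 625) = 4 * log 2 - 4 * log 5 ∧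
    log (8 / 25) = 3 * log 2 - 2 * log 5 ∧ log (16 / 125) = 4 * log 2 - 3 * log 5 ∧
    log (1 / 20) = -(2 * log 2 + log 5) := by
  refine ⟨?_, ?_, ?_, ?_, ?_, ?_, ?_⟩
  · rw [show (512 / 1000 : ℝ) = 2 ^ 6 / 5 ^ 3 by norm_num, log_div (by norm_num) (by norm_num),
      log_pow, log_pow]; norm_num
  · rw [log_div (by norm_num) (by norm_num)]; simp
  · rw [show (25 : ℝ) = 5 ^ 2 by norm_num, log_div (by norm_num) (by norm_num), log_pow]; norm_num
  · rw [show (16 / 625 : ℝ) = 2 ^ 4 / 5 ^ 4 by norm_num, log_div (by norm_num) (by norm_num),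
      log_pow, log_pow]; norm_num
  · rw [show (8 / 25 : ℝ) = 2 ^ 3 / 5 ^ 2 by norm_num, log_div (by norm_num) (by norm_num),
      log_pow, log_pow]; norm_num
  · rw [show (16 / 125 : ℝ) = 2 ^ 4 / 5 ^ 3 by norm_num, log_div (by norm_num) (by norm_num),
      log_pow, log_pow]; norm_num
  · rw [show (1 / 20 : ℝ) = 1 / (2 ^ 2 * 5) by norm_num, log_div (by norm_num) (by norm_num),
      log_mul (by norm_num) (by norm_num), log_pow]; norm_num

/-- the identity -/
theorem ident {z o L c : ℝ} :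
    375 * (z ^ 2 * (1 - z + o * z + z * (1 - z) / 3) + (1 + o * z) * (1 - z + o * z) ^ 2 *
      (L / 5 * ((1 - z) ^ 2 - 6 * z * (1 - o) * (1 + z * o))
    + c / 2 * (2 * (1 - o) * (Bq z o * Bq2 z o + Bq1 z o ^ 2) - 4 * Bq z o * Bq1 z o)
    - (18 / 100 * L - 1 / 10) * (2 / 5) *
      ((1 - z) ^ 2 - 24 * z * (1 - o) * (1 - z + 2 * z * o)))) =
    ev2 z o lA + L * ev2 z o lB + c * ev2 z o lC := by
  simp only [lA, lB, lC, ev2, ev1, Bq, Bq1, Bq2]
  push_cast
  ring

/-- one slab -/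
theorem slab {z o L c l1 l2 : ℝ} (hz0 : 0 < z) (hz1 : z < 1) (ho0 : 0 < o) (hL1 : l1 ≤ L)
    (hL2 : L ≤ l2) (hc1 : 640 / 1000 ≤ c) (hc2 : c ≤ 641 / 1000)
    (h11 : 0 ≤ ev2 z o lA + l1 * ev2 z o lB + 640 / 1000 * ev2 z o lC)
    (h12 : 0 ≤ ev2 z o lA + l1 * ev2 z o lB + 641 / 1000 * ev2 z o lC)
    (h21 : 0 ≤ ev2 z o lA + l2 * ev2 z o lB + 640 / 1000 * ev2 z o lC)
    (h22 : 0 ≤ ev2 z o lA + l2 * ev2 z o lB + 641 / 1000 * ev2 z o lC) :
    0 ≤ RR z o + (L / 5 * ((1 - z) ^ 2 - 6 * z * (1 - o) * (1 + z * o))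
    + c / 2 * (2 * (1 - o) * (Bq z o * Bq2 z o + Bq1 z o ^ 2) - 4 * Bq z o * Bq1 z o)
    - (18 / 100 * L - 1 / 10) * (2 / 5) *
      ((1 - z) ^ 2 - 24 * z * (1 - o) * (1 - z + 2 * z * o))) := by
  have h := interp2 h11 h12 h21 h22 hL1 hL2 hc1 hc2
  rw [← ident] at h
  have hu : 0 < 1 - z + o * z := by nlinarith
  have hg : 0 < 1 + o * z := by positivity
  have e : z ^ 2 * (1 - z + o * z + z * (1 - z) / 3) = (1 + o * z) * (1 - z + o * z) ^ 2 *
      RR z o := by
    rw [RR, ← mul_div_assoc, mul_div_cancel_left₀ _ (by positivity)]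
  rw [e, ← mul_add] at h
  have h2 : 0 < 375 * ((1 + o * z) * (1 - z + o * z) ^ 2) := by positivity
  rw [← mul_assoc] at h
  exact nonneg_of_mul_nonneg_right h h2

/-- the four vertex inequalities from kernel checks -/
theorem verts {A B D A' B' D' δ α β δ' α' β' : ℤ} (hδ : 0 < δ) (hδ' : 0 < δ')
    (h11 : check 9 A B D A' B' D' (mix lA lB lC δ α β 640) = true)
    (h12 : check 9 A B D A' B' D' (mix lA lB lC δ α β 641) = true)
    (h21 : check 9 A B D A' B' D' (mix lA lB lC δ' α' β' 640) = true)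
    (h22 : check 9 A B D A' B' D' (mix lA lB lC δ' α' β' 641) = true)
    {z o L : ℝ} (hz1 : (A : ℝ) / D ≤ z) (hz2 : z < (B : ℝ) / D) (hw1 : (A' : ℝ) / D' ≤ o)
    (hw2 : o < (B' : ℝ) / D') (hz0 : 0 < z) (hz3 : z < 1) (ho0 : 0 < o)
    (hL1 : ((α : ℝ) + β * z) / δ ≤ L) (hL2 : L ≤ ((α' : ℝ) + β' * z) / δ') :
    0 ≤ RR z o + QB2 z L (18 / 100 * L - 1 / 10) o := by
  refine slab hz0 hz3 ho0 hL1 hL2 c0_bounds.1 c0_bounds.2 ?_ ?_ ?_ ?_
  · have := mix_nonneg hδ h11 hz1 hz2 hw1 hw2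
    norm_num at this ⊢
    exact this
  · have := mix_nonneg hδ h12 hz1 hz2 hw1 hw2
    norm_num at this ⊢
    exact this
  · have := mix_nonneg hδ' h21 hz1 hz2 hw1 hw2
    norm_num at this ⊢
    exact this
  · have := mix_nonneg hδ' h22 hz1 hz2 hw1 hw2
    norm_num at this ⊢
    exact this

theorem conc1 {z o : ℝ} (hz1 : 488 / 1000 ≤ z) (hz2 : z < 4 / 5) (ho1 : 158 / 1000 ≤ o)
    (ho2 : o < 1) :
    0 ≤ RR z o + QB2 z (-log (1 - z)) (18 / 100 * (-log (1 - z)) - 1 / 10) o := by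
  have hl2 := Real.log_two_gt_d9
  have hl2' := Real.log_two_lt_d9
  obtain ⟨h5, h5'⟩ := log5
  obtain ⟨e1, e2, e3, e4, e5, e6, e7⟩ := log5'
  have hup := neg_log_le (v := 1 - z) (v1 := 512 / 1000) (v2 := 1 / 5) (l1 := 67 / 100)
    (l2 := 161 / 100) (by norm_num) (by norm_num) (by linarith) (by linarith)
    (by rw [e1]; linarith) (by rw [e2]; linarith)
  have hlo := le_neg_log (v := 1 - z) (vm := 8 / 25) (l := 1139 / 1000) (by linarith)
    (by norm_num) (by rw [e5]; linarith)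
  exact verts (A := 488) (B := 800) (D := 1000) (A' := 158) (B' := 1000) (D' := 1000)
    (δ := 1000) (α := -986) (β := 3125) (δ' := 3900) (α' := -3121) (β' := 11750)
    (by norm_num) (by norm_num) (by decide +kernel) (by decide +kernel) (by decide +kernel)
    (by decide +kernel) (by push_cast; linarith) (by push_cast; linarith)
    (by push_cast; linarith) (by push_cast; linarith) (by linarith) (by linarith) (by linarith)
    (by push_cast; linarith) (hup.trans (le_of_eq (by push_cast; ring)))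

theorem conc2 {z o : ℝ} (hz1 : 4 / 5 ≤ z) (hz2 : z < 23 / 25) (ho1 : 1 / 10 ≤ o)
    (ho2 : o < 1) :
    0 ≤ RR z o + QB2 z (-log (1 - z)) (18 / 100 * (-log (1 - z)) - 1 / 10) o := by
  have hl2 := Real.log_two_gt_d9
  have hl2' := Real.log_two_lt_d9
  obtain ⟨h5, h5'⟩ := log5
  obtain ⟨e1, e2, e3, e4, e5, e6, e7⟩ := log5'
  have hup := neg_log_le (v := 1 - z) (v1 := 1 / 5) (v2 := 2 / 25) (l1 := 161 / 100)
    (l2 := 2526 / 1000) (by norm_num) (by norm_num) (by linarith) (by linarith)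
    (by rw [e2]; linarith) (by rw [e3]; linarith)
  have hlo := le_neg_log (v := 1 - z) (vm := 16 / 125) (l := 2055 / 1000) (by linarith)
    (by norm_num) (by rw [e6]; linarith)
  exact verts (A := 80) (B := 92) (D := 100) (A' := 10) (B' := 100) (D' := 100)
    (δ := 10000) (α := -47575) (β := 78125) (δ' := 300) (α' := -1349) (β' := 2290)
    (by norm_num) (by norm_num) (by decide +kernel) (by decide +kernel) (by decide +kernel)
    (by decide +kernel) (by push_cast; linarith) (by push_cast; linarith)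
    (by push_cast; linarith) (by push_cast; linarith) (by linarith) (by linarith) (by linarith)
    (by push_cast; linarith) (hup.trans (le_of_eq (by push_cast; ring)))

theorem conc3 {z o : ℝ} (hz1 : 23 / 25 ≤ z) (hz2 : z < 609 / 625) (ho1 : 56 / 1000 ≤ o)
    (ho2 : o < 1) :
    0 ≤ RR z o + QB2 z (-log (1 - z)) (18 / 100 * (-log (1 - z)) - 1 / 10) o := by
  have hl2 := Real.log_two_gt_d9
  have hl2' := Real.log_two_lt_d9
  obtain ⟨h5, h5'⟩ := log5
  obtain ⟨e1, e2, e3, e4, e5, e6, e7⟩ := log5'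
  have hup := neg_log_le (v := 1 - z) (v1 := 2 / 25) (v2 := 16 / 625) (l1 := 2526 / 1000)
    (l2 := 3666 / 1000) (by norm_num) (by norm_num) (by linarith) (by linarith)
    (by rw [e3]; linarith) (by rw [e4]; linarith)
  have hlo := le_neg_log (v := 1 - z) (vm := 1 / 20) (l := 2995 / 1000) (by linarith)
    (by norm_num) (by rw [e7]; linarith)
  exact verts (A := 575) (B := 609) (D := 625) (A' := 56) (B' := 1000) (D' := 1000)
    (δ := 1000) (α := -16005) (β := 20000) (δ' := 34000) (α' := -569616) (β' := 712500)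
    (by norm_num) (by norm_num) (by decide +kernel) (by decide +kernel) (by decide +kernel)
    (by decide +kernel) (by push_cast; linarith) (by push_cast; linarith)
    (by push_cast; linarith) (by push_cast; linarith) (by linarith) (by linarith) (by linarith)
    (by push_cast; linarith) (hup.trans (le_of_eq (by push_cast; ring)))

end Right

/-- (S2c) -/
theorem conc_right {e o : ℝ} (he : e ∈ Icc (173 / 1000 : ℝ) (708 / 1000))
    (ho : o ∈ Ioo (355 / 1000 * e) 1) :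
    0 ≤ RR (1 - e ^ 2) o +
      QB2 (1 - e ^ 2) (-2 * log e) (18 / 100 * (-2 * log e) - 1 / 10) o := by
  obtain ⟨he1, he2⟩ := he
  obtain ⟨ho1, ho2⟩ := ho
  have hL : -2 * log e = -log (1 - (1 - e ^ 2)) := by
    rw [show 1 - (1 - e ^ 2) = e ^ 2 by ring, log_pow]
    push_cast
    ring
  rw [hL]
  have he3 : e ^ 2 ≤ 512 / 1000 := by nlinarith
  have he4 : 16 / 625 < e ^ 2 := by nlinarith
  rcases lt_or_ge (1 / 5) (e ^ 2) with h1 | h1
  · have h2 : 447 / 1000 ≤ e := by nlinarith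
    exact Right.conc1 (by linarith) (by linarith) (by linarith) ho2
  · rcases lt_or_ge (2 / 25) (e ^ 2) with h3 | h3
    · have h2 : 282 / 1000 ≤ e := by nlinarith
      exact Right.conc2 (by linarith) (by linarith) (by linarith) ho2
    · exact Right.conc3 (by linarith) (by linarith) (by linarith) ho2

end BE
end Vale.Agent.P322
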