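import Vale.Agent.P322.BEDefs

/-!
# (S2a): concavity for `z ≤ 1/2`
Bernstein expansions in `(z, o)` on `[1/6,1/2] × [0,1/2]` and `[1/6,1/2] × [1/2,1]`.
-/

open Real Set Filter Topology
namespace Vale.Agent.P322
namespace BE
namespace SmallAux

/-- coefficient of `c₀` in `QB2` -/
noncomputable def EE (z o : ℝ) : ℝ :=
  (1 - o) * (Bq z o * Bq2 z o + Bq1 z o ^ 2) - 2 * Bq z o * Bq1 z o

theorem bern8 {b0 b1 b2 b3 b4 b5 b6 b7 b8 t t' : ℝ} (h0 : 0 ≤ b0) (h1 : 0 ≤ b1) (h2 : 0 ≤ b2)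
    (h3 : 0 ≤ b3) (h4 : 0 ≤ b4) (h5 : 0 ≤ b5) (h6 : 0 ≤ b6) (h7 : 0 ≤ b7) (h8 : 0 ≤ b8)
    (ht : 0 ≤ t) (ht' : 0 ≤ t') :
    0 ≤ 1 * b0 * t ^ 0 * t' ^ 8 + 8 * b1 * t ^ 1 * t' ^ 7 + 28 * b2 * t ^ 2 * t' ^ 6
      + 56 * b3 * t ^ 3 * t' ^ 5 + 70 * b4 * t ^ 4 * t' ^ 4 + 56 * b5 * t ^ 5 * t' ^ 3
      + 28 * b6 * t ^ 6 * t' ^ 2 + 8 * b7 * t ^ 7 * t' ^ 1 + 1 * b8 * t ^ 8 * t' ^ 0 := by
  positivity

theorem left_b0 {z : ℝ} (hx : 0 ≤ 6 * z - 1) (hy : 0 ≤ 3 - 6 * z) :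
    0 ≤ (1539/62500) + (-9921/62500) * z + (82883/125000) * z ^ 2 + (-10039/93750) * z ^ 3 + (-68519/93750) * z ^ 4 + (152/125) * z ^ 5 + (-51/50) * z ^ 6 + (14/125) * z ^ 7 := by
  have e : (1539/62500) + (-9921/62500) * z + (82883/125000) * z ^ 2 + (-10039/93750) * z ^ 3 + (-68519/93750) * z ^ 4 + (152/125) * z ^ 5 + (-51/50) * z ^ 6 + (14/125) * z ^ 7 =
      (548033/8957952000) * (6 * z - 1) ^ 0 * (3 - 6 * z) ^ 8 + (305909/559872000) * (6 * z - 1) ^ 1 * (3 - 6 * z) ^ 7 + (2186173/933120000) * (6 * z - 1) ^ 2 * (3 - 6 * z) ^ 6 + (18533687/3110400000) * (6 * z - 1) ^ 3 * (3 - 6 * z) ^ 5 + (590063717/62208000000) * (6 * z - 1) ^ 4 * (3 - 6 * z) ^ 4 + (12336541/1296000000) * (6 * z - 1) ^ 5 * (3 - 6 * z) ^ 3 + (3366419/576000000) * (6 * z - 1) ^ 6 * (3 - 6 * z) ^ 2 + (1153421/576000000) * (6 * z - 1) ^ 7 * (3 - 6 * z) ^ 1 + (449369/1536000000) * (6 * z - 1) ^ 8 * (3 - 6 * z) ^ 0 := by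
    ring
  rw [e]
  generalize 6 * z - 1 = x at *
  generalize 3 - 6 * z = y at *
  positivity

theorem left_b1 {z : ℝ} (hx : 0 ≤ 6 * z - 1) (hy : 0 ≤ 3 - 6 * z) :
    0 ≤ (39639/2000000) + (-134901/2000000) * z + (510153/2000000) * z ^ 2 + (2510321/6000000) * z ^ 3 + (-2830171/3000000) * z ^ 4 + (70113/62500) * z ^ 5 + (-371/500) * z ^ 6 + (-31/4000) * z ^ 7 + (7/1000) * z ^ 8 := by
  have e : (39639/2000000) + (-134901/2000000) * z + (510153/2000000) * z ^ 2 + (2510321/6000000) * z ^ 3 + (-2830171/3000000) * z ^ 4 + (70113/62500) * z ^ 5 + (-371/500) * z ^ 6 + (-31/4000) * z ^ 7 + (7/1000) * z ^ 8 =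
      (57108953/859963392000) * (6 * z - 1) ^ 0 * (3 - 6 * z) ^ 8 + (138953761/238878720000) * (6 * z - 1) ^ 1 * (3 - 6 * z) ^ 7 + (2824109227/1194393600000) * (6 * z - 1) ^ 2 * (3 - 6 * z) ^ 6 + (11336473199/1990656000000) * (6 * z - 1) ^ 3 * (3 - 6 * z) ^ 5 + (4330866247/497664000000) * (6 * z - 1) ^ 4 * (3 - 6 * z) ^ 4 + (5651000531/663552000000) * (6 * z - 1) ^ 5 * (3 - 6 * z) ^ 3 + (127008211/24576000000) * (6 * z - 1) ^ 6 * (3 - 6 * z) ^ 2 + (26080403/14745600000) * (6 * z - 1) ^ 7 * (3 - 6 * z) ^ 1 + (12792841/49152000000) * (6 * z - 1) ^ 8 * (3 - 6 * z) ^ 0 := by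
    ring
  rw [e]
  generalize 6 * z - 1 = x at *
  generalize 3 - 6 * z = y at *
  positivity

theorem left_b2 {z : ℝ} (hx : 0 ≤ 6 * z - 1) (hy : 0 ≤ 3 - 6 * z) :
    0 ≤ (3003/200000) + (227991/14000000) * z + (-123251/2000000) * z ^ 2 + (28531463/42000000) * z ^ 3 + (-19244041/21000000) * z ^ 4 + (6637739/7000000) * z ^ 5 + (-3496987/7000000) * z ^ 6 + (-223/2800) * z ^ 7 + (3/500) * z ^ 8 := by
  have e : (3003/200000) + (227991/14000000) * z + (-123251/2000000) * z ^ 2 + (28531463/42000000) * z ^ 3 + (-19244041/21000000) * z ^ 4 + (6637739/7000000) * z ^ 5 + (-3496987/7000000) * z ^ 6 + (-223/2800) * z ^ 7 + (3/500) * z ^ 8 =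
      (34649047/477757440000) * (6 * z - 1) ^ 0 * (3 - 6 * z) ^ 8 + (7907346611/12541132800000) * (6 * z - 1) ^ 1 * (3 - 6 * z) ^ 7 + (5698660669/2322432000000) * (6 * z - 1) ^ 2 * (3 - 6 * z) ^ 6 + (617554619/110592000000) * (6 * z - 1) ^ 3 * (3 - 6 * z) ^ 5 + (112712945113/13934592000000) * (6 * z - 1) ^ 4 * (3 - 6 * z) ^ 4 + (17624701051/2322432000000) * (6 * z - 1) ^ 5 * (3 - 6 * z) ^ 3 + (1155008333/258048000000) * (6 * z - 1) ^ 6 * (3 - 6 * z) ^ 2 + (389293433/258048000000) * (6 * z - 1) ^ 7 * (3 - 6 * z) ^ 1 + (76097971/344064000000) * (6 * z - 1) ^ 8 * (3 - 6 * z) ^ 0 := by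
    ring
  rw [e]
  generalize 6 * z - 1 = x at *
  generalize 3 - 6 * z = y at *
  positivity

theorem left_b3 {z : ℝ} (hx : 0 ≤ 6 * z - 1) (hy : 0 ≤ 3 - 6 * z) :
    0 ≤ (20421/2000000) + (129459/1400000) * z + (-661039/2240000) * z ^ 2 + (124503791/168000000) * z ^ 3 + (-4641449/6000000) * z ^ 4 + (21580533/28000000) * z ^ 5 + (-1711537/5600000) * z ^ 6 + (-3208641/28000000) * z ^ 7 + (7/4000) * z ^ 8 := by
  have e : (20421/2000000) + (129459/1400000) * z + (-661039/2240000) * z ^ 2 + (124503791/168000000) * z ^ 3 + (-4641449/6000000) * z ^ 4 + (21580533/28000000) * z ^ 5 + (-1711537/5600000) * z ^ 6 + (-3208641/28000000) * z ^ 7 + (7/4000) * z ^ 8 =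
      (95709842959/1203948748800000) * (6 * z - 1) ^ 0 * (3 - 6 * z) ^ 8 + (695878578533/1003290624000000) * (6 * z - 1) ^ 1 * (3 - 6 * z) ^ 7 + (125166268571/47775744000000) * (6 * z - 1) ^ 2 * (3 - 6 * z) ^ 6 + (126293198069/22295347200000) * (6 * z - 1) ^ 3 * (3 - 6 * z) ^ 5 + (107609208127/13934592000000) * (6 * z - 1) ^ 4 * (3 - 6 * z) ^ 4 + (36224788747/5308416000000) * (6 * z - 1) ^ 5 * (3 - 6 * z) ^ 3 + (15780690643/4128768000000) * (6 * z - 1) ^ 6 * (3 - 6 * z) ^ 2 + (730809551/589824000000) * (6 * z - 1) ^ 7 * (3 - 6 * z) ^ 1 + (69702137/393216000000) * (6 * z - 1) ^ 8 * (3 - 6 * z) ^ 0 := by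
    ring
  rw [e]
  generalize 6 * z - 1 = x at *
  generalize 3 - 6 * z = y at *
  positivity

theorem left_b4 {z : ℝ} (hx : 0 ≤ 6 * z - 1) (hy : 0 ≤ 3 - 6 * z) :
    0 ≤ (2703/500000) + (225549/1400000) * z + (-1269609/2800000) * z ^ 2 + (55597579/84000000) * z ^ 3 + (-252137147/420000000) * z ^ 4 + (43345569/70000000) * z ^ 5 + (-4393399/28000000) * z ^ 6 + (-8658173/70000000) * z ^ 7 + (-7/2500) * z ^ 8 := by
  have e : (2703/500000) + (225549/1400000) * z + (-1269609/2800000) * z ^ 2 + (55597579/84000000) * z ^ 3 + (-252137147/420000000) * z ^ 4 + (43345569/70000000) * z ^ 5 + (-4393399/28000000) * z ^ 6 + (-8658173/70000000) * z ^ 7 + (-7/2500) * z ^ 8 =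
      (656604593111/7524679680000000) * (6 * z - 1) ^ 0 * (3 - 6 * z) ^ 8 + (644885548129/836075520000000) * (6 * z - 1) ^ 1 * (3 - 6 * z) ^ 7 + (114299656631/39813120000000) * (6 * z - 1) ^ 2 * (3 - 6 * z) ^ 6 + (554999124793/92897280000000) * (6 * z - 1) ^ 3 * (3 - 6 * z) ^ 5 + (2142596274011/278691840000000) * (6 * z - 1) ^ 4 * (3 - 6 * z) ^ 4 + (587429932627/92897280000000) * (6 * z - 1) ^ 5 * (3 - 6 * z) ^ 3 + (33800890489/10321920000000) * (6 * z - 1) ^ 6 * (3 - 6 * z) ^ 2 + (10152430787/10321920000000) * (6 * z - 1) ^ 7 * (3 - 6 * z) ^ 1 + (16193821/122880000000) * (6 * z - 1) ^ 8 * (3 - 6 * z) ^ 0 := by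
    ring
  rw [e]
  generalize 6 * z - 1 = x at *
  generalize 3 - 6 * z = y at *
  positivity

theorem left_b5 {z : ℝ} (hx : 0 ≤ 6 * z - 1) (hy : 0 ≤ 3 - 6 * z) :
    0 ≤ (1203/2000000) + (3110691/14000000) * z + (-15250633/28000000) * z ^ 2 + (20690393/42000000) * z ^ 3 + (-302011733/672000000) * z ^ 4 + (15911253/32000000) * z ^ 5 + (-10390557/224000000) * z ^ 6 + (-5208191/44800000) * z ^ 7 + (-49/8000) * z ^ 8 := by
  have e : (1203/2000000) + (3110691/14000000) * z + (-15250633/28000000) * z ^ 2 + (20690393/42000000) * z ^ 3 + (-302011733/672000000) * z ^ 4 + (15911253/32000000) * z ^ 5 + (-10390557/224000000) * z ^ 6 + (-5208191/44800000) * z ^ 7 + (-49/8000) * z ^ 8 =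
      (4608937927201/48157949952000000) * (6 * z - 1) ^ 0 * (3 - 6 * z) ^ 8 + (990213259409/1146617856000000) * (6 * z - 1) ^ 1 * (3 - 6 * z) ^ 7 + (955148136767/297271296000000) * (6 * z - 1) ^ 2 * (3 - 6 * z) ^ 6 + (1168116321943/178362777600000) * (6 * z - 1) ^ 3 * (3 - 6 * z) ^ 5 + (899916792611/111476736000000) * (6 * z - 1) ^ 4 * (3 - 6 * z) ^ 4 + (1843237231439/297271296000000) * (6 * z - 1) ^ 5 * (3 - 6 * z) ^ 3 + (96298147801/33030144000000) * (6 * z - 1) ^ 6 * (3 - 6 * z) ^ 2 + (25537297267/33030144000000) * (6 * z - 1) ^ 7 * (3 - 6 * z) ^ 1 + (1969963021/22020096000000) * (6 * z - 1) ^ 8 * (3 - 6 * z) ^ 0 := by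
    ring
  rw [e]
  generalize 6 * z - 1 = x at *
  generalize 3 - 6 * z = y at *
  positivity

theorem left_b6 {z : ℝ} (hx : 0 ≤ 6 * z - 1) (hy : 0 ≤ 3 - 6 * z) :
    0 ≤ (-4203/1000000) + (3860193/14000000) * z + (-4038107/7000000) * z ^ 2 + (23276959/84000000) * z ^ 3 + (-116545291/336000000) * z ^ 4 + (12687331/32000000) * z ^ 5 + (1429423/44800000) * z ^ 6 + (-22391609/224000000) * z ^ 7 + (-31/4000) * z ^ 8 := by
  have e : (-4203/1000000) + (3860193/14000000) * z + (-4038107/7000000) * z ^ 2 + (23276959/84000000) * z ^ 3 + (-116545291/336000000) * z ^ 4 + (12687331/32000000) * z ^ 5 + (1429423/44800000) * z ^ 6 + (-22391609/224000000) * z ^ 7 + (-31/4000) * z ^ 8 =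
      (1008081926683/9631589990400000) * (6 * z - 1) ^ 0 * (3 - 6 * z) ^ 8 + (7782834030133/8026324992000000) * (6 * z - 1) ^ 1 * (3 - 6 * z) ^ 7 + (9764620281317/2675441664000000) * (6 * z - 1) ^ 2 * (3 - 6 * z) ^ 6 + (7561759147/1019215872000) * (6 * z - 1) ^ 3 * (3 - 6 * z) ^ 5 + (1997864114413/222953472000000) * (6 * z - 1) ^ 4 * (3 - 6 * z) ^ 4 + (390912873721/59454259200000) * (6 * z - 1) ^ 5 * (3 - 6 * z) ^ 3 + (10413985187/3670016000000) * (6 * z - 1) ^ 6 * (3 - 6 * z) ^ 2 + (21323107993/33030144000000) * (6 * z - 1) ^ 7 * (3 - 6 * z) ^ 1 + (1245488707/22020096000000) * (6 * z - 1) ^ 8 * (3 - 6 * z) ^ 0 := by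
    ring
  rw [e]
  generalize 6 * z - 1 = x at *
  generalize 3 - 6 * z = y at *
  positivity

theorem left_b7 {z : ℝ} (hx : 0 ≤ 6 * z - 1) (hy : 0 ≤ 3 - 6 * z) :
    0 ≤ (-3603/400000) + (160857/500000) * z + (-4464939/8000000) * z ^ 2 + (1244621/24000000) * z ^ 3 + (-28574207/96000000) * z ^ 4 + (491637/1600000) * z ^ 5 + (10595927/128000000) * z ^ 6 + (-10336827/128000000) * z ^ 7 + (-63/8000) * z ^ 8 := by
  have e : (-3603/400000) + (160857/500000) * z + (-4464939/8000000) * z ^ 2 + (1244621/24000000) * z ^ 3 + (-28574207/96000000) * z ^ 4 + (491637/1600000) * z ^ 5 + (10595927/128000000) * z ^ 6 + (-10336827/128000000) * z ^ 7 + (-63/8000) * z ^ 8 =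
      (348281095333/3057647616000000) * (6 * z - 1) ^ 0 * (3 - 6 * z) ^ 8 + (13306393213/12230590464000) * (6 * z - 1) ^ 1 * (3 - 6 * z) ^ 7 + (6391034314979/1528823808000000) * (6 * z - 1) ^ 2 * (3 - 6 * z) ^ 6 + (4385484700039/509607936000000) * (6 * z - 1) ^ 3 * (3 - 6 * z) ^ 5 + (20756339203/1990656000000) * (6 * z - 1) ^ 4 * (3 - 6 * z) ^ 4 + (256986616759/33973862400000) * (6 * z - 1) ^ 5 * (3 - 6 * z) ^ 3 + (59261870221/18874368000000) * (6 * z - 1) ^ 6 * (3 - 6 * z) ^ 2 + (12153336583/18874368000000) * (6 * z - 1) ^ 7 * (3 - 6 * z) ^ 1 + (512833273/12582912000000) * (6 * z - 1) ^ 8 * (3 - 6 * z) ^ 0 := by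
    ring
  rw [e]
  generalize 6 * z - 1 = x at *
  generalize 3 - 6 * z = y at *
  positivity

theorem left_b8 {z : ℝ} (hx : 0 ≤ 6 * z - 1) (hy : 0 ≤ 3 - 6 * z) :
    0 ≤ (-3453/250000) + (7203/20000) * z + (-99293/200000) * z ^ 2 + (-922633/6000000) * z ^ 3 + (-3499027/12000000) * z ^ 4 + (359149/1600000) * z ^ 5 + (1780677/16000000) * z ^ 6 + (-2001609/32000000) * z ^ 7 + (-7/1000) * z ^ 8 := by
  have e : (-3453/250000) + (7203/20000) * z + (-99293/200000) * z ^ 2 + (-922633/6000000) * z ^ 3 + (-3499027/12000000) * z ^ 4 + (359149/1600000) * z ^ 5 + (1780677/16000000) * z ^ 6 + (-2001609/32000000) * z ^ 7 + (-7/1000) * z ^ 8 =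
      (846968083529/6879707136000000) * (6 * z - 1) ^ 0 * (3 - 6 * z) ^ 8 + (1394132448197/1146617856000000) * (6 * z - 1) ^ 1 * (3 - 6 * z) ^ 7 + (1834204859053/382205952000000) * (6 * z - 1) ^ 2 * (3 - 6 * z) ^ 6 + (257732219117/25480396800000) * (6 * z - 1) ^ 3 * (3 - 6 * z) ^ 5 + (797781934193/63700992000000) * (6 * z - 1) ^ 4 * (3 - 6 * z) ^ 4 + (78733145977/8493465600000) * (6 * z - 1) ^ 5 * (3 - 6 * z) ^ 3 + (18482390251/4718592000000) * (6 * z - 1) ^ 6 * (3 - 6 * z) ^ 2 + (3835273201/4718592000000) * (6 * z - 1) ^ 7 * (3 - 6 * z) ^ 1 + (31798109/629145600000) * (6 * z - 1) ^ 8 * (3 - 6 * z) ^ 0 := by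
    ring
  rw [e]
  generalize 6 * z - 1 = x at *
  generalize 3 - 6 * z = y at *
  positivity

theorem left_id (z o : ℝ) : z ^ 2 * (1 - z + o * z + z * (1 - z) / 3) + (6406 / 10000 * EE z o + (z + z ^ 2 / 2 + 56 / 100 * z ^ 3) / 5 * ((1 - z) ^ 2 - 6 * z * (1 - o) * (1 + z * o))) *
      ((1 + o * z) * (1 - z + o * z) ^ 2) - 1 / 1000 =
      1 * ((1539/62500) + (-9921/62500) * z + (82883/125000) * z ^ 2 + (-10039/93750) * z ^ 3 + (-68519/93750) * z ^ 4 + (152/125) * z ^ 5 + (-51/50) * z ^ 6 + (14/125) * z ^ 7) * (2 * o) ^ 0 * (1 - 2 * o) ^ 8 + 8 * ((39639/2000000) + (-134901/2000000) * z + (510153/2000000) * z ^ 2 + (2510321/6000000) * z ^ 3 + (-2830171/3000000) * z ^ 4 + (70113/62500) * z ^ 5 + (-371/500) * z ^ 6 + (-31/4000) * z ^ 7 + (7/1000) * z ^ 8) * (2 * o) ^ 1 * (1 - 2 * o) ^ 7 + 28 * ((3003/200000) + (227991/14000000) * z + (-123251/2000000) * z ^ 2 + (28531463/42000000) * z ^ 3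 + (-19244041/21000000) * z ^ 4 + (6637739/7000000) * z ^ 5 + (-3496987/7000000) * z ^ 6 + (-223/2800) * z ^ 7 + (3/500) * z ^ 8) * (2 * o) ^ 2 * (1 - 2 * o) ^ 6 + 56 * ((20421/2000000) + (129459/1400000) * z + (-661039/2240000) * z ^ 2 + (124503791/168000000) * z ^ 3 + (-4641449/6000000) * z ^ 4 + (21580533/28000000) * z ^ 5 + (-1711537/5600000) * z ^ 6 + (-3208641/28000000) * z ^ 7 + (7/4000) * z ^ 8) * (2 * o) ^ 3 * (1 - 2 * o) ^ 5 + 70 * ((2703/500000) + (225549/1400000) * z + (-1269609/2800000) * z ^ 2 + (55597579/84000000) * z ^ 3 + (-252137147/420000000) * z ^ 4 + (43345569/70000000) * z ^ 5 + (-4393399/28000000) * z ^ 6 + (-8658173/70000000) * z ^ 7 + (-7/2500) * z ^ 8) * (2 * o) ^ 4 * (1 - 2 * o) ^ 4 + 56 * ((1203/2000000) + (3110691/14000000) * z + (-15250633/28000000) * z ^ 2 + (20690393/42000000) * z ^ 3 + (-302011733/672000000) * z ^ 4 + (15911253/32000000) * z ^ 5 + (-10390557/224000000)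 * z ^ 6 + (-5208191/44800000) * z ^ 7 + (-49/8000) * z ^ 8) * (2 * o) ^ 5 * (1 - 2 * o) ^ 3 + 28 * ((-4203/1000000) + (3860193/14000000) * z + (-4038107/7000000) * z ^ 2 + (23276959/84000000) * z ^ 3 + (-116545291/336000000) * z ^ 4 + (12687331/32000000) * z ^ 5 + (1429423/44800000) * z ^ 6 + (-22391609/224000000) * z ^ 7 + (-31/4000) * z ^ 8) * (2 * o) ^ 6 * (1 - 2 * o) ^ 2 + 8 * ((-3603/400000) + (160857/500000) * z + (-4464939/8000000) * z ^ 2 + (1244621/24000000) * z ^ 3 + (-28574207/96000000) * z ^ 4 + (491637/1600000) * z ^ 5 + (10595927/128000000) * z ^ 6 + (-10336827/128000000) * z ^ 7 + (-63/8000) * z ^ 8) * (2 * o) ^ 7 * (1 - 2 * o) ^ 1 + 1 * ((-3453/250000) + (7203/20000) * z + (-99293/200000) * z ^ 2 + (-922633/6000000) * z ^ 3 + (-3499027/12000000) * z ^ 4 + (359149/1600000) * z ^ 5 + (1780677/16000000) * z ^ 6 + (-2001609/32000000) * z ^ 7 + (-7/1000) * z ^ 8) * (2 * o) ^ 8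 * (1 - 2 * o) ^ 0 := by
  simp only [EE, Bq, Bq1, Bq2]
  ring

theorem left {z o : ℝ} (hx : 0 ≤ 6 * z - 1) (hy : 0 ≤ 3 - 6 * z) (ht : 0 ≤ 2 * o) (ht' : 0 ≤ 1 - 2 * o) :
    0 ≤ z ^ 2 * (1 - z + o * z + z * (1 - z) / 3) + (6406 / 10000 * EE z o + (z + z ^ 2 / 2 + 56 / 100 * z ^ 3) / 5 * ((1 - z) ^ 2 - 6 * z * (1 - o) * (1 + z * o))) *
      ((1 + o * z) * (1 - z + o * z) ^ 2) - 1 / 1000 := by
  rw [left_id]
  exact bern8 (left_b0 hx hy) (left_b1 hx hy) (left_b2 hx hy) (left_b3 hx hy) (left_b4 hx hy) (left_b5 hx hy) (left_b6 hx hy) (left_b7 hx hy) (left_b8 hx hy) ht ht'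

theorem right_b0 {z : ℝ} (hx : 0 ≤ 6 * z - 1) (hy : 0 ≤ 3 - 6 * z) :
    0 ≤ (-3453/250000) + (7203/20000) * z + (-99293/200000) * z ^ 2 + (-922633/6000000) * z ^ 3 + (-3499027/12000000) * z ^ 4 + (359149/1600000) * z ^ 5 + (1780677/16000000) * z ^ 6 + (-2001609/32000000) * z ^ 7 + (-7/1000) * z ^ 8 := by
  have e : (-3453/250000) + (7203/20000) * z + (-99293/200000) * z ^ 2 + (-922633/6000000) * z ^ 3 + (-3499027/12000000) * z ^ 4 + (359149/1600000) * z ^ 5 + (1780677/16000000) * z ^ 6 + (-2001609/32000000) * z ^ 7 + (-7/1000) * z ^ 8 =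
      (846968083529/6879707136000000) * (6 * z - 1) ^ 0 * (3 - 6 * z) ^ 8 + (1394132448197/1146617856000000) * (6 * z - 1) ^ 1 * (3 - 6 * z) ^ 7 + (1834204859053/382205952000000) * (6 * z - 1) ^ 2 * (3 - 6 * z) ^ 6 + (257732219117/25480396800000) * (6 * z - 1) ^ 3 * (3 - 6 * z) ^ 5 + (797781934193/63700992000000) * (6 * z - 1) ^ 4 * (3 - 6 * z) ^ 4 + (78733145977/8493465600000) * (6 * z - 1) ^ 5 * (3 - 6 * z) ^ 3 + (18482390251/4718592000000) * (6 * z - 1) ^ 6 * (3 - 6 * z) ^ 2 + (3835273201/4718592000000) * (6 * z - 1) ^ 7 * (3 - 6 * z) ^ 1 + (31798109/629145600000) * (6 * z - 1) ^ 8 * (3 - 6 * z) ^ 0 := by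
    ring
  rw [e]
  generalize 6 * z - 1 = x at *
  generalize 3 - 6 * z = y at *
  positivity

theorem right_b1 {z : ℝ} (hx : 0 ≤ 6 * z - 1) (hy : 0 ≤ 3 - 6 * z) :
    0 ≤ (-37233/2000000) + (199293/500000) * z + (-3478501/8000000) * z ^ 2 + (-1725137/4800000) * z ^ 3 + (-1096409/3840000) * z ^ 4 + (226661/1600000) * z ^ 5 + (3578981/25600000) * z ^ 6 + (-1135209/25600000) * z ^ 7 + (-49/8000) * z ^ 8 := by
  have e : (-37233/2000000) + (199293/500000) * z + (-3478501/8000000) * z ^ 2 + (-1725137/4800000) * z ^ 3 + (-1096409/3840000) * z ^ 4 + (226661/1600000) * z ^ 5 + (3578981/25600000) * z ^ 6 + (-1135209/25600000) * z ^ 7 + (-49/8000) * z ^ 8 =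
      (728242962047/5503765708800000) * (6 * z - 1) ^ 0 * (3 - 6 * z) ^ 8 + (6163162130701/4586471424000000) * (6 * z - 1) ^ 1 * (3 - 6 * z) ^ 7 + (552173637163/101921587200000) * (6 * z - 1) ^ 2 * (3 - 6 * z) ^ 6 + (5923804064641/509607936000000) * (6 * z - 1) ^ 3 * (3 - 6 * z) ^ 5 + (93136101389/6370099200000) * (6 * z - 1) ^ 4 * (3 - 6 * z) ^ 4 + (372878551057/33973862400000) * (6 * z - 1) ^ 5 * (3 - 6 * z) ^ 3 + (88597251787/18874368000000) * (6 * z - 1) ^ 6 * (3 - 6 * z) ^ 2 + (741153961/754974720000) * (6 * z - 1) ^ 7 * (3 - 6 * z) ^ 1 + (759091087/12582912000000) * (6 * z - 1) ^ 8 * (3 - 6 * z) ^ 0 := by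
    ring
  rw [e]
  generalize 6 * z - 1 = x at *
  generalize 3 - 6 * z = y at *
  positivity

theorem right_b2 {z : ℝ} (hx : 0 ≤ 6 * z - 1) (hy : 0 ≤ 3 - 6 * z) :
    0 ≤ (-23421/1000000) + (6012609/14000000) * z + (-4623681/14000000) * z ^ 2 + (-45815183/84000000) * z ^ 3 + (-108397417/336000000) * z ^ 4 + (2088291/32000000) * z ^ 5 + (16346769/112000000) * z ^ 6 + (-759859/28000000) * z ^ 7 + (-17/4000) * z ^ 8 := by
  have e : (-23421/1000000) + (6012609/14000000) * z + (-4623681/14000000) * z ^ 2 + (-45815183/84000000) * z ^ 3 + (-108397417/336000000) * z ^ 4 + (2088291/32000000) * z ^ 5 + (16346769/112000000) * z ^ 6 + (-759859/28000000) * z ^ 7 + (-17/4000) * z ^ 8 =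
      (851725870781/6019743744000000) * (6 * z - 1) ^ 0 * (3 - 6 * z) ^ 8 + (110085744403/74317824000000) * (6 * z - 1) ^ 1 * (3 - 6 * z) ^ 7 + (4096279032487/668860416000000) * (6 * z - 1) ^ 2 * (3 - 6 * z) ^ 6 + (428594893919/31850496000000) * (6 * z - 1) ^ 3 * (3 - 6 * z) ^ 5 + (3867971230171/222953472000000) * (6 * z - 1) ^ 4 * (3 - 6 * z) ^ 4 + (199133660941/14863564800000) * (6 * z - 1) ^ 5 * (3 - 6 * z) ^ 3 + (16366641847/2752512000000) * (6 * z - 1) ^ 6 * (3 - 6 * z) ^ 2 + (2181870077/1651507200000) * (6 * z - 1) ^ 7 * (3 - 6 * z) ^ 1 + (131711941/1376256000000) * (6 * z - 1) ^ 8 * (3 - 6 * z) ^ 0 := by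
    ring
  rw [e]
  generalize 6 * z - 1 = x at *
  generalize 3 - 6 * z = y at *
  positivity

theorem right_b3 {z : ℝ} (hx : 0 ≤ 6 * z - 1) (hy : 0 ≤ 3 - 6 * z) :
    0 ≤ (-56451/2000000) + (1267863/2800000) * z + (-5344657/28000000) * z ^ 2 + (-5732801/8400000) * z ^ 3 + (-263862467/672000000) * z ^ 4 + (-316307/32000000) * z ^ 5 + (7548651/56000000) * z ^ 6 + (-831359/56000000) * z ^ 7 + (-3/1600) * z ^ 8 := by
  have e : (-56451/2000000) + (1267863/2800000) * z + (-5344657/28000000) * z ^ 2 + (-5732801/8400000) * z ^ 3 + (-263862467/672000000) * z ^ 4 + (-316307/32000000) * z ^ 5 + (7548651/56000000) * z ^ 6 + (-831359/56000000) * z ^ 7 + (-3/1600) * z ^ 8 =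
      (50268093979/334430208000000) * (6 * z - 1) ^ 0 * (3 - 6 * z) ^ 8 + (1631135238949/1003290624000000) * (6 * z - 1) ^ 1 * (3 - 6 * z) ^ 7 + (577973123419/83607552000000) * (6 * z - 1) ^ 2 * (3 - 6 * z) ^ 6 + (580354023499/37158912000000) * (6 * z - 1) ^ 3 * (3 - 6 * z) ^ 5 + (165311620351/7962624000000) * (6 * z - 1) ^ 4 * (3 - 6 * z) ^ 4 + (618229386757/37158912000000) * (6 * z - 1) ^ 5 * (3 - 6 * z) ^ 3 + (8017863491/1032192000000) * (6 * z - 1) ^ 6 * (3 - 6 * z) ^ 2 + (7744572713/4128768000000) * (6 * z - 1) ^ 7 * (3 - 6 * z) ^ 1 + (227308813/1376256000000) * (6 * z - 1) ^ 8 * (3 - 6 * z) ^ 0 := by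
    ring
  rw [e]
  generalize 6 * z - 1 = x at *
  generalize 3 - 6 * z = y at *
  positivity

theorem right_b4 {z : ℝ} (hx : 0 ≤ 6 * z - 1) (hy : 0 ≤ 3 - 6 * z) :
    0 ≤ (-3303/100000) + (3280161/7000000) * z + (-13849/560000) * z ^ 2 + (-8981291/12000000) * z ^ 3 + (-24687919/52500000) * z ^ 4 + (-5903981/70000000) * z ^ 5 + (312597/2800000) * z ^ 6 + (-1309391/140000000) * z ^ 7 + (1/5000) * z ^ 8 := by
  have e : (-3303/100000) + (3280161/7000000) * z + (-13849/560000) * z ^ 2 + (-8981291/12000000) * z ^ 3 + (-24687919/52500000) * z ^ 4 + (-5903981/70000000) * z ^ 5 + (312597/2800000) * z ^ 6 + (-1309391/140000000) * z ^ 7 + (1/5000) * z ^ 8 =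
      (4767094054799/30098718720000000) * (6 * z - 1) ^ 0 * (3 - 6 * z) ^ 8 + (8897220114619/5016453120000000) * (6 * z - 1) ^ 1 * (3 - 6 * z) ^ 7 + (4332120917729/557383680000000) * (6 * z - 1) ^ 2 * (3 - 6 * z) ^ 6 + (10089487694143/557383680000000) * (6 * z - 1) ^ 3 * (3 - 6 * z) ^ 5 + (6936519618251/278691840000000) * (6 * z - 1) ^ 4 * (3 - 6 * z) ^ 4 + (3861082396259/185794560000000) * (6 * z - 1) ^ 5 * (3 - 6 * z) ^ 3 + (211600902053/20643840000000) * (6 * z - 1) ^ 6 * (3 - 6 * z) ^ 2 + (7938191257/2949120000000) * (6 * z - 1) ^ 7 * (3 - 6 * z) ^ 1 + (3826397047/13762560000000) * (6 * z - 1) ^ 8 * (3 - 6 * z) ^ 0 := by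
    ring
  rw [e]
  generalize 6 * z - 1 = x at *
  generalize 3 - 6 * z = y at *
  positivity

theorem right_b5 {z : ℝ} (hx : 0 ≤ 6 * z - 1) (hy : 0 ≤ 3 - 6 * z) :
    0 ≤ (-75669/2000000) + (667563/1400000) * z + (256197/1600000) * z ^ 2 + (-122368579/168000000) * z ^ 3 + (-43728721/84000000) * z ^ 4 + (-2073651/14000000) * z ^ 5 + (4673639/56000000) * z ^ 6 + (-571891/56000000) * z ^ 7 + (1/800) * z ^ 8 := by
  have e : (-75669/2000000) + (667563/1400000) * z + (256197/1600000) * z ^ 2 + (-122368579/168000000) * z ^ 3 + (-43728721/84000000) * z ^ 4 + (-2073651/14000000) * z ^ 5 + (4673639/56000000) * z ^ 6 + (-571891/56000000) * z ^ 7 + (1/800) * z ^ 8 =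
      (397811220841/2407897497600000) * (6 * z - 1) ^ 0 * (3 - 6 * z) ^ 8 + (428028291163/222953472000000) * (6 * z - 1) ^ 1 * (3 - 6 * z) ^ 7 + (829765564861/95551488000000) * (6 * z - 1) ^ 2 * (3 - 6 * z) ^ 6 + (1551690947029/74317824000000) * (6 * z - 1) ^ 3 * (3 - 6 * z) ^ 5 + (828698247119/27869184000000) * (6 * z - 1) ^ 4 * (3 - 6 * z) ^ 4 + (1923830417003/74317824000000) * (6 * z - 1) ^ 5 * (3 - 6 * z) ^ 3 + (111229994597/8257536000000) * (6 * z - 1) ^ 6 * (3 - 6 * z) ^ 2 + (4497974089/1179648000000) * (6 * z - 1) ^ 7 * (3 - 6 * z) ^ 1 + (488690357/1101004800000) * (6 * z - 1) ^ 8 * (3 - 6 * z) ^ 0 := by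
    ring
  rw [e]
  generalize 6 * z - 1 = x at *
  generalize 3 - 6 * z = y at *
  positivity

theorem right_b6 {z : ℝ} (hx : 0 ≤ 6 * z - 1) (hy : 0 ≤ 3 - 6 * z) :
    0 ≤ (-42639/1000000) + (6685239/14000000) * z + (1244653/3500000) * z ^ 2 + (-1290629/2100000) * z ^ 3 + (-5304827/10500000) * z ^ 4 + (-2505567/14000000) * z ^ 5 + (432953/7000000) * z ^ 6 + (-79/5600) * z ^ 7 + (1/1000) * z ^ 8 := by
  have e : (-42639/1000000) + (6685239/14000000) * z + (1244653/3500000) * z ^ 2 + (-1290629/2100000) * z ^ 3 + (-5304827/10500000) * z ^ 4 + (-2505567/14000000) * z ^ 5 + (432953/7000000) * z ^ 6 + (-79/5600) * z ^ 7 + (1/1000) * z ^ 8 =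
      (18294589003/107495424000000) * (6 * z - 1) ^ 0 * (3 - 6 * z) ^ 8 + (129043302049/62705664000000) * (6 * z - 1) ^ 1 * (3 - 6 * z) ^ 7 + (100551319303/10450944000000) * (6 * z - 1) ^ 2 * (3 - 6 * z) ^ 6 + (33300619031/1393459200000) * (6 * z - 1) ^ 3 * (3 - 6 * z) ^ 5 + (491244323467/13934592000000) * (6 * z - 1) ^ 4 * (3 - 6 * z) ^ 4 + (74231820541/2322432000000) * (6 * z - 1) ^ 5 * (3 - 6 * z) ^ 3 + (563762239/32256000000) * (6 * z - 1) ^ 6 * (3 - 6 * z) ^ 2 + (1361343047/258048000000) * (6 * z - 1) ^ 7 * (3 - 6 * z) ^ 1 + (231021691/344064000000) * (6 * z - 1) ^ 8 * (3 - 6 * z) ^ 0 := by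
    ring
  rw [e]
  generalize 6 * z - 1 = x at *
  generalize 3 - 6 * z = y at *
  positivity

theorem right_b7 {z : ℝ} (hx : 0 ≤ 6 * z - 1) (hy : 0 ≤ 3 - 6 * z) :
    0 ≤ (-94887/2000000) + (941307/2000000) * z + (553681/1000000) * z ^ 2 + (-609793/1500000) * z ^ 3 + (-2327453/6000000) * z ^ 4 + (-290139/2000000) * z ^ 5 + (129/2000) * z ^ 6 + (-7/500) * z ^ 7 := by
  have e : (-94887/2000000) + (941307/2000000) * z + (553681/1000000) * z ^ 2 + (-609793/1500000) * z ^ 3 + (-2327453/6000000) * z ^ 4 + (-290139/2000000) * z ^ 5 + (129/2000) * z ^ 6 + (-7/500) * z ^ 7 =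
      (6183795287/35831808000000) * (6 * z - 1) ^ 0 * (3 - 6 * z) ^ 8 + (39050196853/17915904000000) * (6 * z - 1) ^ 1 * (3 - 6 * z) ^ 7 + (12596909339/1194393600000) * (6 * z - 1) ^ 2 * (3 - 6 * z) ^ 6 + (2155555537/79626240000) * (6 * z - 1) ^ 3 * (3 - 6 * z) ^ 5 + (20572252483/497664000000) * (6 * z - 1) ^ 4 * (3 - 6 * z) ^ 4 + (25845963821/663552000000) * (6 * z - 1) ^ 5 * (3 - 6 * z) ^ 3 + (182486289/8192000000) * (6 * z - 1) ^ 6 * (3 - 6 * z) ^ 2 + (523380793/73728000000) * (6 * z - 1) ^ 7 * (3 - 6 * z) ^ 1 + (47540761/49152000000) * (6 * z - 1) ^ 8 * (3 - 6 * z) ^ 0 := by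
    ring
  rw [e]
  generalize 6 * z - 1 = x at *
  generalize 3 - 6 * z = y at *
  positivity

theorem right_b8 {z : ℝ} (hx : 0 ≤ 6 * z - 1) (hy : 0 ≤ 3 - 6 * z) :
    0 ≤ (-6531/125000) + (5703/12500) * z + (46641/62500) * z ^ 2 + (-4159/37500) * z ^ 3 + (-13157/93750) * z ^ 4 + (-3/250) * z ^ 5 + (14/125) * z ^ 6 := by
  have e : (-6531/125000) + (5703/12500) * z + (46641/62500) * z ^ 2 + (-4159/37500) * z ^ 3 + (-13157/93750) * z ^ 4 + (-3/250) * z ^ 5 + (14/125) * z ^ 6 =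
      (1280137/7464960000) * (6 * z - 1) ^ 0 * (3 - 6 * z) ^ 8 + (42447281/18662400000) * (6 * z - 1) ^ 1 * (3 - 6 * z) ^ 7 + (1064667089/93312000000) * (6 * z - 1) ^ 2 * (3 - 6 * z) ^ 6 + (941489539/31104000000) * (6 * z - 1) ^ 3 * (3 - 6 * z) ^ 5 + (743337419/15552000000) * (6 * z - 1) ^ 4 * (3 - 6 * z) ^ 4 + (484080599/10368000000) * (6 * z - 1) ^ 5 * (3 - 6 * z) ^ 3 + (32020759/1152000000) * (6 * z - 1) ^ 6 * (3 - 6 * z) ^ 2 + (2136551/230400000) * (6 * z - 1) ^ 7 * (3 - 6 * z) ^ 1 + (1023529/768000000) * (6 * z - 1) ^ 8 * (3 - 6 * z) ^ 0 := by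
    ring
  rw [e]
  generalize 6 * z - 1 = x at *
  generalize 3 - 6 * z = y at *
  positivity

theorem right_id (z o : ℝ) : z ^ 2 * (1 - z + o * z + z * (1 - z) / 3) + (6406 / 10000 * EE z o + (z + z ^ 2 / 2 + 56 / 100 * z ^ 3) / 5 * ((1 - z) ^ 2 - 6 * z * (1 - o) * (1 + z * o))) *
      ((1 + o * z) * (1 - z + o * z) ^ 2) - 1 / 1000 =
      1 * ((-3453/250000) + (7203/20000) * z + (-99293/200000) * z ^ 2 + (-922633/6000000) * z ^ 3 + (-3499027/12000000) * z ^ 4 + (359149/1600000) * z ^ 5 + (1780677/16000000) * z ^ 6 + (-2001609/32000000) * z ^ 7 + (-7/1000) * z ^ 8) * (2 * o - 1) ^ 0 * (2 - 2 * o) ^ 8 + 8 * ((-37233/2000000) + (199293/500000) * z + (-3478501/8000000) * z ^ 2 + (-1725137/4800000) * z ^ 3 + (-1096409/3840000) * z ^ 4 + (226661/1600000) * z ^ 5 + (3578981/25600000) * z ^ 6 + (-1135209/25600000) * z ^ 7 + (-49/8000) * z ^ 8) * (2 * o - 1) ^ 1 * (2 - 2 * o) ^ 7 + 28 * ((-23421/1000000)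 + (6012609/14000000) * z + (-4623681/14000000) * z ^ 2 + (-45815183/84000000) * z ^ 3 + (-108397417/336000000) * z ^ 4 + (2088291/32000000) * z ^ 5 + (16346769/112000000) * z ^ 6 + (-759859/28000000) * z ^ 7 + (-17/4000) * z ^ 8) * (2 * o - 1) ^ 2 * (2 - 2 * o) ^ 6 + 56 * ((-56451/2000000) + (1267863/2800000) * z + (-5344657/28000000) * z ^ 2 + (-5732801/8400000) * z ^ 3 + (-263862467/672000000) * z ^ 4 + (-316307/32000000) * z ^ 5 + (7548651/56000000) * z ^ 6 + (-831359/56000000) * z ^ 7 + (-3/1600) * z ^ 8) * (2 * o - 1) ^ 3 * (2 - 2 * o) ^ 5 + 70 * ((-3303/100000) + (3280161/7000000) * z + (-13849/560000) * z ^ 2 + (-8981291/12000000) * z ^ 3 + (-24687919/52500000) * z ^ 4 + (-5903981/70000000) * z ^ 5 + (312597/2800000) * z ^ 6 + (-1309391/140000000) * z ^ 7 + (1/5000) * z ^ 8) * (2 * o - 1) ^ 4 * (2 - 2 * o) ^ 4 + 56 * ((-75669/2000000) + (667563/1400000) * z + (256197/1600000) * z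 ^ 2 + (-122368579/168000000) * z ^ 3 + (-43728721/84000000) * z ^ 4 + (-2073651/14000000) * z ^ 5 + (4673639/56000000) * z ^ 6 + (-571891/56000000) * z ^ 7 + (1/800) * z ^ 8) * (2 * o - 1) ^ 5 * (2 - 2 * o) ^ 3 + 28 * ((-42639/1000000) + (6685239/14000000) * z + (1244653/3500000) * z ^ 2 + (-1290629/2100000) * z ^ 3 + (-5304827/10500000) * z ^ 4 + (-2505567/14000000) * z ^ 5 + (432953/7000000) * z ^ 6 + (-79/5600) * z ^ 7 + (1/1000) * z ^ 8) * (2 * o - 1) ^ 6 * (2 - 2 * o) ^ 2 + 8 * ((-94887/2000000) + (941307/2000000) * z + (553681/1000000) * z ^ 2 + (-609793/1500000) * z ^ 3 + (-2327453/6000000) * z ^ 4 + (-290139/2000000) * z ^ 5 + (129/2000) * z ^ 6 + (-7/500) * z ^ 7) * (2 * o - 1) ^ 7 * (2 - 2 * o) ^ 1 + 1 * ((-6531/125000) + (5703/12500) * z + (46641/62500) * z ^ 2 + (-4159/37500) * z ^ 3 + (-13157/93750) * z ^ 4 + (-3/250) * z ^ 5 + (14/125) * z ^ 6) * (2 * o - 1) ^ 8 * (2 - 2 *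 o) ^ 0 := by
  simp only [EE, Bq, Bq1, Bq2]
  ring

theorem right {z o : ℝ} (hx : 0 ≤ 6 * z - 1) (hy : 0 ≤ 3 - 6 * z) (ht : 0 ≤ 2 * o - 1) (ht' : 0 ≤ 2 - 2 * o) :
    0 ≤ z ^ 2 * (1 - z + o * z + z * (1 - z) / 3) + (6406 / 10000 * EE z o + (z + z ^ 2 / 2 + 56 / 100 * z ^ 3) / 5 * ((1 - z) ^ 2 - 6 * z * (1 - o) * (1 + z * o))) *
      ((1 + o * z) * (1 - z + o * z) ^ 2) - 1 / 1000 := by
  rw [right_id]
  exact bern8 (right_b0 hx hy) (right_b1 hx hy) (right_b2 hx hy) (right_b3 hx hy) (right_b4 hx hy) (right_b5 hx hy) (right_b6 hx hy) (right_b7 hx hy) (right_b8 hx hy) ht ht'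

theorem nol_b0 {z : ℝ} (hx : 0 ≤ 6 * z - 1) (hy : 0 ≤ 3 - 6 * z) :
    0 ≤ (1539/62500) + (-22421/62500) * z + (320383/125000) * z ^ 2 + (-264289/93750) * z ^ 3 + (55231/93750) * z ^ 4 := by
  have e : (1539/62500) + (-22421/62500) * z + (320383/125000) * z ^ 2 + (-264289/93750) * z ^ 3 + (55231/93750) * z ^ 4 =
      (11389/62208000) * (6 * z - 1) ^ 0 * (3 - 6 * z) ^ 7 + (13747/6912000) * (6 * z - 1) ^ 1 * (3 - 6 * z) ^ 6 + (951269/103680000) * (6 * z - 1) ^ 2 * (3 - 6 * z) ^ 5 + (33822577/1555200000) * (6 * z - 1) ^ 3 * (3 - 6 * z) ^ 4 + (74307421/2592000000) * (6 * z - 1) ^ 4 * (3 - 6 * z) ^ 3 + (6128027/288000000) * (6 * z - 1) ^ 5 * (3 - 6 * z) ^ 2 + (2396267/288000000) * (6 * z - 1) ^ 6 * (3 - 6 * z) ^ 1 + (127843/96000000) * (6 * z - 1) ^ 7 * (3 - 6 * z) ^ 0 := by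
    ring
  rw [e]
  generalize 6 * z - 1 = x at *
  generalize 3 - 6 * z = y at *
  positivity

theorem nol_b1 {z : ℝ} (hx : 0 ≤ 6 * z - 1) (hy : 0 ≤ 3 - 6 * z) :
    0 ≤ (3003/200000) + (-35233/200000) * z + (1522089/1000000) * z ^ 2 + (-2191931/3000000) * z ^ 3 + (-1105367/1500000) * z ^ 4 + (28827/125000) * z ^ 5 := by
  have e : (3003/200000) + (-35233/200000) * z + (1522089/1000000) * z ^ 2 + (-2191931/3000000) * z ^ 3 + (-1105367/1500000) * z ^ 4 + (28827/125000) * z ^ 5 =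
      (46681/248832000) * (6 * z - 1) ^ 0 * (3 - 6 * z) ^ 7 + (1097027/552960000) * (6 * z - 1) ^ 1 * (3 - 6 * z) ^ 6 + (9197129/1036800000) * (6 * z - 1) ^ 2 * (3 - 6 * z) ^ 5 + (2591045891/124416000000) * (6 * z - 1) ^ 3 * (3 - 6 * z) ^ 4 + (286732999/10368000000) * (6 * z - 1) ^ 4 * (3 - 6 * z) ^ 3 + (32114497/1536000000) * (6 * z - 1) ^ 5 * (3 - 6 * z) ^ 2 + (1207951/144000000) * (6 * z - 1) ^ 6 * (3 - 6 * z) ^ 1 + (2127289/1536000000) * (6 * z - 1) ^ 7 * (3 - 6 * z) ^ 0 := by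
    ring
  rw [e]
  generalize 6 * z - 1 = x at *
  generalize 3 - 6 * z = y at *
  positivity

theorem nol_b2 {z : ℝ} (hx : 0 ≤ 6 * z - 1) (hy : 0 ≤ 3 - 6 * z) :
    0 ≤ (2703/500000) + (-41639/1750000) * z + (52891/62500) * z ^ 2 + (280337/2625000) * z ^ 3 + (-1653329/2625000) * z ^ 4 + (-124917/1750000) * z ^ 5 + (9609/250000) * z ^ 6 := by
  have e : (2703/500000) + (-41639/1750000) * z + (52891/62500) * z ^ 2 + (280337/2625000) * z ^ 3 + (-1653329/2625000) * z ^ 4 + (-124917/1750000) * z ^ 5 + (9609/250000) * z ^ 6 =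
      (27158923/139345920000) * (6 * z - 1) ^ 0 * (3 - 6 * z) ^ 7 + (1413745561/696729600000) * (6 * z - 1) ^ 1 * (3 - 6 * z) ^ 6 + (1454685583/165888000000) * (6 * z - 1) ^ 2 * (3 - 6 * z) ^ 5 + (70143124589/3483648000000) * (6 * z - 1) ^ 3 * (3 - 6 * z) ^ 4 + (30824264203/1161216000000) * (6 * z - 1) ^ 4 * (3 - 6 * z) ^ 3 + (2602497421/129024000000) * (6 * z - 1) ^ 5 * (3 - 6 * z) ^ 2 + (1059555011/129024000000) * (6 * z - 1) ^ 6 * (3 - 6 * z) ^ 1 + (59615623/43008000000) * (6 * z - 1) ^ 7 * (3 - 6 * z) ^ 0 := by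
    ring
  rw [e]
  generalize 6 * z - 1 = x at *
  generalize 3 - 6 * z = y at *
  positivity

theorem nol_b3 {z : ℝ} (hx : 0 ≤ 6 * z - 1) (hy : 0 ≤ 3 - 6 * z) :
    0 ≤ (-4203/1000000) + (137729/1400000) * z + (824333/1750000) * z ^ 2 + (454099/2100000) * z ^ 3 + (-317429/1500000) * z ^ 4 + (-73669/500000) * z ^ 5 + (-9609/500000) * z ^ 6 + (9609/3500000) * z ^ 7 := by
  have e : (-4203/1000000) + (137729/1400000) * z + (824333/1750000) * z ^ 2 + (454099/2100000) * z ^ 3 + (-317429/1500000) * z ^ 4 + (-73669/500000) * z ^ 5 + (-9609/500000) * z ^ 6 + (9609/3500000) * z ^ 7 =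
      (1704576661/8360755200000) * (6 * z - 1) ^ 0 * (3 - 6 * z) ^ 7 + (29644996979/13934592000000) * (6 * z - 1) ^ 1 * (3 - 6 * z) ^ 6 + (17814808409/1990656000000) * (6 * z - 1) ^ 2 * (3 - 6 * z) ^ 5 + (278408121167/13934592000000) * (6 * z - 1) ^ 3 * (3 - 6 * z) ^ 4 + (119867532643/4644864000000) * (6 * z - 1) ^ 4 * (3 - 6 * z) ^ 3 + (10011369787/516096000000) * (6 * z - 1) ^ 5 * (3 - 6 * z) ^ 2 + (581487977/73728000000) * (6 * z - 1) ^ 6 * (3 - 6 * z) ^ 1 + (230721973/172032000000) * (6 * z - 1) ^ 7 * (3 - 6 * z) ^ 0 := by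
    ring
  rw [e]
  generalize 6 * z - 1 = x at *
  generalize 3 - 6 * z = y at *
  positivity

theorem nol_b4 {z : ℝ} (hx : 0 ≤ 6 * z - 1) (hy : 0 ≤ 3 - 6 * z) :
    0 ≤ (-3453/250000) + (41639/218750) * z + (116181/350000) * z ^ 2 + (14123/2625000) * z ^ 3 + (253633/26250000) * z ^ 4 + (-150541/4375000) * z ^ 5 + (-54451/1750000) * z ^ 6 + (-9609/2187500) * z ^ 7 := by
  have e : (-3453/250000) + (41639/218750) * z + (116181/350000) * z ^ 2 + (14123/2625000) * z ^ 3 + (253633/26250000) * z ^ 4 + (-150541/4375000) * z ^ 5 + (-54451/1750000) * z ^ 6 + (-9609/2187500) * z ^ 7 =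
      (3696058361/17418240000000) * (6 * z - 1) ^ 0 * (3 - 6 * z) ^ 7 + (23728202153/10450944000000) * (6 * z - 1) ^ 1 * (3 - 6 * z) ^ 6 + (164719127129/17418240000000) * (6 * z - 1) ^ 2 * (3 - 6 * z) ^ 5 + (359748914359/17418240000000) * (6 * z - 1) ^ 3 * (3 - 6 * z) ^ 4 + (151109166161/5806080000000) * (6 * z - 1) ^ 4 * (3 - 6 * z) ^ 3 + (12335345327/645120000000) * (6 * z - 1) ^ 5 * (3 - 6 * z) ^ 2 + (4923297121/645120000000) * (6 * z - 1) ^ 6 * (3 - 6 * z) ^ 1 + (275570261/215040000000) * (6 * z - 1) ^ 7 * (3 - 6 * z) ^ 0 := by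
    ring
  rw [e]
  generalize 6 * z - 1 = x at *
  generalize 3 - 6 * z = y at *
  positivity

theorem nol_b5 {z : ℝ} (hx : 0 ≤ 6 * z - 1) (hy : 0 ≤ 3 - 6 * z) :
    0 ≤ (-23421/1000000) + (1764853/7000000) * z + (2551033/7000000) * z ^ 2 + (-4901171/21000000) * z ^ 3 + (-955939/21000000) * z ^ 4 + (297879/7000000) * z ^ 5 + (3203/7000000) * z ^ 6 + (9609/7000000) * z ^ 7 := by
  have e : (-23421/1000000) + (1764853/7000000) * z + (2551033/7000000) * z ^ 2 + (-4901171/21000000) * z ^ 3 + (-955939/21000000) * z ^ 4 + (297879/7000000) * z ^ 5 + (3203/7000000) * z ^ 6 + (9609/7000000) * z ^ 7 =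
      (11451379/53084160000) * (6 * z - 1) ^ 0 * (3 - 6 * z) ^ 7 + (203212266493/83607552000000) * (6 * z - 1) ^ 1 * (3 - 6 * z) ^ 6 + (95343571073/9289728000000) * (6 * z - 1) ^ 2 * (3 - 6 * z) ^ 5 + (622480514587/27869184000000) * (6 * z - 1) ^ 3 * (3 - 6 * z) ^ 4 + (257972783927/9289728000000) * (6 * z - 1) ^ 4 * (3 - 6 * z) ^ 3 + (2949251201/147456000000) * (6 * z - 1) ^ 5 * (3 - 6 * z) ^ 2 + (45962269/5898240000) * (6 * z - 1) ^ 6 * (3 - 6 * z) ^ 1 + (62621663/49152000000) * (6 * z - 1) ^ 7 * (3 - 6 * z) ^ 0 := by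
    ring
  rw [e]
  generalize 6 * z - 1 = x at *
  generalize 3 - 6 * z = y at *
  positivity

theorem nol_b6 {z : ℝ} (hx : 0 ≤ 6 * z - 1) (hy : 0 ≤ 3 - 6 * z) :
    0 ≤ (-3303/100000) + (99293/350000) * z + (881987/1750000) * z ^ 2 + (-847849/2625000) * z ^ 3 + (-2241221/10500000) * z ^ 4 + (3203/1750000) * z ^ 5 + (3203/1750000) * z ^ 6 := by
  have e : (-3303/100000) + (99293/350000) * z + (881987/1750000) * z ^ 2 + (-847849/2625000) * z ^ 3 + (-2241221/10500000) * z ^ 4 + (3203/1750000) * z ^ 5 + (3203/1750000) * z ^ 6 =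
      (2171218391/10450944000000) * (6 * z - 1) ^ 0 * (3 - 6 * z) ^ 7 + (26651883497/10450944000000) * (6 * z - 1) ^ 1 * (3 - 6 * z) ^ 6 + (39033692461/3483648000000) * (6 * z - 1) ^ 2 * (3 - 6 * z) ^ 5 + (17354319439/696729600000) * (6 * z - 1) ^ 3 * (3 - 6 * z) ^ 4 + (5191755043/165888000000) * (6 * z - 1) ^ 4 * (3 - 6 * z) ^ 3 + (64796239/2867200000) * (6 * z - 1) ^ 5 * (3 - 6 * z) ^ 2 + (226147249/25804800000) * (6 * z - 1) ^ 6 * (3 - 6 * z) ^ 1 + (60878737/43008000000) * (6 * z - 1) ^ 7 * (3 - 6 * z) ^ 0 := by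
    ring
  rw [e]
  generalize 6 * z - 1 = x at *
  generalize 3 - 6 * z = y at *
  positivity

theorem nol_b7 {z : ℝ} (hx : 0 ≤ 6 * z - 1) (hy : 0 ≤ 3 - 6 * z) :
    0 ≤ (-42639/1000000) + (285067/1000000) * z + (343053/500000) * z ^ 2 + (-75619/375000) * z ^ 3 + (-817429/3000000) * z ^ 4 + (-41639/1000000) * z ^ 5 := by
  have e : (-42639/1000000) + (285067/1000000) * z + (343053/500000) * z ^ 2 + (-75619/375000) * z ^ 3 + (-817429/3000000) * z ^ 4 + (-41639/1000000) * z ^ 5 =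
      (177148943/995328000000) * (6 * z - 1) ^ 0 * (3 - 6 * z) ^ 7 + (2514680051/995328000000) * (6 * z - 1) ^ 1 * (3 - 6 * z) ^ 6 + (11832732847/995328000000) * (6 * z - 1) ^ 2 * (3 - 6 * z) ^ 5 + (27529954507/995328000000) * (6 * z - 1) ^ 3 * (3 - 6 * z) ^ 4 + (478085183/13271040000) * (6 * z - 1) ^ 4 * (3 - 6 * z) ^ 3 + (989457859/36864000000) * (6 * z - 1) ^ 5 * (3 - 6 * z) ^ 2 + (395027767/36864000000) * (6 * z - 1) ^ 6 * (3 - 6 * z) ^ 1 + (21876833/12288000000) * (6 * z - 1) ^ 7 * (3 - 6 * z) ^ 0 := by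
    ring
  rw [e]
  generalize 6 * z - 1 = x at *
  generalize 3 - 6 * z = y at *
  positivity

theorem nol_b8 {z : ℝ} (hx : 0 ≤ 6 * z - 1) (hy : 0 ≤ 3 - 6 * z) :
    0 ≤ (-6531/125000) + (3203/12500) * z + (52891/62500) * z ^ 2 + (2891/37500) * z ^ 3 + (-6016/46875) * z ^ 4 := by
  have e : (-6531/125000) + (3203/12500) * z + (52891/62500) * z ^ 2 + (2891/37500) * z ^ 3 + (-6016/46875) * z ^ 4 =
      (69127/622080000) * (6 * z - 1) ^ 0 * (3 - 6 * z) ^ 7 + (84107/38400000) * (6 * z - 1) ^ 1 * (3 - 6 * z) ^ 6 + (59914801/5184000000) * (6 * z - 1) ^ 2 * (3 - 6 * z) ^ 5 + (448220011/15552000000) * (6 * z - 1) ^ 3 * (3 - 6 * z) ^ 4 + (205341359/5184000000) * (6 * z - 1) ^ 4 * (3 - 6 * z) ^ 3 + (3566947/115200000) * (6 * z - 1) ^ 5 * (3 - 6 * z) ^ 2 + (7460899/576000000) * (6 * z - 1) ^ 6 * (3 - 6 * z) ^ 1 + (433577/192000000) * (6 * z - 1) ^ 7 * (3 - 6 * z) ^ 0 := by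
    ring
  rw [e]
  generalize 6 * z - 1 = x at *
  generalize 3 - 6 * z = y at *
  positivity

theorem nol_id (z o : ℝ) : z ^ 2 * (1 - z + o * z + z * (1 - z) / 3) + (6406 / 10000 * EE z o + 0) *
      ((1 + o * z) * (1 - z + o * z) ^ 2) - 1 / 1000 =
      1 * ((1539/62500) + (-22421/62500) * z + (320383/125000) * z ^ 2 + (-264289/93750) * z ^ 3 + (55231/93750) * z ^ 4) * (o) ^ 0 * (1 - o) ^ 8 + 8 * ((3003/200000) + (-35233/200000) * z + (1522089/1000000) * z ^ 2 + (-2191931/3000000) * z ^ 3 + (-1105367/1500000) * z ^ 4 + (28827/125000) * z ^ 5) * (o) ^ 1 * (1 - o) ^ 7 + 28 * ((2703/500000) + (-41639/1750000) * z + (52891/62500) * z ^ 2 + (280337/2625000) * z ^ 3 + (-1653329/2625000) * z ^ 4 + (-124917/1750000) * z ^ 5 + (9609/250000) * z ^ 6) * (o) ^ 2 * (1 - o) ^ 6 + 56 * ((-4203/1000000) + (137729/1400000) * z + (824333/1750000) * z ^ 2 + (454099/2100000) * z ^ 3 + (-317429/1500000)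 * z ^ 4 + (-73669/500000) * z ^ 5 + (-9609/500000) * z ^ 6 + (9609/3500000) * z ^ 7) * (o) ^ 3 * (1 - o) ^ 5 + 70 * ((-3453/250000) + (41639/218750) * z + (116181/350000) * z ^ 2 + (14123/2625000) * z ^ 3 + (253633/26250000) * z ^ 4 + (-150541/4375000) * z ^ 5 + (-54451/1750000) * z ^ 6 + (-9609/2187500) * z ^ 7) * (o) ^ 4 * (1 - o) ^ 4 + 56 * ((-23421/1000000) + (1764853/7000000) * z + (2551033/7000000) * z ^ 2 + (-4901171/21000000) * z ^ 3 + (-955939/21000000) * z ^ 4 + (297879/7000000) * z ^ 5 + (3203/7000000) * z ^ 6 + (9609/7000000) * z ^ 7) * (o) ^ 5 * (1 - o) ^ 3 + 28 * ((-3303/100000) + (99293/350000) * z + (881987/1750000) * z ^ 2 + (-847849/2625000) * z ^ 3 + (-2241221/10500000) * z ^ 4 + (3203/1750000) * z ^ 5 + (3203/1750000) * z ^ 6) * (o) ^ 6 * (1 - o) ^ 2 + 8 * ((-42639/1000000) + (285067/1000000) * z + (343053/500000) * z ^ 2 + (-75619/375000) * z ^ 3 + (-817429/3000000)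 * z ^ 4 + (-41639/1000000) * z ^ 5) * (o) ^ 7 * (1 - o) ^ 1 + 1 * ((-6531/125000) + (3203/12500) * z + (52891/62500) * z ^ 2 + (2891/37500) * z ^ 3 + (-6016/46875) * z ^ 4) * (o) ^ 8 * (1 - o) ^ 0 := by
  simp only [EE, Bq, Bq1, Bq2]
  ring

theorem nol {z o : ℝ} (hx : 0 ≤ 6 * z - 1) (hy : 0 ≤ 3 - 6 * z) (ht : 0 ≤ o) (ht' : 0 ≤ 1 - o) :
    0 ≤ z ^ 2 * (1 - z + o * z + z * (1 - z) / 3) + (6406 / 10000 * EE z o + 0) *
      ((1 + o * z) * (1 - z + o * z) ^ 2) - 1 / 1000 := by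
  rw [nol_id]
  exact bern8 (nol_b0 hx hy) (nol_b1 hx hy) (nol_b2 hx hy) (nol_b3 hx hy) (nol_b4 hx hy) (nol_b5 hx hy) (nol_b6 hx hy) (nol_b7 hx hy) (nol_b8 hx hy) ht ht'

/-- `-log(1-z) ≤ z + z²/2 + z³/3 + z⁴/4 + 2z⁵/5` on `[0,1/2]` -/
theorem log_upper {z : ℝ} (h0 : 0 ≤ z) (h1 : z ≤ 1 / 2) :
    -log (1 - z) ≤ z + z ^ 2 / 2 + 56 / 100 * z ^ 3 := by
  have hd : ∀ y : ℝ, y < 1 → HasDerivAt
      (fun y => y + y ^ 2 / 2 + y ^ 3 / 3 + y ^ 4 / 4 + 2 * y ^ 5 / 5 + log (1 - y))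
      (1 + 2 * y / 2 + 3 * y ^ 2 / 3 + 4 * y ^ 3 / 4 + 2 * (5 * y ^ 4) / 5 + (-1) / (1 - y)) y := by
    intro y hy
    have h1 : HasDerivAt (fun y : ℝ => 1 - y) (-1) y := (hasDerivAt_id y).const_sub 1
    have h2 := h1.log (by linarith : (1 : ℝ) - y ≠ 0)
    have a1 := hasDerivAt_id y
    have a2 := (hasDerivAt_pow 2 y).div_const 2
    have a3 := (hasDerivAt_pow 3 y).div_const 3
    have a4 := (hasDerivAt_pow 4 y).div_const 4
    have a5 := ((hasDerivAt_pow 5 y).const_mul 2).div_const 5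
    exact (((((a1.add a2).add a3).add a4).add a5).add h2).congr_deriv (by norm_num)
  have hmono : MonotoneOn
      (fun y => y + y ^ 2 / 2 + y ^ 3 / 3 + y ^ 4 / 4 + 2 * y ^ 5 / 5 + log (1 - y))
      (Icc 0 (1 / 2)) := by
    apply monotoneOn_of_deriv_nonneg (convex_Icc _ _)
    · intro y hy
      exact (hd y (by linarith [hy.2])).continuousAt.continuousWithinAt
    · intro y hy
      rw [interior_Icc] at hy
      exact (hd y (by linarith [hy.2])).differentiableAt.differentiableWithinAt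
    · intro y hy
      rw [interior_Icc] at hy
      have hy1 : 0 < 1 - y := by linarith [hy.2]
      rw [(hd y (by linarith [hy.2])).deriv]
      have e : 1 + 2 * y / 2 + 3 * y ^ 2 / 3 + 4 * y ^ 3 / 4 + 2 * (5 * y ^ 4) / 5 + (-1) / (1 - y)
          = y ^ 4 * (1 - 2 * y) / (1 - y) := by
        field_simp
        ring
      rw [e]
      have : 0 ≤ 1 - 2 * y := by linarith [hy.2]
      positivity
  have h := hmono (left_mem_Icc.mpr (by norm_num)) (⟨h0, h1⟩ : z ∈ Icc (0 : ℝ) (1 / 2)) h0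
  simp only [sub_zero, log_one] at h
  have h3 : z ^ 3 / 3 + z ^ 4 / 4 + 2 * z ^ 5 / 5 ≤ 56 / 100 * z ^ 3 := by
    have e : 56 / 100 * z ^ 3 - (z ^ 3 / 3 + z ^ 4 / 4 + 2 * z ^ 5 / 5)
        = z ^ 3 * (56 / 100 - 1 / 3 - z / 4 - 2 * z ^ 2 / 5) := by ring
    have h4 : 0 ≤ 56 / 100 - 1 / 3 - z / 4 - 2 * z ^ 2 / 5 := by nlinarith
    have h5 : 0 ≤ z ^ 3 * (56 / 100 - 1 / 3 - z / 4 - 2 * z ^ 2 / 5) := by positivity
    linarith
  linarith

theorem c0_bounds : 6406 / 10000 ≤ c0 ∧ c0 ≤ 6406 / 10000 + 1 / 100000 := by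
  have h1 := log_two_gt_d9
  have h2 := log_two_lt_d9
  rw [c0]
  constructor <;> nlinarith

theorem EE_le {z o : ℝ} (hz : 1 / 6 < z) (hz1 : z ≤ 1 / 2) (ho : o ∈ Ioo (0 : ℝ) 1) :
    -4 ≤ EE z o := by
  obtain ⟨o0, o1⟩ := ho
  have p2 : o ^ 2 ≤ 1 := by nlinarith
  have p3 : o ^ 3 ≤ 1 := by nlinarith [sq_nonneg o]
  have q1 : 0 ≤ z * (2 - z) := by nlinarith
  have q2 : z * (2 - z) ≤ 1 := by nlinarith
  have q3 : z ^ 2 ≤ 1 / 4 := by nlinarith
  have r1 : 0 ≤ o * (6 * z - 1) := by nlinarith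
  have r2 : o * (6 * z - 1) ≤ 2 := by nlinarith
  have r3 : o ^ 2 * (z * (2 - z)) ≤ 1 := by nlinarith [sq_nonneg o]
  have r3' : 0 ≤ o ^ 2 * (z * (2 - z)) := by positivity
  have r4 : o ^ 3 * z ^ 2 ≤ 1 := by nlinarith [sq_nonneg z, pow_pos o0 3]
  have r4' : 0 ≤ o ^ 3 * z ^ 2 := by positivity
  have r5 : o * (z * (2 - z)) ≤ 1 := by nlinarith
  have r5' : 0 ≤ o * (z * (2 - z)) := by positivity
  have r6 : o ^ 2 * z ^ 2 ≤ 1 := by nlinarith [sq_nonneg o, sq_nonneg z]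
  have r6' : 0 ≤ o ^ 2 * z ^ 2 := by positivity
  have r7 : o * z ^ 2 ≤ 1 := by nlinarith [sq_nonneg z]
  have r7' : 0 ≤ o * z ^ 2 := by positivity
  have b : |Bq z o| ≤ 1 := by
    rw [abs_le, Bq]; constructor <;> linarith
  have b1 : |Bq1 z o| ≤ 1 := by
    rw [abs_le, Bq1]; constructor <;> linarith
  have b2 : |Bq2 z o| ≤ 2 := by
    rw [abs_le, Bq2]; constructor <;> linarith
  have m1 : |Bq z o * Bq2 z o| ≤ 2 := by
    rw [abs_mul]
    calc |Bq z o| * |Bq2 z o| ≤ 1 * 2 := mul_le_mul b b2 (abs_nonneg _) (by norm_num)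
      _ = 2 := by norm_num
  have m2 : |Bq z o * Bq1 z o| ≤ 1 := by
    rw [abs_mul]
    calc |Bq z o| * |Bq1 z o| ≤ 1 * 1 := mul_le_mul b b1 (abs_nonneg _) (by norm_num)
      _ = 1 := by norm_num
  rw [abs_le] at m1 m2
  rw [EE]
  have m3 : -2 ≤ Bq z o * Bq2 z o + Bq1 z o ^ 2 := by nlinarith [sq_nonneg (Bq1 z o), m1.1]
  have m4 : -2 ≤ (1 - o) * (Bq z o * Bq2 z o + Bq1 z o ^ 2) := by nlinarith
  nlinarith [m2.2]

end SmallAux

open SmallAux in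
theorem conc_small {z o : ℝ} (hz : 1 / 6 < z) (hz1 : z ≤ 1 / 2) (ho : o ∈ Ioo (0 : ℝ) 1) :
    0 ≤ RR z o + QB2 z (-log (1 - z)) 0 o := by
  have o0 := ho.1
  have o1 := ho.2
  have hx : 0 ≤ 6 * z - 1 := by linarith
  have hy : 0 ≤ 3 - 6 * z := by linarith
  have hL1 := log_upper (by linarith : 0 ≤ z) hz1
  have hL0 : 0 ≤ -log (1 - z) := by
    have := log_nonpos (by linarith : (0 : ℝ) ≤ 1 - z) (by linarith)
    linarith
  have h1 : 0 ≤ z ^ 2 * (1 - z + o * z + z * (1 - z) / 3) + (6406 / 10000 * EE z o +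
      (z + z ^ 2 / 2 + 56 / 100 * z ^ 3) / 5 * ((1 - z) ^ 2 - 6 * z * (1 - o) * (1 + z * o))) *
      ((1 + o * z) * (1 - z + o * z) ^ 2) - 1 / 1000 := by
    rcases le_total o (1 / 2) with h | h
    · exact left hx hy (by linarith) (by linarith)
    · exact right hx hy (by linarith) (by linarith)
  have h2 := nol (o := o) hx hy o0.le (by linarith)
  have hE := EE_le hz hz1 ho
  obtain ⟨c1, c2⟩ := c0_bounds
  have hu : 0 < 1 - z + o * z := by nlinarith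
  have hu1 : 1 - z + o * z ≤ 1 := by nlinarith
  have hv : 0 < 1 + o * z := by positivity
  have hv1 : 1 + o * z ≤ 2 := by nlinarith
  set D := (1 + o * z) * (1 - z + o * z) ^ 2 with hD
  have hDpos : 0 < D := by positivity
  have hD1 : D ≤ 2 := by
    have : (1 - z + o * z) ^ 2 ≤ 1 := by nlinarith
    calc D ≤ 2 * 1 := mul_le_mul hv1 this (by positivity) (by norm_num)
      _ = 2 := by norm_num
  set L := -log (1 - z) with hL
  set K := (1 - z) ^ 2 - 6 * z * (1 - o) * (1 + z * o) with hK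
  -- the error from `c₀`
  have hc : -(1 / 1000) ≤ (c0 - 6406 / 10000) * (EE z o * D) := by
    have h3 : -8 ≤ EE z o * D := by nlinarith
    have h4 : 0 ≤ c0 - 6406 / 10000 := by linarith
    nlinarith
  have key : 0 ≤ z ^ 2 * (1 - z + o * z + z * (1 - z) / 3) + (c0 * EE z o + L / 5 * K) * D := by
    rcases le_total 0 K with hK0 | hK0
    · have h3 : 0 ≤ L / 5 * K * D := by positivity
      have e : z ^ 2 * (1 - z + o * z + z * (1 - z) / 3) + (c0 * EE z o + L / 5 * K) * D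
          = (z ^ 2 * (1 - z + o * z + z * (1 - z) / 3) + (6406 / 10000 * EE z o + 0) * D - 1 / 1000)
            + ((c0 - 6406 / 10000) * (EE z o * D) + 1 / 1000) + L / 5 * K * D := by ring
      rw [e]
      linarith
    · have h3 : (z + z ^ 2 / 2 + 56 / 100 * z ^ 3) / 5 * K * D ≤ L / 5 * K * D := by
        have h4 : (z + z ^ 2 / 2 + 56 / 100 * z ^ 3) / 5 * K ≤ L / 5 * K := by nlinarith
        exact mul_le_mul_of_nonneg_right h4 hDpos.le
      have e : z ^ 2 * (1 - z + o * z + z * (1 - z) / 3) + (c0 * EE z o + L / 5 * K) * D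
          = (z ^ 2 * (1 - z + o * z + z * (1 - z) / 3) + (6406 / 10000 * EE z o +
              (z + z ^ 2 / 2 + 56 / 100 * z ^ 3) / 5 * K) * D - 1 / 1000)
            + ((c0 - 6406 / 10000) * (EE z o * D) + 1 / 1000)
            + (L / 5 * K * D - (z + z ^ 2 / 2 + 56 / 100 * z ^ 3) / 5 * K * D) := by ring
      rw [e]
      linarith
  have hfin : RR z o + QB2 z L 0 o
      = (z ^ 2 * (1 - z + o * z + z * (1 - z) / 3) + (c0 * EE z o + L / 5 * K) * D) / D := by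
    have e1 : QB2 z L 0 o = c0 * EE z o + L / 5 * K := by
      rw [QB2, EE, hK]; ring
    rw [e1, RR, ← hD]
    field_simp
  rw [hfin]
  exact div_nonneg key hDpos.le

end BE
end Vale.Agent.P322
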