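import Vale.Agent.P322.Defs

/-!
# (BE) the key derivative identity

For fixed `ω`, `P(z) = ω L + ln (1 + ω z) - 2 m ath (z m / D)`, with `D = 1 - (1 - ω) z`,
`m = √(ω D)`, `L = -ln (1 - z)`, satisfies `dP/dz = ω (1 - ω) ath (z m / D) / m`.
-/

open Real Set Filter Topology

namespace Vale.Agent.P322
namespace BEC

/-- `P(z)` for fixed `ω` -/
noncomputable def PP (ω z : ℝ) : ℝ :=
  ω * (-log (1 - z)) + log (1 + ω * z) -
    2 * √(ω * (1 - (1 - ω) * z)) * ath (z * √(ω * (1 - (1 - ω) * z)) / (1 - (1 - ω) * z))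

theorem hasDerivAt_ath' {y : ℝ} (h1 : -1 < y) (h2 : y < 1) :
    HasDerivAt ath (1 / (1 - y ^ 2)) y := by
  have h3 : HasDerivAt (fun t : ℝ => 1 + t) 1 y := by
    simpa using (hasDerivAt_id y).const_add 1
  have h4 : HasDerivAt (fun t : ℝ => 1 - t) (-1) y := by
    simpa using (hasDerivAt_id y).const_sub 1
  have h5 := ((h3.log (by linarith)).sub (h4.log (by linarith))).div_const 2
  have hfun : ath = fun t : ℝ => (log (1 + t) - log (1 - t)) / 2 := rfl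
  rw [hfun]
  refine h5.congr_deriv ?_
  have ha : (1 : ℝ) + y ≠ 0 := by linarith
  have hb : (1 : ℝ) - y ≠ 0 := by linarith
  have hc : (1 : ℝ) - y ^ 2 ≠ 0 := by
    have : (1 : ℝ) - y ^ 2 = (1 + y) * (1 - y) := by ring
    rw [this]; exact mul_ne_zero ha hb
  field_simp
  ring

theorem D_pos {ω z : ℝ} (hz0 : 0 ≤ z) (hz1 : z < 1) (hω0 : 0 < ω) (_hω1 : ω < 1) :
    0 < 1 - (1 - ω) * z := by nlinarith

/-- `y² = z² ω / D` -/
theorem y_sq {ω z : ℝ} (hz0 : 0 ≤ z) (hz1 : z < 1) (hω0 : 0 < ω) (hω1 : ω < 1) :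
    (z * √(ω * (1 - (1 - ω) * z)) / (1 - (1 - ω) * z)) ^ 2 = z ^ 2 * ω / (1 - (1 - ω) * z) := by
  have hD := D_pos hz0 hz1 hω0 hω1
  rw [div_pow, mul_pow, sq_sqrt (by positivity)]
  field_simp

/-- `1 - y² = (1 - z) (1 + ω z) / D` -/
theorem one_sub_y_sq {ω z : ℝ} (hz0 : 0 ≤ z) (hz1 : z < 1) (hω0 : 0 < ω) (hω1 : ω < 1) :
    1 - (z * √(ω * (1 - (1 - ω) * z)) / (1 - (1 - ω) * z)) ^ 2
      = (1 - z) * (1 + ω * z) / (1 - (1 - ω) * z) := by
  have hD := D_pos hz0 hz1 hω0 hω1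
  rw [y_sq hz0 hz1 hω0 hω1, eq_div_iff hD.ne', sub_mul, div_mul_cancel₀ _ hD.ne']
  ring

theorem y_nonneg {ω z : ℝ} (hz0 : 0 ≤ z) (hz1 : z < 1) (hω0 : 0 < ω) (hω1 : ω < 1) :
    0 ≤ z * √(ω * (1 - (1 - ω) * z)) / (1 - (1 - ω) * z) := by
  have hD := D_pos hz0 hz1 hω0 hω1
  positivity

theorem y_lt_one {ω z : ℝ} (hz0 : 0 ≤ z) (hz1 : z < 1) (hω0 : 0 < ω) (hω1 : ω < 1) :
    z * √(ω * (1 - (1 - ω) * z)) / (1 - (1 - ω) * z) < 1 := by
  have hD := D_pos hz0 hz1 hω0 hω1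
  have h := one_sub_y_sq hz0 hz1 hω0 hω1
  have h1 : 0 < (1 - z) * (1 + ω * z) / (1 - (1 - ω) * z) := by
    have : 0 < 1 - z := by linarith
    positivity
  have h2 := y_nonneg hz0 hz1 hω0 hω1
  nlinarith

/-- **The key identity** `dP/dz = ω (1 - ω) ath(y) / m`. -/
theorem hasDerivAt_PP {ω z : ℝ} (hz0 : 0 ≤ z) (hz1 : z < 1) (hω0 : 0 < ω) (hω1 : ω < 1) :
    HasDerivAt (PP ω)
      (ω * (1 - ω) * ath (z * √(ω * (1 - (1 - ω) * z)) / (1 - (1 - ω) * z)) /
        √(ω * (1 - (1 - ω) * z))) z := by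
  have hD := D_pos hz0 hz1 hω0 hω1
  have hm : 0 < √(ω * (1 - (1 - ω) * z)) := sqrt_pos.2 (by positivity)
  have hm2 : √(ω * (1 - (1 - ω) * z)) ^ 2 = ω * (1 - (1 - ω) * z) := sq_sqrt (by positivity)
  have hy0 := y_nonneg hz0 hz1 hω0 hω1
  have hy1 := y_lt_one hz0 hz1 hω0 hω1
  have hy2 := one_sub_y_sq hz0 hz1 hω0 hω1
  have h1 : HasDerivAt (fun t : ℝ => 1 - t) (-1) z := by
    simpa using (hasDerivAt_id z).const_sub 1
  have h2 : HasDerivAt (fun t : ℝ => 1 + ω * t) ω z := by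
    simpa using ((hasDerivAt_id z).const_mul ω).const_add 1
  have h3 : HasDerivAt (fun t : ℝ => 1 - (1 - ω) * t) (-(1 - ω)) z := by
    simpa using ((hasDerivAt_id z).const_mul (1 - ω)).const_sub 1
  have h4 : HasDerivAt (fun t : ℝ => √(ω * (1 - (1 - ω) * t)))
      ((ω * (-(1 - ω))) / (2 * √(ω * (1 - (1 - ω) * z)))) z :=
    (h3.const_mul ω).sqrt (by positivity)
  have h5 := ((hasDerivAt_id z).mul h4).div h3 hD.ne'
  have h6 := (hasDerivAt_ath' (by linarith) hy1).comp z h5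
  have h7 := ((((h1.log (by linarith)).neg).const_mul ω).add (h2.log (by nlinarith))).sub
    ((h4.const_mul 2).mul h6)
  refine (h7.congr_deriv ?_)
  simp only [id, Function.comp, Pi.mul_apply]
  rw [hy2]
  set m := √(ω * (1 - (1 - ω) * z)) with hmdef
  set D := 1 - (1 - ω) * z with hDdef
  have hDz : D = 1 - (1 - ω) * z := hDdef
  have hz1' : 1 - z ≠ 0 := by linarith
  have hz2 : 1 + ω * z ≠ 0 := by positivity
  have hDne : D ≠ 0 := hD.ne'
  have hmne : m ≠ 0 := hm.ne'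
  set A := ath (z * m / D) with hA
  have e1 : ω * -(-1 / (1 - z)) + ω / (1 + ω * z) = ω * (1 + D) / ((1 - z) * (1 + ω * z)) := by
    rw [hDz]; field_simp; ring
  have e2 : 2 * m * (1 / ((1 - z) * (1 + ω * z) / D) *
      (((1 * m + z * (ω * -(1 - ω) / (2 * m))) * D - z * m * -(1 - ω)) / D ^ 2))
      = ω * (1 + D) / ((1 - z) * (1 + ω * z)) := by
    have e3 : 2 * m * ((1 * m + z * (ω * -(1 - ω) / (2 * m))) * D - z * m * -(1 - ω))
        = ω * D * (1 + D) := by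
      have e4 : 2 * m * ((1 * m + z * (ω * -(1 - ω) / (2 * m))) * D - z * m * -(1 - ω))
        = 2 * m ^ 2 * D - z * ω * (1 - ω) * D + 2 * z * m ^ 2 * (1 - ω) := by
        field_simp; ring
      rw [e4, hm2]
      rw [hDz]; ring
    have e5 : 2 * m * (1 / ((1 - z) * (1 + ω * z) / D) *
      (((1 * m + z * (ω * -(1 - ω) / (2 * m))) * D - z * m * -(1 - ω)) / D ^ 2))
      = (2 * m * ((1 * m + z * (ω * -(1 - ω) / (2 * m))) * D - z * m * -(1 - ω))) /
        (D * ((1 - z) * (1 + ω * z))) := by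
      field_simp
    rw [e5, e3]
    field_simp
  rw [e1, e2]
  have e6 : ath (((id * (fun t : ℝ => √(ω * (1 - (1 - ω) * t))) : ℝ → ℝ) /
      (fun t : ℝ => 1 - (1 - ω) * t) : ℝ → ℝ) z) = A := by
    rw [hA]; rfl
  rw [e6]
  field_simp
  ring

theorem PP_zero (ω : ℝ) : PP ω 0 = 0 := by
  simp [PP, ath]

/-- odd Taylor polynomial: `y + y³/3 + y⁵/5 + y⁷/7 ≤ ath y` -/
theorem le_ath {y : ℝ} (h0 : 0 ≤ y) (h1 : y < 1) :
    y + y ^ 3 / 3 + y ^ 5 / 5 + y ^ 7 / 7 ≤ ath y := by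
  have hmono : MonotoneOn (fun t : ℝ => ath t - (t + t ^ 3 / 3 + t ^ 5 / 5 + t ^ 7 / 7))
      (Ico 0 1) := by
    have hd : ∀ t ∈ Ico (0 : ℝ) 1, HasDerivAt
        (fun t : ℝ => ath t - (t + t ^ 3 / 3 + t ^ 5 / 5 + t ^ 7 / 7))
        (1 / (1 - t ^ 2) - (1 + t ^ 2 + t ^ 4 + t ^ 6)) t := by
      intro t ht
      have h2 := hasDerivAt_ath' (y := t) (by linarith [ht.1]) ht.2
      have h3 : HasDerivAt (fun t : ℝ => t + t ^ 3 / 3 + t ^ 5 / 5 + t ^ 7 / 7)
          (1 + t ^ 2 + t ^ 4 + t ^ 6) t := by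
        have := (((hasDerivAt_id t).add ((hasDerivAt_pow 3 t).div_const 3)).add
          ((hasDerivAt_pow 5 t).div_const 5)).add ((hasDerivAt_pow 7 t).div_const 7)
        refine (this.congr_deriv ?_)
        norm_num
      exact h2.sub h3
    refine monotoneOn_of_deriv_nonneg (convex_Ico 0 1)
      (fun t ht => (hd t ht).continuousAt.continuousWithinAt)
      (fun t ht => (hd t (interior_subset ht)).differentiableAt.differentiableWithinAt) ?_
    intro t ht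
    rw [(hd t (interior_subset ht)).deriv]
    have ht' := interior_subset ht
    have h4 : 0 < 1 - t ^ 2 := by nlinarith [ht'.1, ht'.2]
    rw [sub_nonneg, le_div_iff₀ h4]
    have : (1 + t ^ 2 + t ^ 4 + t ^ 6) * (1 - t ^ 2) = 1 - t ^ 8 := by ring
    rw [this]
    have : 0 ≤ t ^ 8 := by positivity
    linarith
  have h5 := hmono (show (0 : ℝ) ∈ Ico (0 : ℝ) 1 by simp) (show y ∈ Ico (0 : ℝ) 1 from ⟨h0, h1⟩) h0
  simp only [ath] at h5 ⊢
  norm_num at h5 ⊢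
  linarith

theorem ath_nonneg {y : ℝ} (h0 : 0 ≤ y) (h1 : y < 1) : 0 ≤ ath y := by
  have := le_ath h0 h1
  have h2 : 0 ≤ y ^ 3 := by positivity
  have h3 : 0 ≤ y ^ 5 := by positivity
  have h4 : 0 ≤ y ^ 7 := by positivity
  linarith

/-- `ath(u)/u` is nondecreasing on `(0,1)`. -/
theorem ath_div_mono {u v : ℝ} (hu : 0 < u) (huv : u ≤ v) (hv : v < 1) :
    ath u / u ≤ ath v / v := by
  have hmono : MonotoneOn (fun t : ℝ => ath t / t) (Ioo 0 1) := by
    have hd : ∀ t ∈ Ioo (0 : ℝ) 1, HasDerivAt (fun t : ℝ => ath t / t)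
        ((1 / (1 - t ^ 2) * t - ath t * 1) / t ^ 2) t := by
      intro t ht
      have h2 := hasDerivAt_ath' (y := t) (by linarith [ht.1]) ht.2
      exact h2.div (hasDerivAt_id t) ht.1.ne'
    refine monotoneOn_of_deriv_nonneg (convex_Ioo 0 1)
      (fun t ht => (hd t ht).continuousAt.continuousWithinAt)
      (fun t ht => (hd t (interior_subset ht)).differentiableAt.differentiableWithinAt) ?_
    intro t ht
    rw [(hd t (interior_subset ht)).deriv]
    have ht' := interior_subset ht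
    refine div_nonneg ?_ (sq_nonneg _)
    -- `ath t ≤ t / (1 - t²)`
    have hmono2 : MonotoneOn (fun r : ℝ => r / (1 - r ^ 2) - ath r) (Ico 0 1) := by
      have hd2 : ∀ r ∈ Ico (0 : ℝ) 1, HasDerivAt (fun r : ℝ => r / (1 - r ^ 2) - ath r)
          ((1 * (1 - r ^ 2) - r * (-(2 * r))) / (1 - r ^ 2) ^ 2 - 1 / (1 - r ^ 2)) r := by
        intro r hr
        have h4 : 0 < 1 - r ^ 2 := by nlinarith [hr.1, hr.2]
        have h2 := hasDerivAt_ath' (y := r) (by linarith [hr.1]) hr.2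
        have h3 : HasDerivAt (fun r : ℝ => 1 - r ^ 2) (-(2 * r)) r := by
          simpa using (hasDerivAt_pow 2 r).const_sub 1
        exact ((hasDerivAt_id r).div h3 h4.ne').sub h2
      refine monotoneOn_of_deriv_nonneg (convex_Ico 0 1)
        (fun r hr => (hd2 r hr).continuousAt.continuousWithinAt)
        (fun r hr => (hd2 r (interior_subset hr)).differentiableAt.differentiableWithinAt) ?_
      intro r hr
      rw [(hd2 r (interior_subset hr)).deriv]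
      have hr' := interior_subset hr
      have h4 : 0 < 1 - r ^ 2 := by nlinarith [hr'.1, hr'.2]
      rw [sub_nonneg, div_le_div_iff₀ h4 (by positivity)]
      have : 0 ≤ r ^ 2 * (1 - r ^ 2) := by positivity
      nlinarith
    have h5 := hmono2 (show (0 : ℝ) ∈ Ico (0 : ℝ) 1 by simp)
      (show t ∈ Ico (0 : ℝ) 1 from ⟨ht'.1.le, ht'.2⟩) ht'.1.le
    have h6 : ath 0 = 0 := by simp [ath]
    simp only [h6] at h5
    have h7 : 1 / (1 - t ^ 2) * t = t / (1 - t ^ 2) := by ring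
    rw [h7]
    norm_num at h5
    linarith
  exact hmono ⟨hu, lt_of_le_of_lt huv hv⟩ ⟨lt_of_lt_of_le hu huv, hv⟩ huv

/-- `P ≥ 0`. -/
theorem PP_nonneg {ω z : ℝ} (hz0 : 0 ≤ z) (hz1 : z < 1) (hω0 : 0 < ω) (hω1 : ω < 1) :
    0 ≤ PP ω z := by
  have hmono : MonotoneOn (PP ω) (Ico 0 1) := by
    refine monotoneOn_of_deriv_nonneg (convex_Ico 0 1)
      (fun t ht => (hasDerivAt_PP ht.1 ht.2 hω0 hω1).continuousAt.continuousWithinAt)
      (fun t ht => (hasDerivAt_PP (interior_subset ht).1 (interior_subset ht).2 hω0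
        hω1).differentiableAt.differentiableWithinAt) ?_
    intro t ht
    have ht' := interior_subset ht
    rw [(hasDerivAt_PP ht'.1 ht'.2 hω0 hω1).deriv]
    have h1 := ath_nonneg (y_nonneg ht'.1 ht'.2 hω0 hω1) (y_lt_one ht'.1 ht'.2 hω0 hω1)
    have h2 : 0 ≤ 1 - ω := by linarith
    positivity
  have h5 := hmono (show (0 : ℝ) ∈ Ico (0 : ℝ) 1 by simp) (show z ∈ Ico (0 : ℝ) 1 from ⟨hz0, hz1⟩)
    hz0
  rwa [PP_zero] at h5

end BEC
end Vale.Agent.P322
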