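import Vale.Agent.P322.BEDefs
import Vale.Agent.P322.Bern
import Vale.Agent.P322.BdElemD

/-!
# (S3a): the value inequality at `o = .355 e` without the `low` term
-/

open Real Set Filter Topology

namespace Vale.Agent.P322
namespace BE
namespace Val0

/-- `β = Bq / o` -/
noncomputable def be (z o : ℝ) : ℝ := ((6 * z - 1) - o * z * (2 - z) - o ^ 2 * z ^ 2) / 5

/-- cleared main expression -/
noncomputable def EX (c R e : ℝ) : ℝ :=
  (e + 71 / 200 * (1 - e ^ 2)) ^ 2 * (e * (1 + 71 / 200 * (1 - e ^ 2) * e)) *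
    (2 * (c + 1 - R * e) *
      (1 - (1 - 71 / 200 * e) * be (1 - e ^ 2) (71 / 200 * e) / 2)
      - (1 - e ^ 2) - 71 / 200 * e * (1 - e ^ 2) ^ 2 / 2
      - 6407 / 20000 * ((1 - 71 / 200 * e) * (71 / 200 * e) *
        be (1 - e ^ 2) (71 / 200 * e) ^ 2))
  - 2 * (1 - e ^ 2) * (71 / 600 * (1 - e ^ 2) ^ 2 *
      ((e + 71 / 200 * (1 - e ^ 2)) * (e * (1 + 71 / 200 * (1 - e ^ 2) * e)))
    + (71 / 200) ^ 2 / 5 * (1 - e ^ 2) ^ 4 * (e * (1 + 71 / 200 * (1 - e ^ 2) * e))
    + (71 / 200) ^ 3 / 7 * (1 - e ^ 2) ^ 6)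


theorem slab1 {e : ℝ} (h1 : 173 / 1000 ≤ e) (h2 : e < 360 / 1000) :
    0 ≤ EX (5/4) (4363/1250) e := by
  have h := Bern.nonneg_of_check (m := 23) (A := 173) (B := 360) (D := 1000) (A' := 0) (B' := 1)
    (D' := 1) (p := [[-68718912000000000000000000, 124210240000000000000000000, 2111310979332800000000000000,
      -487033078333737600000000000, -8578664755596315363200000000,
      -4076226850321212019552000000, -25560646411815450541230800000,
      20126663879317516365578106800, 1124409374949551091772453957, 8519605545476522056832626200,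
      -10086020633123008785173017699, 2920161965597790773440000000,
      -705023905902561326481946903, 703885329151469274076869000, -366333034775165728674888495,
      114409072811385212318262000, -34138311004827679331711505, 5498059575503642010364200,
      -652057001598245099933097, 892289189993771890504800, -446307005197257418382301,
      86884200368523405267000, -6168778226165161773957]])
    (by decide +kernel) (z := e) (w := 0) (by push_cast; linarith) (by push_cast; linarith)
    (by simp) (by simp)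
  simp only [Bern.ev2, Bern.ev1] at h
  push_cast at h
  simp only [EX, be]
  linear_combination (1 / 5376000000000000000000000000) * h


theorem slab2 {e : ℝ} (h1 : 360 / 1000 ≤ e) (h2 : e < 500 / 1000) :
    0 ≤ EX (3/4) (21171/10000) e := by
  have h := Bern.nonneg_of_check (m := 23) (A := 360) (B := 500) (D := 1000) (A' := 0) (B' := 1)
    (D' := 1) (p := [[-68718912000000000000000000, -214544960000000000000000000, 868688200452800000000000000,
      1522711371012182400000000000, 177215731703118236800000000, 989259232047357292448000000,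
      -19607802567051433657470800000, 9880948732563394365578106800, -29883801378642127027546043,
      7044323538880276936832626200, -6184466597043332747573017699, 1686489586689565013440000000,
      -626255325656102964081946903, 518673390654777594076869000, -228277725971023709874888495,
      80032095052180460318262000, -31182852990361363091711505, 5498059575503642010364200,
      -652057001598245099933097, 892289189993771890504800, -446307005197257418382301,
      86884200368523405267000, -6168778226165161773957]])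
    (by decide +kernel) (z := e) (w := 0) (by push_cast; linarith) (by push_cast; linarith)
    (by simp) (by simp)
  simp only [Bern.ev2, Bern.ev1] at h
  push_cast at h
  simp only [EX, be]
  linear_combination (1 / 5376000000000000000000000000) * h


theorem slab3 {e : ℝ} (h1 : 500 / 1000 ≤ e) (h2 : e < 709 / 1000) :
    0 ≤ EX (1/2) (2061/1250) e := by
  have h := Bern.nonneg_of_check (m := 23) (A := 500) (B := 709) (D := 1000) (A' := 0) (B' := 1)
    (D' := 1) (p := [[-68718912000000000000000000, -383922560000000000000000000, 99442415172800000000000000,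
      1578613616534102400000000000, 2826370431645951836800000000, 2597412907689979204448000000,
      -16958760023895801889710800000, 6458517863211613365578106800,
      -410942208854429765827546043, 6341178502558141816832626200, -4783198608387827869973017699,
      1264180544684437253440000000, -591327500218713441681946903, 448225534493932914076869000,
      -179272651704327271074888495, 68138340927527108318262000, -30175031692629930851711505,
      5498059575503642010364200, -652057001598245099933097, 892289189993771890504800,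
      -446307005197257418382301, 86884200368523405267000, -6168778226165161773957]])
    (by decide +kernel) (z := e) (w := 0) (by push_cast; linarith) (by push_cast; linarith)
    (by simp) (by simp)
  simp only [Bern.ev2, Bern.ev1] at h
  push_cast at h
  simp only [EX, be]
  linear_combination (1 / 5376000000000000000000000000) * h


/-- upper Taylor bound for `ath` -/
theorem ath_le {y : ℝ} (h0 : 0 ≤ y) (h1 : y < 1) :
    ath y ≤ y + y ^ 3 / 3 + y ^ 5 / 5 + y ^ 7 / (7 * (1 - y ^ 2)) := by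
  have hd : ∀ t ∈ Ico (0 : ℝ) 1, HasDerivAt
      (fun t : ℝ => t + t ^ 3 / 3 + t ^ 5 / 5 + t ^ 7 / (7 * (1 - t ^ 2)) - ath t)
      (2 * t ^ 8 / (7 * (1 - t ^ 2) ^ 2)) t := by
    intro t ht
    have hne : 1 - t ^ 2 ≠ 0 := by nlinarith [ht.1, ht.2]
    have a1 := hasDerivAt_id t
    have a3 := (hasDerivAt_pow 3 t).div_const 3
    have a5 := (hasDerivAt_pow 5 t).div_const 5
    have a7 := (hasDerivAt_pow 7 t).div (((hasDerivAt_pow 2 t).const_sub 1).const_mul 7)
      (by simpa using hne)
    have a := (((a1.add a3).add a5).add a7).sub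
      (BEC.hasDerivAt_ath' (y := t) (by linarith [ht.1]) ht.2)
    refine (a.congr_deriv ?_).congr_of_eventuallyEq (Eventually.of_forall fun s => ?_)
    · push_cast
      field_simp
      ring
    · simp
  have hmono : MonotoneOn
      (fun t : ℝ => t + t ^ 3 / 3 + t ^ 5 / 5 + t ^ 7 / (7 * (1 - t ^ 2)) - ath t) (Ico 0 1) := by
    apply monotoneOn_of_deriv_nonneg (convex_Ico 0 1)
    · exact fun t ht => (hd t ht).continuousAt.continuousWithinAt
    · intro t ht
      rw [interior_Ico] at ht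
      exact (hd t ⟨ht.1.le, ht.2⟩).differentiableAt.differentiableWithinAt
    · intro t ht
      rw [interior_Ico] at ht
      rw [(hd t ⟨ht.1.le, ht.2⟩).deriv]
      positivity
  have h := hmono (show (0 : ℝ) ∈ Ico (0 : ℝ) 1 by simp) (show y ∈ Ico (0 : ℝ) 1 from ⟨h0, h1⟩) h0
  simp [ath] at h
  simp only [ath]
  linarith

theorem c0_le : c0 ≤ 6407 / 10000 := by
  have h1 := Real.log_two_lt_d9
  have h2 := Real.log_two_gt_d9
  unfold c0
  have h3 : log 2 ^ 2 ≤ 0.6931471808 ^ 2 := pow_le_pow_left₀ (by linarith) h1.le 2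
  norm_num at h3 ⊢
  linarith

/-- tangent line bound of the logarithm -/
theorem L_ge {e c R : ℝ} (he : 0 < e) (hR : exp c ≤ R) : 2 * (c + 1 - R * e) ≤ -2 * log e := by
  have h1 := Real.log_le_sub_one_of_pos (show 0 < exp c * e by positivity)
  rw [Real.log_mul (exp_pos c).ne' he.ne', Real.log_exp] at h1
  have h2 : exp c * e ≤ R * e := mul_le_mul_of_nonneg_right hR he.le
  linarith

theorem exp_bd {c R : ℝ} (n k : ℕ) (hn : n ≠ 0) (hR : 0 ≤ R) (hc : (n : ℝ) * c = k)
    (h : (2.7182818286 : ℝ) ^ k ≤ R ^ n) : exp c ≤ R := by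
  have h1 : exp c ^ n ≤ R ^ n := by
    rw [← Real.exp_nat_mul, hc, ← Real.exp_one_pow]
    exact (pow_le_pow_left₀ (exp_pos 1).le Real.exp_one_lt_d9.le k).trans h
  exact le_of_pow_le_pow_left₀ hn hR h1

theorem EX_eq {c R e z o d q β x : ℝ} (hz : z = 1 - e ^ 2) (ho : o = 71 / 200 * e)
    (hd : d = e + 71 / 200 * z) (hq : q = 1 + 71 / 200 * z * e) (hβ : β = be z o)
    (hx : x = 71 / 200 * z ^ 2 / d) (hx1 : 1 - x = e * q / d) (hd0 : 0 < d) (hq0 : 0 < q)
    (he0 : 0 < e) :
    EX c R e = d ^ 2 * (e * q) *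
        (2 * (c + 1 - R * e) * (1 - (1 - o) * β / 2) - z - o * z ^ 2 / 2
        - 6407 / 20000 * ((1 - o) * o * β ^ 2)
        - 2 * z * (x / 3 + x ^ 2 / 5 + x ^ 3 / (7 * (1 - x)))) := by
  have e2 : x ^ 3 / (7 * (1 - x)) = (71 / 200) ^ 3 / 7 * z ^ 6 / (d ^ 2 * (e * q)) := by
    rw [hx1, hx]
    field_simp
  rw [e2, hx]
  unfold EX
  rw [← hz, ← ho, ← hd, ← hq, ← hβ]
  clear hx1 e2 hβ hq hd ho hz hx
  field_simp
  ring

theorem pt {e c R : ℝ} (he0 : 0 < e) (he1 : e < 1) (hR : exp c ≤ R) (hE : 0 ≤ EX c R e) :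
    QB (1 - e ^ 2) (-2 * log e) 0 0 (71 / 200 * e) ≤ PP (1 - e ^ 2) (71 / 200 * e) := by
  have hL := L_ge he0 hR
  have hc := c0_le
  have hz0 : 0 < 1 - e ^ 2 := by nlinarith
  have hz1 : 1 - e ^ 2 < 1 := by nlinarith [sq_pos_of_pos he0]
  have hlog : log (1 - (1 - e ^ 2)) = 2 * log e := by
    rw [show 1 - (1 - e ^ 2) = e ^ 2 by ring, Real.log_pow]; push_cast; ring
  obtain ⟨z, hz⟩ : ∃ z : ℝ, z = 1 - e ^ 2 := ⟨_, rfl⟩
  obtain ⟨o, ho⟩ : ∃ o : ℝ, o = 71 / 200 * e := ⟨_, rfl⟩
  obtain ⟨L, hLL⟩ : ∃ L : ℝ, L = -2 * log e := ⟨_, rfl⟩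
  obtain ⟨d, hd⟩ : ∃ d : ℝ, d = e + 71 / 200 * z := ⟨_, rfl⟩
  obtain ⟨q, hq⟩ : ∃ q : ℝ, q = 1 + 71 / 200 * z * e := ⟨_, rfl⟩
  have ho0 : 0 < o := by rw [ho]; positivity
  have ho1 : o < 1 := by rw [ho]; linarith
  rw [← hz] at hz0 hz1 hlog
  have hd0 : 0 < d := by rw [hd]; positivity
  have hq0 : 0 < q := by rw [hq]; positivity
  have hu : 1 - (1 - o) * z = e * d := by rw [hd, ho, hz]; ring
  -- the argument of `ath`
  obtain ⟨m, hm⟩ : ∃ m : ℝ, m = √(o * (e * d)) := ⟨_, rfl⟩
  have hm2 : m ^ 2 = o * (e * d) := by rw [hm]; exact Real.sq_sqrt (by positivity)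
  have hm0 : 0 < m := by rw [hm]; positivity
  obtain ⟨r, hr⟩ : ∃ r : ℝ, r = z * m / (e * d) := ⟨_, rfl⟩
  have hr0 : 0 < r := by rw [hr]; positivity
  obtain ⟨x, hx⟩ : ∃ x : ℝ, x = 71 / 200 * z ^ 2 / d := ⟨_, rfl⟩
  have hx0 : 0 < x := by rw [hx]; positivity
  have hr2 : r ^ 2 = x := by
    rw [hr, hx, div_pow, mul_pow, hm2, ho]
    field_simp
  have hx1 : 1 - x = e * q / d := by
    rw [hx, hq, eq_div_iff hd0.ne', sub_mul, div_mul_cancel₀ _ hd0.ne', hd, hz]; ring
  have hx2 : 0 < 1 - x := by rw [hx1]; positivity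
  have hr1 : r < 1 := by
    by_contra h
    have h1 := one_le_pow₀ (not_lt.1 h) (n := 2)
    linarith
  have hath := ath_le hr0.le hr1
  have hA : 2 * m * ath r ≤ 2 * z * o * (1 + x / 3 + x ^ 2 / 5 + x ^ 3 / (7 * (1 - x))) := by
    have e1 : r + r ^ 3 / 3 + r ^ 5 / 5 + r ^ 7 / (7 * (1 - r ^ 2)) =
        r * (1 + x / 3 + x ^ 2 / 5 + x ^ 3 / (7 * (1 - x))) := by
      rw [← hr2]; ring
    have e2 : m * r = z * o := by
      rw [hr, mul_div_assoc', div_eq_iff (by positivity)]
      linear_combination z * hm2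
    rw [e1] at hath
    have h1 := mul_le_mul_of_nonneg_left hath (show 0 ≤ 2 * m by positivity)
    refine h1.trans (le_of_eq ?_)
    linear_combination 2 * (1 + x / 3 + x ^ 2 / 5 + x ^ 3 / (7 * (1 - x))) * e2
  have hlg : o * z - o ^ 2 * z ^ 2 / 2 ≤ log (1 + o * z) := by
    have h1 := Real.le_log_one_add_of_nonneg (show 0 ≤ o * z by positivity)
    refine le_trans ?_ h1
    rw [le_div_iff₀ (by positivity)]
    have h2 : 0 < (o * z) ^ 3 := by positivity
    have h3 : (o * z - o ^ 2 * z ^ 2 / 2) * (o * z + 2) = 2 * (o * z) - (o * z) ^ 3 / 2 := by ring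
    linarith
  have hPP : PP z o = o * L + log (1 + o * z) - 2 * m * ath r := by
    unfold PP
    rw [hu, ← hm, ← hr, hlog, hLL]; ring
  -- coefficients
  obtain ⟨β, hβ⟩ : ∃ β : ℝ, β = be z o := ⟨_, rfl⟩
  have hBq : Bq z o = o * β := by rw [hβ]; unfold Bq be; ring
  have hβ1 : β ≤ 1 := by
    rw [hβ]; unfold be
    have h1 : 0 ≤ o * z * (2 - z) := by
      have : 0 < 2 - z := by linarith
      positivity
    have h2 : 0 ≤ o ^ 2 * z ^ 2 := by positivity
    linarith
  have hco : 0 ≤ 1 - (1 - o) * β / 2 := by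
    have h1 : (1 - o) * β ≤ (1 - o) * 1 := mul_le_mul_of_nonneg_left hβ1 (by linarith)
    linarith
  -- the main inequality divided by `o`
  have hmain : 0 ≤ 2 * (c + 1 - R * e) * (1 - (1 - o) * β / 2) - z - o * z ^ 2 / 2
      - 6407 / 20000 * ((1 - o) * o * β ^ 2)
      - 2 * z * (x / 3 + x ^ 2 / 5 + x ^ 3 / (7 * (1 - x))) := by
    have hD : 0 < d ^ 2 * (e * q) := by positivity
    rw [EX_eq hz ho hd hq hβ hx hx1 hd0 hq0 he0] at hE
    exact nonneg_of_mul_nonneg_right hE hD
  have hw : 0 < 1 - o := by linarith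
  have hQB : QB z L 0 0 o = (1 - o) * (L / 2 * (o * β) + c0 / 2 * (o * β) ^ 2) := by
    unfold QB; rw [hBq]; ring
  rw [← hz, ← ho, ← hLL, hPP, hQB]
  have f1 : 2 * (c + 1 - R * e) * (1 - (1 - o) * β / 2) ≤ L * (1 - (1 - o) * β / 2) :=
    mul_le_mul_of_nonneg_right (by rw [hLL]; exact hL) hco
  have f2 : c0 / 2 * ((1 - o) * o * β ^ 2) ≤ 6407 / 20000 * ((1 - o) * o * β ^ 2) :=
    mul_le_mul_of_nonneg_right (by linarith) (by positivity)
  have f3 : 0 ≤ o * (L * (1 - (1 - o) * β / 2) - z - o * z ^ 2 / 2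
      - c0 / 2 * ((1 - o) * o * β ^ 2)
      - 2 * z * (x / 3 + x ^ 2 / 5 + x ^ 3 / (7 * (1 - x)))) :=
    mul_nonneg ho0.le (by linarith)
  have f4 : 2 * m * ath r ≤ 2 * z * o * (1 + (x / 3 + x ^ 2 / 5 + x ^ 3 / (7 * (1 - x)))) :=
    hA.trans (le_of_eq (by ring))
  generalize x / 3 + x ^ 2 / 5 + x ^ 3 / (7 * (1 - x)) = X at *
  have f5 : o * (L * (1 - (1 - o) * β / 2) - z - o * z ^ 2 / 2
      - c0 / 2 * ((1 - o) * o * β ^ 2) - 2 * z * X) =
      o * L + (o * z - o ^ 2 * z ^ 2 / 2) - 2 * z * o * (1 + X) -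
        (1 - o) * (L / 2 * (o * β) + c0 / 2 * (o * β) ^ 2) := by ring
  rw [f5] at f3
  linarith

end Val0

open Val0 in
theorem val_zero {e : ℝ} (he : e ∈ Icc (173 / 1000 : ℝ) (708 / 1000)) :
    QB (1 - e ^ 2) (-2 * log e) 0 0 (355 / 1000 * e) ≤ PP (1 - e ^ 2) (355 / 1000 * e) := by
  obtain ⟨h1, h2⟩ := he
  have he0 : 0 < e := by linarith
  have he1 : e < 1 := by linarith
  rw [show (355 / 1000 : ℝ) = 71 / 200 by norm_num]
  rcases lt_or_ge e (360 / 1000) with h | h
  · exact pt he0 he1 (exp_bd 4 5 (by norm_num) (by norm_num) (by norm_num) (by norm_num))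
      (slab1 h1 h)
  rcases lt_or_ge e (500 / 1000) with h' | h'
  · exact pt he0 he1 (exp_bd 4 3 (by norm_num) (by norm_num) (by norm_num) (by norm_num))
      (slab2 h h')
  · exact pt he0 he1 (exp_bd 2 1 (by norm_num) (by norm_num) (by norm_num) (by norm_num))
      (slab3 h' (by linarith))

end BE
end Vale.Agent.P322
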