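import Vale.Agent.P322.Ode

/-! Elementary bounds on `Phi`. -/

namespace Vale.Agent.P322

open Real Set

namespace EntAux

theorem continuous_Phi : Continuous Phi := by
  unfold Phi
  have h1 : Continuous fun t : ℝ => (1 + t) * log (1 + t) :=
    Real.continuous_mul_log.comp (continuous_const.add continuous_id)
  have h2 : Continuous fun t : ℝ => (1 - t) * log (1 - t) :=
    Real.continuous_mul_log.comp (continuous_const.sub continuous_id)
  exact (h1.add h2).div_const 2

theorem Phi_neg (t : ℝ) : Phi (-t) = Phi t := by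
  unfold Phi
  rw [sub_neg_eq_add, ← sub_eq_add_neg]
  ring

theorem Phi_zero : Phi 0 = 0 := by unfold Phi; simp

theorem hasDerivAt_ath {t : ℝ} (h : t ∈ Ioo (-1 : ℝ) 1) :
    HasDerivAt ath (1 / (1 - t ^ 2)) t := by
  have h1 : HasDerivAt (fun t : ℝ => 1 + t) 1 t := by
    simpa using (hasDerivAt_id t).const_add 1
  have h2 : HasDerivAt (fun t : ℝ => 1 - t) (-1) t := by
    simpa using (hasDerivAt_id t).const_sub 1
  have e1 : 0 < 1 + t := by linarith [h.1]
  have e2 : 0 < 1 - t := by linarith [h.2]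
  have h3 := ((h1.log e1.ne').sub (h2.log e2.ne')).div_const 2
  have h4 : HasDerivAt ath ((1 / (1 + t) - -1 / (1 - t)) / 2) t := h3
  refine h4.congr_deriv ?_
  have e3 : (1 - t ^ 2) ≠ 0 := by
    have : 0 < (1 + t) * (1 - t) := mul_pos e1 e2
    nlinarith
  field_simp
  ring

theorem ath_zero : ath 0 = 0 := by unfold ath; simp

theorem one_sub_sq_pos {t : ℝ} (h : t ∈ Ioo (-1 : ℝ) 1) : 0 < 1 - t ^ 2 := by
  have := mul_pos (by linarith [h.1] : (0 : ℝ) < 1 + t) (by linarith [h.2] : (0 : ℝ) < 1 - t)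
  nlinarith

/-- derivative of `t/(1-t²) - ath t` is `2t²/(1-t²)²` -/
theorem hasDerivAt_aux {s : ℝ} (hs : s ∈ Ioo (-1 : ℝ) 1) :
    HasDerivAt (fun s : ℝ => s / (1 - s ^ 2) - ath s) (2 * s ^ 2 / (1 - s ^ 2) ^ 2) s := by
  have e' := one_sub_sq_pos hs
  have hd : HasDerivAt (fun s : ℝ => 1 - s ^ 2) (-(2 * s)) s := by
    have := (hasDerivAt_pow 2 s).const_sub 1
    refine this.congr_deriv ?_
    simp
  have h := ((hasDerivAt_id s).div hd e'.ne').sub (hasDerivAt_ath hs)
  have h' : HasDerivAt (fun s : ℝ => s / (1 - s ^ 2) - ath s)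
      ((1 * (1 - s ^ 2) - s * -(2 * s)) / (1 - s ^ 2) ^ 2 - 1 / (1 - s ^ 2)) s := h
  refine h'.congr_deriv ?_
  field_simp
  ring

/-- `ath t ≤ t/(1-t²)` for `t ≥ 0` -/
theorem ath_le {t : ℝ} (h0 : 0 ≤ t) (h1 : t < 1) : ath t ≤ t / (1 - t ^ 2) := by
  have hmem : ∀ s ∈ Icc 0 t, s ∈ Ioo (-1 : ℝ) 1 := fun s hs =>
    ⟨by linarith [hs.1], by linarith [hs.2]⟩
  have hmono : MonotoneOn (fun s : ℝ => s / (1 - s ^ 2) - ath s) (Icc 0 t) := by
    apply monotoneOn_of_deriv_nonneg (convex_Icc _ _)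
    · exact fun s hs => (hasDerivAt_aux (hmem s hs)).continuousAt.continuousWithinAt
    · exact fun s hs => (hasDerivAt_aux
        (hmem s (interior_subset hs))).differentiableAt.differentiableWithinAt
    · intro s hs
      rw [(hasDerivAt_aux (hmem s (interior_subset hs))).deriv]
      positivity
  have := hmono (left_mem_Icc.2 h0) (right_mem_Icc.2 h0) h0
  simp only [ath_zero] at this
  have h3 : (0 : ℝ) / (1 - 0 ^ 2) - 0 = 0 := by norm_num
  linarith

/-- derivative of `t ath t - 2Φ(t)` -/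
theorem hasDerivAt_k {s : ℝ} (hs : s ∈ Ioo (-1 : ℝ) 1) :
    HasDerivAt (fun s : ℝ => s * ath s - 2 * Phi s) (s / (1 - s ^ 2) - ath s) s := by
  have h := ((hasDerivAt_id s).mul (hasDerivAt_ath hs)).sub
    ((NoiseAux.hasDerivAt_Phi hs).const_mul 2)
  have h' : HasDerivAt (fun s : ℝ => s * ath s - 2 * Phi s)
      (1 * ath s + s * (1 / (1 - s ^ 2)) - 2 * ath s) s := h
  refine h'.congr_deriv ?_
  ring

theorem k_nonneg {t : ℝ} (h0 : 0 ≤ t) (h1 : t < 1) : 0 ≤ t * ath t - 2 * Phi t := by
  have hmem : ∀ s ∈ Icc 0 t, s ∈ Ioo (-1 : ℝ) 1 := fun s hs =>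
    ⟨by linarith [hs.1], by linarith [hs.2]⟩
  have hmono : MonotoneOn (fun s : ℝ => s * ath s - 2 * Phi s) (Icc 0 t) := by
    apply monotoneOn_of_deriv_nonneg (convex_Icc _ _)
    · exact fun s hs => (hasDerivAt_k (hmem s hs)).continuousAt.continuousWithinAt
    · exact fun s hs => (hasDerivAt_k
        (hmem s (interior_subset hs))).differentiableAt.differentiableWithinAt
    · intro s hs
      have hs' := interior_subset hs
      rw [(hasDerivAt_k (hmem s hs')).deriv]
      have := ath_le hs'.1 (by linarith [hs'.2])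
      linarith
  have := hmono (left_mem_Icc.2 h0) (right_mem_Icc.2 h0) h0
  simp only [ath_zero, Phi_zero] at this
  linarith

/-- `Φ(t) ≤ ln 2 · t²` -/
theorem Phi_le_sq_nonneg {t : ℝ} (h0 : 0 < t) (h1 : t ≤ 1) : Phi t ≤ log 2 * t ^ 2 := by
  -- `Φ(s)/s²` is nondecreasing on `[t, 1]`
  have hmono : MonotoneOn (fun s : ℝ => Phi s / s ^ 2) (Icc t 1) := by
    apply monotoneOn_of_deriv_nonneg (convex_Icc _ _)
    · intro s hs
      have hs0 : 0 < s := lt_of_lt_of_le h0 hs.1
      exact (continuous_Phi.continuousAt.div (continuous_pow 2).continuousAt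
        (by positivity)).continuousWithinAt
    · intro s hs
      rw [interior_Icc] at hs
      have hs0 : 0 < s := h0.trans hs.1
      exact ((NoiseAux.hasDerivAt_Phi ⟨by linarith, hs.2⟩).div (hasDerivAt_pow 2 s)
        (by positivity)).differentiableAt.differentiableWithinAt
    · intro s hs
      rw [interior_Icc] at hs
      have hs0 : 0 < s := h0.trans hs.1
      have h := (NoiseAux.hasDerivAt_Phi (t := s) ⟨by linarith, hs.2⟩).div (hasDerivAt_pow 2 s)
        (by positivity)
      have h' : HasDerivAt (fun s : ℝ => Phi s / s ^ 2)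
        ((ath s * s ^ 2 - Phi s * ((2 : ℕ) * s ^ (2 - 1))) / (s ^ 2) ^ 2) s := h
      rw [h'.deriv]
      have hk := k_nonneg hs0.le hs.2
      have : ath s * s ^ 2 - Phi s * ((2 : ℕ) * s ^ (2 - 1)) = s * (s * ath s - 2 * Phi s) := by
        push_cast
        ring
      rw [this]
      positivity
  have := hmono (left_mem_Icc.2 h1) (right_mem_Icc.2 h1) h1
  simp only [Ode.Phi_one, one_pow, div_one] at this
  rw [div_le_iff₀ (by positivity)] at this
  exact this

theorem Phi_le_sq {t : ℝ} (h : t ∈ Icc (-1 : ℝ) 1) : Phi t ≤ log 2 * t ^ 2 := by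
  rcases lt_trichotomy t 0 with h' | h' | h'
  · have := Phi_le_sq_nonneg (t := -t) (by linarith) (by linarith [h.1])
    rw [Phi_neg] at this
    simpa using this
  · subst h'; simp [Phi_zero]
  · exact Phi_le_sq_nonneg h' h.2

/-- `Φ(t) ≥ t²/2` -/
theorem half_sq_le_Phi_nonneg {t : ℝ} (h0 : 0 ≤ t) (h1 : t ≤ 1) : t ^ 2 / 2 ≤ Phi t := by
  have hmono : MonotoneOn (fun s : ℝ => Phi s - s ^ 2 / 2) (Icc 0 1) := by
    apply monotoneOn_of_deriv_nonneg (convex_Icc _ _)
    · exact (continuous_Phi.sub ((continuous_pow 2).div_const 2)).continuousOn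
    · intro s hs
      rw [interior_Icc] at hs
      exact ((NoiseAux.hasDerivAt_Phi ⟨by linarith [hs.1], hs.2⟩).sub
        ((hasDerivAt_pow 2 s).div_const 2)).differentiableAt.differentiableWithinAt
    · intro s hs
      rw [interior_Icc] at hs
      have h := (NoiseAux.hasDerivAt_Phi (t := s) ⟨by linarith [hs.1], hs.2⟩).sub
        ((hasDerivAt_pow 2 s).div_const 2)
      have h' : HasDerivAt (fun s : ℝ => Phi s - s ^ 2 / 2)
        (ath s - (2 : ℕ) * s ^ (2 - 1) / 2) s := h
      rw [h'.deriv]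
      -- `ath s ≥ s`
      have hath : s ≤ ath s := by
        have hm : MonotoneOn (fun r : ℝ => ath r - r) (Icc 0 s) := by
          apply monotoneOn_of_deriv_nonneg (convex_Icc _ _)
          · intro r hr
            exact ((hasDerivAt_ath ⟨by linarith [hr.1], by linarith [hr.2, hs.2]⟩).sub
              (hasDerivAt_id r)).continuousAt.continuousWithinAt
          · intro r hr
            rw [interior_Icc] at hr
            exact ((hasDerivAt_ath ⟨by linarith [hr.1], by linarith [hr.2, hs.2]⟩).sub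
              (hasDerivAt_id r)).differentiableAt.differentiableWithinAt
          · intro r hr
            rw [interior_Icc] at hr
            have hr' : r ∈ Ioo (-1 : ℝ) 1 := ⟨by linarith [hr.1], by linarith [hr.2, hs.2]⟩
            have h3 : HasDerivAt (fun r : ℝ => ath r - r) (1 / (1 - r ^ 2) - 1) r :=
              (hasDerivAt_ath hr').sub (hasDerivAt_id r)
            rw [h3.deriv]
            have := one_sub_sq_pos hr'
            rw [sub_nonneg, le_div_iff₀ this]
            nlinarith [sq_nonneg r]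
        have := hm (left_mem_Icc.2 hs.1.le) (right_mem_Icc.2 hs.1.le) hs.1.le
        simp only [ath_zero] at this
        linarith
      push_cast
      simp only [Nat.add_one_sub_one, pow_one]
      linarith
  have := hmono (left_mem_Icc.2 zero_le_one) ⟨h0, h1⟩ h0
  simp only [Phi_zero] at this
  linarith

theorem half_sq_le_Phi {t : ℝ} (h : t ∈ Icc (-1 : ℝ) 1) : t ^ 2 / 2 ≤ Phi t := by
  rcases le_total 0 t with h' | h'
  · exact half_sq_le_Phi_nonneg h' h.2
  · have := half_sq_le_Phi_nonneg (t := -t) (by linarith) (by linarith [h.1])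
    rw [Phi_neg] at this
    simpa using this

theorem Phi_le_log_two {t : ℝ} (h : t ∈ Icc (-1 : ℝ) 1) : Phi t ≤ log 2 := by
  have h1 := Phi_le_sq h
  have h2 : t ^ 2 ≤ 1 := by nlinarith [h.1, h.2]
  have h3 : 0 < log 2 := log_pos (by norm_num)
  nlinarith

end EntAux

theorem aa_log_two_le_ent {m : ℝ} (h : m ∈ Icc (-1 : ℝ) 1) : aa m * log 2 ≤ ent m := by
  have h1 := EntAux.Phi_le_sq h
  have h2 : m ^ 2 ≤ 1 := by nlinarith [h.1, h.2]
  have h3 : 0 < log 2 := log_pos (by norm_num)
  unfold ent aa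
  have h4 : 0 ≤ (1 - m ^ 2) * m ^ 2 * log 2 := by
    have : 0 ≤ 1 - m ^ 2 := by linarith
    positivity
  nlinarith

end Vale.Agent.P322
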