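import Vale.Agent.P322.BEDefs
import Vale.Agent.P322.Bern
import Vale.Agent.P322.EntA

/-! (S3b): the value inequality `val_s` for (BE), one variable `e`, ten slabs. -/

open Real Set Filter Topology

namespace Vale.Agent.P322
namespace BE
namespace Vals

open Bern

/-- coefficient of `L` -/
def CLl : List ℤ :=
  [0, 80738399460096000000000000000000, 774343621481230080000000000000000,
    2519396548987661683200000000000000, 2820510695838036243168000000000000,
    -430162882208680816268640000000000, -2562433528013844565248000000000000,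
    -2043134715260444849588160000000000, 1558454189673891978720000000000000,
    1073117760883644888770400000000000, -441279347169952085760000000000000,
    -366750301575809645827200000000000, 30308989981374709920000000000000,
    234173673032188997570400000000000, -149759958783266270208000000000000,
    41498785768380750411840000000000, -5629079007470090592000000000000,
    305932192962991731360000000000]

/-- constant part -/
def Rl : List ℤ :=
  [-8082947492480000000000000000000, -471631636838400000000000000000000,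
    -3386486577148774228800000000000000, -7527375887554428894710400000000000,
    -469349207472415351931452800000000, 11825373021612198748058493792000000,
    1767373736024302281991040746800000, -3809243423461457677082689413022800,
    -3779654990968497855957921510431547, 1700736907768209229084266180091200,
    1231351259118046197591919683572376, -545648375536021524362780520000000,
    -17565302353876983289189915163316, 1568903138674553649604979361600,
    109458337195268816788853423326632, -173072681589016009988472280404000,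
    50834748215352694269508319191710, 35403499577578581751022026084800,
    -11394346668792088697440278833368, -7403953742810360168637118723200,
    3849128420619992809983467796684, -718709088504280184036580456000,
    103560224132601900288575732376, -15765182278366046371064931600,
    932773284803324410288008453]

/-- coefficient of `g` -/
def Gl : List ℤ :=
  [0, 249944426726400000000000000000000, 2112206423040000000000000000000000,
    5168544721442605440000000000000000, 1007405267968512000000000000000000,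
    -6573713542666421760000000000000000, 360694450174464000000000000000000,
    577100799721232640000000000000000, 1751511972865536000000000000000000,
    -1373669574845621760000000000000000, 354921085951488000000000000000000,
    -31499246378194560000000000000000]

/-- product of polynomials -/
def mul1 : List ℤ → List ℤ → List ℤ
  | [], _ => []
  | a :: p, q => add1 (smul1 a q) (0 :: mul1 p q)

theorem ev1_mul (x : ℝ) (p q : List ℤ) : ev1 x (mul1 p q) = ev1 x p * ev1 x q := by
  induction p with
  | nil => simp [mul1, ev1]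
  | cons a p ih =>
    simp only [mul1, ev1_add, ev1_smul, ev1, ih]
    push_cast
    ring

/-- `1 / den` -/
noncomputable def dn : ℝ := 6451200000000000000000000000000000

theorem ident (e L g : ℝ) :
    ((71 / 200 * e) * L + ((71 / 200 * e) * (1 - e ^ 2) - ((71 / 200 * e) * (1 - e ^ 2)) ^ 2 / 2
        + ((71 / 200 * e) * (1 - e ^ 2)) ^ 3 / 3 - ((71 / 200 * e) * (1 - e ^ 2)) ^ 4 / 4))
        * ((e + 71 / 200 * (1 - e ^ 2)) ^ 3 * (1 + 71 / 200 * e * (1 - e ^ 2)))
      - 2 * (71 / 200) * (1 - e ^ 2) *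
        (e * (e + 71 / 200 * (1 - e ^ 2)) ^ 3 * (1 + 71 / 200 * e * (1 - e ^ 2))
          + (71 / 200 * (1 - e ^ 2) ^ 2) / 3 * e * (e + 71 / 200 * (1 - e ^ 2)) ^ 2
            * (1 + 71 / 200 * e * (1 - e ^ 2))
          + (71 / 200 * (1 - e ^ 2) ^ 2) ^ 2 / 5 * e * (e + 71 / 200 * (1 - e ^ 2))
            * (1 + 71 / 200 * e * (1 - e ^ 2))
          + (71 / 200 * (1 - e ^ 2) ^ 2) ^ 3 / 7 * e * (1 + 71 / 200 * e * (1 - e ^ 2))
          + (71 / 200 * (1 - e ^ 2) ^ 2) ^ 4 / 9)
      - (1 - 71 / 200 * e) * (L / 2 * Bq (1 - e ^ 2) (71 / 200 * e)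
          + (64061 / 100000) / 2 * Bq (1 - e ^ 2) (71 / 200 * e) ^ 2
          - (18 / 100 * L - 1 / 10) * bq (1 - e ^ 2) (71 / 200 * e)
          + (7422 / 10000 - 866 / 1000 * g) * e)
        * ((e + 71 / 200 * (1 - e ^ 2)) ^ 3 * (1 + 71 / 200 * e * (1 - e ^ 2)))
    = (ev1 e CLl * L + ev1 e Rl + ev1 e Gl * g) / dn := by
  unfold Bq bq dn
  simp only [ev1, CLl, Rl, Gl]
  push_cast
  ring

theorem log_one_add_ge {y : ℝ} (hy : 0 ≤ y) :
    y - y ^ 2 / 2 + y ^ 3 / 3 - y ^ 4 / 4 ≤ log (1 + y) := by
  have hd : ∀ t ∈ Icc 0 y, HasDerivAt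
      (fun t : ℝ => log (1 + t) - (t - t ^ 2 / 2 + t ^ 3 / 3 - t ^ 4 / 4)) (t ^ 4 / (1 + t)) t := by
    intro t ht
    have h1 : (1 + t) ≠ 0 := by linarith [ht.1]
    have ha : HasDerivAt (fun t : ℝ => log (1 + t)) (1 / (1 + t)) t := by
      have := ((hasDerivAt_id t).const_add 1).log (by simpa using h1)
      simpa using this
    have hb : HasDerivAt (fun t : ℝ => t - t ^ 2 / 2 + t ^ 3 / 3 - t ^ 4 / 4)
        (1 - t + t ^ 2 - t ^ 3) t := by
      have := ((((hasDerivAt_id t).sub ((hasDerivAt_pow 2 t).div_const 2)).add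
        ((hasDerivAt_pow 3 t).div_const 3))).sub ((hasDerivAt_pow 4 t).div_const 4)
      refine this.congr_deriv ?_
      norm_num
    refine (ha.sub hb).congr_deriv ?_
    field_simp
    ring
  have hmono : MonotoneOn
      (fun t : ℝ => log (1 + t) - (t - t ^ 2 / 2 + t ^ 3 / 3 - t ^ 4 / 4)) (Icc 0 y) := by
    apply monotoneOn_of_deriv_nonneg (convex_Icc _ _)
    · exact fun t ht => (hd t ht).continuousAt.continuousWithinAt
    · exact fun t ht => (hd t (interior_subset ht)).differentiableAt.differentiableWithinAt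
    · intro t ht
      rw [(hd t (interior_subset ht)).deriv]
      have := (interior_subset ht).1
      positivity
  have := hmono (left_mem_Icc.2 hy) (right_mem_Icc.2 hy) hy
  norm_num at this
  linarith

theorem ath_le_ser {y : ℝ} (h0 : 0 ≤ y) (h1 : y < 1) :
    ath y ≤ y * (1 + y ^ 2 / 3 + y ^ 4 / 5 + y ^ 6 / 7 + y ^ 8 / (9 * (1 - y ^ 2))) := by
  have hd : ∀ t ∈ Icc 0 y, HasDerivAt
      (fun t : ℝ => t * (1 + t ^ 2 / 3 + t ^ 4 / 5 + t ^ 6 / 7 + t ^ 8 / (9 * (1 - t ^ 2)))
        - ath t) (2 * t ^ 10 / (9 * (1 - t ^ 2) ^ 2)) t := by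
    intro t ht
    have hmem : t ∈ Ioo (-1 : ℝ) 1 := ⟨by linarith [ht.1], by linarith [ht.2]⟩
    have hq := EntAux.one_sub_sq_pos hmem
    have hb1 : HasDerivAt (fun t : ℝ => 9 * (1 - t ^ 2)) (9 * (-(2 * t))) t := by
      have := ((hasDerivAt_pow 2 t).const_sub 1).const_mul 9
      refine this.congr_deriv ?_
      norm_num
    have hb2 : HasDerivAt (fun t : ℝ => 1 + t ^ 2 / 3 + t ^ 4 / 5 + t ^ 6 / 7)
        (2 * t / 3 + 4 * t ^ 3 / 5 + 6 * t ^ 5 / 7) t := by
      have := ((((hasDerivAt_pow 2 t).div_const 3).const_add 1).add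
        ((hasDerivAt_pow 4 t).div_const 5)).add ((hasDerivAt_pow 6 t).div_const 7)
      refine this.congr_deriv ?_
      norm_num
    have hb3 := (hasDerivAt_pow 8 t).div hb1 (by positivity)
    have hb4 := (hasDerivAt_id t).mul (hb2.add hb3)
    have hb5 := hb4.sub (EntAux.hasDerivAt_ath hmem)
    have hb6 : HasDerivAt
      (fun t : ℝ => t * (1 + t ^ 2 / 3 + t ^ 4 / 5 + t ^ 6 / 7 + t ^ 8 / (9 * (1 - t ^ 2)))
        - ath t)
      (1 * (1 + t ^ 2 / 3 + t ^ 4 / 5 + t ^ 6 / 7 + t ^ 8 / (9 * (1 - t ^ 2)))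
        + t * (2 * t / 3 + 4 * t ^ 3 / 5 + 6 * t ^ 5 / 7
          + (((8 : ℕ) : ℝ) * t ^ (8 - 1) * (9 * (1 - t ^ 2)) - t ^ 8 * (9 * (-(2 * t))))
            / (9 * (1 - t ^ 2)) ^ 2) - 1 / (1 - t ^ 2)) t := hb5
    refine hb6.congr_deriv ?_
    push_cast
    field_simp
    ring
  have hmono : MonotoneOn
      (fun t : ℝ => t * (1 + t ^ 2 / 3 + t ^ 4 / 5 + t ^ 6 / 7 + t ^ 8 / (9 * (1 - t ^ 2)))
        - ath t) (Icc 0 y) := by
    apply monotoneOn_of_deriv_nonneg (convex_Icc _ _)
    · exact fun t ht => (hd t ht).continuousAt.continuousWithinAt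
    · exact fun t ht => (hd t (interior_subset ht)).differentiableAt.differentiableWithinAt
    · intro t ht
      rw [(hd t (interior_subset ht)).deriv]
      positivity
  have := hmono (left_mem_Icc.2 h0) (right_mem_Icc.2 h0) h0
  simp only [EntAux.ath_zero, zero_mul, sub_zero] at this
  linarith

theorem c0_le : c0 ≤ 640605 / 1000000 := by
  unfold c0
  have h1 := Real.log_two_lt_d9
  have h2 := Real.log_two_gt_d9
  nlinarith

theorem le_c0 : 6406 / 10000 ≤ c0 := by
  unfold c0
  have h1 := Real.log_two_lt_d9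
  have h2 := Real.log_two_gt_d9
  nlinarith

theorem exp_le_aux : exp (1471 / 10000) ≤ 11585 / 10000 := by
  have := Real.exp_bound' (x := 1471 / 10000) (by norm_num) (by norm_num) (n := 5) (by norm_num)
  refine this.trans ?_
  simp only [Finset.sum_range_succ, Finset.sum_range_zero, Nat.factorial]
  norm_num

theorem le_exp_aux : (135188 / 100000 : ℝ) ≤ exp (3015 / 10000) := by
  have := Real.sum_le_exp_of_nonneg (x := 3015 / 10000) (by norm_num) 6
  refine le_trans ?_ this
  simp only [Finset.sum_range_succ, Finset.sum_range_zero, Nat.factorial]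
  norm_num

/-- numerical upper bound of the logarithm -/
theorem log_le_neg {c l : ℝ} (hc : 0 < c) (hl0 : 0 ≤ l / 4) (hl1 : l / 4 ≤ 1)
    (h : c * (∑ m ∈ Finset.range 8, (l / 4) ^ m / (m.factorial : ℝ)
      + (l / 4) ^ 8 * ((8 : ℕ) + 1) / ((Nat.factorial 8 : ℝ) * (8 : ℕ))) ^ 4 ≤ 1) :
    log c ≤ -l := by
  have h1 := Real.exp_bound' hl0 hl1 (n := 8) (by norm_num)
  have h2 : exp l ≤ (∑ m ∈ Finset.range 8, (l / 4) ^ m / (m.factorial : ℝ)
      + (l / 4) ^ 8 * ((8 : ℕ) + 1) / ((Nat.factorial 8 : ℝ) * (8 : ℕ))) ^ 4 := by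
    have : exp l = exp (l / 4) ^ 4 := by
      rw [← Real.exp_nat_mul]; congr 1; push_cast; ring
    rw [this]
    exact pow_le_pow_left₀ (exp_pos _).le h1 4
  have h3 : c * exp l ≤ 1 := le_trans (mul_le_mul_of_nonneg_left h2 hc.le) h
  have h4 : log (c * exp l) ≤ log 1 := log_le_log (by positivity) h3
  rw [log_mul hc.ne' (exp_pos _).ne', log_exp, log_one] at h4
  linarith

/-- cubic lower bound of `-log e` around `c` -/
theorem neg_log_ge {c l e : ℝ} (hc : 0 < c) (he : 0 < e) (hl : log c ≤ -l) :
    l - (e / c - 1) + (e / c - 1) ^ 2 / 2 - (e / c - 1) ^ 3 / 3 ≤ -log e := by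
  have hr : 0 < e / c := div_pos he hc
  -- `log (1 + r) ≤ r - r²/2 + r³/3` for `r > -1`
  have key : ∀ r : ℝ, -1 < r → log (1 + r) ≤ r - r ^ 2 / 2 + r ^ 3 / 3 := by
    intro r hr
    have hd : ∀ t : ℝ, -1 < t → HasDerivAt
        (fun t : ℝ => (t - t ^ 2 / 2 + t ^ 3 / 3) - log (1 + t)) (t ^ 3 / (1 + t)) t := by
      intro t ht
      have h1 : (1 + t) ≠ 0 := by linarith
      have ha : HasDerivAt (fun t : ℝ => log (1 + t)) (1 / (1 + t)) t := by
        have := ((hasDerivAt_id t).const_add 1).log (by simpa using h1)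
        simpa using this
      have hb : HasDerivAt (fun t : ℝ => t - t ^ 2 / 2 + t ^ 3 / 3)
          (1 - t + t ^ 2) t := by
        have := (((hasDerivAt_id t).sub ((hasDerivAt_pow 2 t).div_const 2)).add
          ((hasDerivAt_pow 3 t).div_const 3))
        refine this.congr_deriv ?_
        norm_num
      refine (hb.sub ha).congr_deriv ?_
      field_simp
      ring
    rcases le_total 0 r with h | h
    · have hmono : MonotoneOn
          (fun t : ℝ => (t - t ^ 2 / 2 + t ^ 3 / 3) - log (1 + t)) (Icc 0 r) := by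
        apply monotoneOn_of_deriv_nonneg (convex_Icc _ _)
        · exact fun t ht => (hd t (by linarith [ht.1])).continuousAt.continuousWithinAt
        · exact fun t ht => (hd t (by
            linarith [(interior_subset ht).1])).differentiableAt.differentiableWithinAt
        · intro t ht
          have := (interior_subset ht).1
          rw [(hd t (by linarith)).deriv]
          positivity
      have := hmono (left_mem_Icc.2 h) (right_mem_Icc.2 h) h
      norm_num at this
      linarith
    · have hanti : AntitoneOn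
          (fun t : ℝ => (t - t ^ 2 / 2 + t ^ 3 / 3) - log (1 + t)) (Icc r 0) := by
        apply antitoneOn_of_deriv_nonpos (convex_Icc _ _)
        · exact fun t ht => (hd t (by linarith [ht.1])).continuousAt.continuousWithinAt
        · exact fun t ht => (hd t (by
            linarith [(interior_subset ht).1])).differentiableAt.differentiableWithinAt
        · intro t ht
          have h1 := (interior_subset ht).1
          have h2 := (interior_subset ht).2
          rw [(hd t (by linarith)).deriv]
          apply div_nonpos_of_nonpos_of_nonneg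
          · have : 0 ≤ t ^ 2 := sq_nonneg t
            nlinarith
          · linarith
      have := hanti (left_mem_Icc.2 h) (right_mem_Icc.2 h) h
      norm_num at this
      linarith
  have h1 := key (e / c - 1) (by linarith)
  have h2 : 1 + (e / c - 1) = e / c := by ring
  rw [h2, log_div he.ne' hc.ne'] at h1
  linarith

/-- chord bound of `e^(9/16)` -/
theorem chord {a b va vb e : ℝ} (ha : 0 < a) (hab : a < b) (hva : 0 < va) (hvb : 0 < vb)
    (h1 : va ^ 16 ≤ a ^ 9) (h2 : vb ^ 16 ≤ b ^ 9) (he : e ∈ Icc a b) :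
    va + (vb - va) / (b - a) * (e - a) ≤ exp (9 / 16 * log e) := by
  have key : ∀ {v x : ℝ}, 0 < v → 0 < x → v ^ 16 ≤ x ^ 9 → v ≤ x ^ (9 / 16 : ℝ) := by
    intro v x hv hx h
    by_contra hc
    push Not at hc
    have h3 : (x ^ (9 / 16 : ℝ)) ^ 16 < v ^ 16 :=
      pow_lt_pow_left₀ hc (rpow_nonneg hx.le _) (by norm_num)
    have h4 : (x ^ (9 / 16 : ℝ)) ^ 16 = x ^ 9 := by
      rw [← rpow_natCast, ← rpow_mul hx.le]
      norm_num
    linarith
  have hb : 0 < b := ha.trans hab
  have he0 : 0 < e := lt_of_lt_of_le ha he.1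
  have hconc := Real.concaveOn_rpow (p := 9 / 16) (by norm_num) (by norm_num)
  set t := (e - a) / (b - a) with ht
  have hba : 0 < b - a := by linarith
  have ht0 : 0 ≤ t := div_nonneg (by linarith [he.1]) hba.le
  have ht1 : t ≤ 1 := by rw [ht, div_le_one hba]; linarith [he.2]
  have h3 := hconc.2 (show a ∈ Ici 0 from ha.le) (show b ∈ Ici 0 from hb.le)
    (by linarith : 0 ≤ 1 - t) ht0 (by ring)
  simp only [smul_eq_mul] at h3
  have h4 : (1 - t) * a + t * b = e := by
    rw [ht]; field_simp; ring
  rw [h4] at h3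
  have h5 : e ^ (9 / 16 : ℝ) = exp (9 / 16 * log e) := by
    rw [rpow_def_of_pos he0, mul_comm]
  rw [← h5]
  have h6 := key hva ha h1
  have h7 := key hvb hb h2
  have h8 : va + (vb - va) / (b - a) * (e - a) = (1 - t) * va + t * vb := by
    rw [ht]; field_simp; ring
  rw [h8]
  refine le_trans ?_ h3
  have := mul_le_mul_of_nonneg_left h6 (by linarith : 0 ≤ 1 - t)
  have := mul_le_mul_of_nonneg_left h7 ht0
  linarith

/-- total integer polynomial of a slab -/
def tot (NL NG : ℤ) (Lp gp : List ℤ) : List ℤ :=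
  add1 (smul1 NG (mul1 CLl Lp)) (add1 (smul1 (NL * NG) Rl) (smul1 NL (mul1 Gl gp)))

theorem slab {A B D NL NG : ℤ} {Lp gp : List ℤ} {e L g : ℝ} {m : ℕ}
    (hNL : 0 < NL) (hNG : 0 < NG)
    (h1 : check m A B D 0 1 1 [tot NL NG Lp gp] = true)
    (h2 : check m A B D 0 1 1 [CLl] = true)
    (h3 : check m A B D 0 1 1 [Gl] = true)
    (ha : (A : ℝ) / D ≤ e) (hb : e < (B : ℝ) / D)
    (hL : ev1 e Lp / NL ≤ L) (hg : ev1 e gp / NG ≤ g) :
    0 ≤ ev1 e CLl * L + ev1 e Rl + ev1 e Gl * g := by
  have hw1 : ((0 : ℤ) : ℝ) / (1 : ℤ) ≤ (0 : ℝ) := by norm_num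
  have hw2 : (0 : ℝ) < ((1 : ℤ) : ℝ) / (1 : ℤ) := by norm_num
  have k1 := nonneg_of_check h1 ha hb hw1 hw2
  have k2 := nonneg_of_check h2 ha hb hw1 hw2
  have k3 := nonneg_of_check h3 ha hb hw1 hw2
  simp only [ev2, zero_mul, add_zero] at k1 k2 k3
  unfold tot at k1
  simp only [ev1_add, ev1_smul, ev1_mul] at k1
  push_cast at k1
  have hNL' : (0 : ℝ) < NL := by exact_mod_cast hNL
  have hNG' : (0 : ℝ) < NG := by exact_mod_cast hNG
  have e1 := mul_le_mul_of_nonneg_left hL k2
  have e2 := mul_le_mul_of_nonneg_left hg k3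
  have e3 : 0 ≤ ev1 e CLl * (ev1 e Lp / NL) + ev1 e Rl + ev1 e Gl * (ev1 e gp / NG) := by
    have : ev1 e CLl * (ev1 e Lp / NL) + ev1 e Rl + ev1 e Gl * (ev1 e gp / NG)
        = (NG * (ev1 e CLl * ev1 e Lp) + (NL * NG * ev1 e Rl + NL * (ev1 e Gl * ev1 e gp)))
          / (NL * NG) := by
      field_simp
      ring
    rw [this]
    positivity
  linarith

theorem slab0 {e : ℝ} (ha : 173 / 1000 ≤ e) (hb : e < 200 / 1000) :
    0 ≤ ev1 e CLl * (-2 * log e) + ev1 e Rl + ev1 e Gl * exp (9 / 16 * log e) := by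
  have he : 0 < e := by linarith
  have hl : log (93 / 500) ≤ -(1682007 / 1000000) := by
    refine log_le_neg (by norm_num) (by norm_num) (by norm_num) ?_
    simp only [Finset.sum_range_succ, Finset.sum_range_zero, Nat.factorial]
    norm_num
  have hL := neg_log_ge (c := 93 / 500) (by norm_num) he hl
  have hg := chord (a := 173 / 1000) (b := 200 / 1000) (va := 186367 / 500000) (vb := 80883 / 200000)
    (e := e) (by norm_num) (by norm_num) (by norm_num) (by norm_num) (by norm_num) (by norm_num)
    ⟨ha, hb.le⟩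
  refine slab (A := 173) (B := 200) (D := 1000) (NL := 1206535500000) (NG := 5400000)
    (Lp := [8482765813497, -38920500000000, 104625000000000, -125000000000000])
    (gp := [916601, 6336200]) (m := 30)
    (by norm_num) (by norm_num) (by decide +kernel) (by decide +kernel) (by decide +kernel)
    (by push_cast; exact ha) (by push_cast; exact hb) ?_ ?_
  · simp only [ev1]
    push_cast
    refine le_trans (le_of_eq ?_) (mul_le_mul_of_nonneg_left hL (by norm_num : (0 : ℝ) ≤ 2) |>.trans
      (le_of_eq (by ring)))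
    ring
  · simp only [ev1]
    push_cast
    refine le_trans (le_of_eq ?_) hg
    ring

theorem slab1 {e : ℝ} (ha : 200 / 1000 ≤ e) (hb : e < 235 / 1000) :
    0 ≤ ev1 e CLl * (-2 * log e) + ev1 e Rl + ev1 e Gl * exp (9 / 16 * log e) := by
  have he : 0 < e := by linarith
  have hl : log (109 / 500) ≤ -(1523259 / 1000000) := by
    refine log_le_neg (by norm_num) (by norm_num) (by norm_num) ?_
    simp only [Finset.sum_range_succ, Finset.sum_range_zero, Nat.factorial]
    norm_num
  have hL := neg_log_ge (c := 109 / 500) (by norm_num) he hl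
  have hg := chord (a := 200 / 1000) (b := 235 / 1000) (va := 80883 / 200000) (vb := 442817 / 1000000)
    (e := e) (by norm_num) (by norm_num) (by norm_num) (by norm_num) (by norm_num) (by norm_num)
    ⟨ha, hb.le⟩
  refine slab (A := 200) (B := 235) (D := 1000) (NL := 1942543500000) (NG := 40000)
    (Lp := [13040653238533, -53464500000000, 122625000000000, -125000000000000])
    (gp := [7399, 43888]) (m := 30)
    (by norm_num) (by norm_num) (by decide +kernel) (by decide +kernel) (by decide +kernel)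
    (by push_cast; exact ha) (by push_cast; exact hb) ?_ ?_
  · simp only [ev1]
    push_cast
    refine le_trans (le_of_eq ?_) (mul_le_mul_of_nonneg_left hL (by norm_num : (0 : ℝ) ≤ 2) |>.trans
      (le_of_eq (by ring)))
    ring
  · simp only [ev1]
    push_cast
    refine le_trans (le_of_eq ?_) hg
    ring

theorem slab2 {e : ℝ} (ha : 235 / 1000 ≤ e) (hb : e < 275 / 1000) :
    0 ≤ ev1 e CLl * (-2 * log e) + ev1 e Rl + ev1 e Gl * exp (9 / 16 * log e) := by
  have he : 0 < e := by linarith
  have hl : log (51 / 200) ≤ -(136649 / 100000) := by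
    refine log_le_neg (by norm_num) (by norm_num) (by norm_num) ?_
    simp only [Finset.sum_range_succ, Finset.sum_range_zero, Nat.factorial]
    norm_num
  have hL := neg_log_ge (c := 51 / 200) (by norm_num) he hl
  have hg := chord (a := 235 / 1000) (b := 275 / 1000) (va := 442817 / 1000000) (vb := 483753 / 1000000)
    (e := e) (by norm_num) (by norm_num) (by norm_num) (by norm_num) (by norm_num) (by norm_num)
    ⟨ha, hb.le⟩
  refine slab (A := 235) (B := 275) (D := 1000) (NL := 19897650000) (NG := 500000)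
    (Lp := [127337929497, -468180000000, 918000000000, -800000000000])
    (gp := [101159, 511700]) (m := 30)
    (by norm_num) (by norm_num) (by decide +kernel) (by decide +kernel) (by decide +kernel)
    (by push_cast; exact ha) (by push_cast; exact hb) ?_ ?_
  · simp only [ev1]
    push_cast
    refine le_trans (le_of_eq ?_) (mul_le_mul_of_nonneg_left hL (by norm_num : (0 : ℝ) ≤ 2) |>.trans
      (le_of_eq (by ring)))
    ring
  · simp only [ev1]
    push_cast
    refine le_trans (le_of_eq ?_) hg
    ring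

theorem slab3 {e : ℝ} (ha : 275 / 1000 ≤ e) (hb : e < 320 / 1000) :
    0 ≤ ev1 e CLl * (-2 * log e) + ev1 e Rl + ev1 e Gl * exp (9 / 16 * log e) := by
  have he : 0 < e := by linarith
  have hl : log (149 / 500) ≤ -(60533 / 50000) := by
    refine log_le_neg (by norm_num) (by norm_num) (by norm_num) ?_
    simp only [Finset.sum_range_succ, Finset.sum_range_zero, Nat.factorial]
    norm_num
  have hL := neg_log_ge (c := 149 / 500) (by norm_num) he hl
  have hg := chord (a := 275 / 1000) (b := 320 / 1000) (va := 483753 / 1000000) (vb := 1317 / 2500)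
    (e := e) (by norm_num) (by norm_num) (by norm_num) (by norm_num) (by norm_num) (by norm_num)
    ⟨ha, hb.le⟩
  refine slab (A := 275) (B := 320) (D := 1000) (NL := 248096175000) (NG := 125000)
    (Lp := [1510406205451, -4995225000000, 8381250000000, -6250000000000])
    (gp := [27586, 119575]) (m := 30)
    (by norm_num) (by norm_num) (by decide +kernel) (by decide +kernel) (by decide +kernel)
    (by push_cast; exact ha) (by push_cast; exact hb) ?_ ?_
  · simp only [ev1]
    push_cast
    refine le_trans (le_of_eq ?_) (mul_le_mul_of_nonneg_left hL (by norm_num : (0 : ℝ) ≤ 2) |>.trans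
      (le_of_eq (by ring)))
    ring
  · simp only [ev1]
    push_cast
    refine le_trans (le_of_eq ?_) hg
    ring

theorem slab4 {e : ℝ} (ha : 320 / 1000 ≤ e) (hb : e < 370 / 1000) :
    0 ≤ ev1 e CLl * (-2 * log e) + ev1 e Rl + ev1 e Gl * exp (9 / 16 * log e) := by
  have he : 0 < e := by linarith
  have hl : log (69 / 200) ≤ -(1064209 / 1000000) := by
    refine log_le_neg (by norm_num) (by norm_num) (by norm_num) ?_
    simp only [Finset.sum_range_succ, Finset.sum_range_zero, Nat.factorial]
    norm_num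
  have hL := neg_log_ge (c := 69 / 200) (by norm_num) he hl
  have hg := chord (a := 320 / 1000) (b := 370 / 1000) (va := 1317 / 2500) (vb := 285813 / 500000)
    (e := e) (by norm_num) (by norm_num) (by norm_num) (by norm_num) (by norm_num) (by norm_num)
    ⟨ha, hb.le⟩
  refine slab (A := 320) (B := 370) (D := 1000) (NL := 492763500000) (NG := 625000)
    (Lp := [2855606203143, -8569800000000, 12420000000000, -8000000000000])
    (gp := [149946, 560325]) (m := 30)
    (by norm_num) (by norm_num) (by decide +kernel) (by decide +kernel) (by decide +kernel)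
    (by push_cast; exact ha) (by push_cast; exact hb) ?_ ?_
  · simp only [ev1]
    push_cast
    refine le_trans (le_of_eq ?_) (mul_le_mul_of_nonneg_left hL (by norm_num : (0 : ℝ) ≤ 2) |>.trans
      (le_of_eq (by ring)))
    ring
  · simp only [ev1]
    push_cast
    refine le_trans (le_of_eq ?_) hg
    ring

theorem slab5 {e : ℝ} (ha : 370 / 1000 ≤ e) (hb : e < 430 / 1000) :
    0 ≤ ev1 e CLl * (-2 * log e) + ev1 e Rl + ev1 e Gl * exp (9 / 16 * log e) := by
  have he : 0 < e := by linarith
  have hl : log (2 / 5) ≤ -(916289 / 1000000) := by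
    refine log_le_neg (by norm_num) (by norm_num) (by norm_num) ?_
    simp only [Finset.sum_range_succ, Finset.sum_range_zero, Nat.factorial]
    norm_num
  have hL := neg_log_ge (c := 2 / 5) (by norm_num) he hl
  have hg := chord (a := 370 / 1000) (b := 430 / 1000) (va := 285813 / 500000) (vb := 12441 / 20000)
    (e := e) (by norm_num) (by norm_num) (by norm_num) (by norm_num) (by norm_num) (by norm_num)
    ⟨ha, hb.le⟩
  refine slab (A := 370) (B := 430) (D := 1000) (NL := 1500000) (NG := 500000)
    (Lp := [8248867, -22500000, 28125000, -15625000])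
    (gp := [130339, 420200]) (m := 30)
    (by norm_num) (by norm_num) (by decide +kernel) (by decide +kernel) (by decide +kernel)
    (by push_cast; exact ha) (by push_cast; exact hb) ?_ ?_
  · simp only [ev1]
    push_cast
    refine le_trans (le_of_eq ?_) (mul_le_mul_of_nonneg_left hL (by norm_num : (0 : ℝ) ≤ 2) |>.trans
      (le_of_eq (by ring)))
    ring
  · simp only [ev1]
    push_cast
    refine le_trans (le_of_eq ?_) hg
    ring

theorem slab6 {e : ℝ} (ha : 430 / 1000 ≤ e) (hb : e < 500 / 1000) :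
    0 ≤ ev1 e CLl * (-2 * log e) + ev1 e Rl + ev1 e Gl * exp (9 / 16 * log e) := by
  have he : 0 < e := by linarith
  have hl : log (93 / 200) ≤ -(191429 / 250000) := by
    refine log_le_neg (by norm_num) (by norm_num) (by norm_num) ?_
    simp only [Finset.sum_range_succ, Finset.sum_range_zero, Nat.factorial]
    norm_num
  have hL := neg_log_ge (c := 93 / 200) (by norm_num) he hl
  have hg := chord (a := 430 / 1000) (b := 500 / 1000) (va := 12441 / 20000) (vb := 338563 / 500000)
    (e := e) (by norm_num) (by norm_num) (by norm_num) (by norm_num) (by norm_num) (by norm_num)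
    ⟨ha, hb.le⟩
  refine slab (A := 430) (B := 500) (D := 1000) (NL := 301633875000) (NG := 500000)
    (Lp := [1567922643459, -3892050000000, 4185000000000, -2000000000000])
    (gp := [141863, 393400]) (m := 30)
    (by norm_num) (by norm_num) (by decide +kernel) (by decide +kernel) (by decide +kernel)
    (by push_cast; exact ha) (by push_cast; exact hb) ?_ ?_
  · simp only [ev1]
    push_cast
    refine le_trans (le_of_eq ?_) (mul_le_mul_of_nonneg_left hL (by norm_num : (0 : ℝ) ≤ 2) |>.trans
      (le_of_eq (by ring)))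
    ring
  · simp only [ev1]
    push_cast
    refine le_trans (le_of_eq ?_) hg
    ring

theorem slab7 {e : ℝ} (ha : 500 / 1000 ≤ e) (hb : e < 580 / 1000) :
    0 ≤ ev1 e CLl * (-2 * log e) + ev1 e Rl + ev1 e Gl * exp (9 / 16 * log e) := by
  have he : 0 < e := by linarith
  have hl : log (27 / 50) ≤ -(123237 / 200000) := by
    refine log_le_neg (by norm_num) (by norm_num) (by norm_num) ?_
    simp only [Finset.sum_range_succ, Finset.sum_range_zero, Nat.factorial]
    norm_num
  have hL := neg_log_ge (c := 27 / 50) (by norm_num) he hl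
  have hg := chord (a := 500 / 1000) (b := 580 / 1000) (va := 338563 / 500000) (vb := 184021 / 250000)
    (e := e) (by norm_num) (by norm_num) (by norm_num) (by norm_num) (by norm_num) (by norm_num)
    ⟨ha, hb.le⟩
  refine slab (A := 500) (B := 580) (D := 1000) (NL := 5904900000) (NG := 2000000)
    (Lp := [28928321613, -65610000000, 60750000000, -25000000000])
    (gp := [617277, 1473950]) (m := 30)
    (by norm_num) (by norm_num) (by decide +kernel) (by decide +kernel) (by decide +kernel)
    (by push_cast; exact ha) (by push_cast; exact hb) ?_ ?_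
  · simp only [ev1]
    push_cast
    refine le_trans (le_of_eq ?_) (mul_le_mul_of_nonneg_left hL (by norm_num : (0 : ℝ) ≤ 2) |>.trans
      (le_of_eq (by ring)))
    ring
  · simp only [ev1]
    push_cast
    refine le_trans (le_of_eq ?_) hg
    ring

theorem slab8 {e : ℝ} (ha : 580 / 1000 ≤ e) (hb : e < 650 / 1000) :
    0 ≤ ev1 e CLl * (-2 * log e) + ev1 e Rl + ev1 e Gl * exp (9 / 16 * log e) := by
  have he : 0 < e := by linarith
  have hl : log (123 / 200) ≤ -(121533 / 250000) := by
    refine log_le_neg (by norm_num) (by norm_num) (by norm_num) ?_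
    simp only [Finset.sum_range_succ, Finset.sum_range_zero, Nat.factorial]
    norm_num
  have hL := neg_log_ge (c := 123 / 200) (by norm_num) he hl
  have hg := chord (a := 580 / 1000) (b := 650 / 1000) (va := 184021 / 250000) (vb := 784807 / 1000000)
    (e := e) (by norm_num) (by norm_num) (by norm_num) (by norm_num) (by norm_num) (by norm_num)
    ⟨ha, hb.le⟩
  refine slab (A := 580) (B := 650) (D := 1000) (NL := 697825125000) (NG := 3500000)
    (Lp := [3237162372333, -6808050000000, 5535000000000, -2000000000000])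
    (gp := [1163327, 2436150]) (m := 30)
    (by norm_num) (by norm_num) (by decide +kernel) (by decide +kernel) (by decide +kernel)
    (by push_cast; exact ha) (by push_cast; exact hb) ?_ ?_
  · simp only [ev1]
    push_cast
    refine le_trans (le_of_eq ?_) (mul_le_mul_of_nonneg_left hL (by norm_num : (0 : ℝ) ≤ 2) |>.trans
      (le_of_eq (by ring)))
    ring
  · simp only [ev1]
    push_cast
    refine le_trans (le_of_eq ?_) hg
    ring

theorem slab9 {e : ℝ} (ha : 650 / 1000 ≤ e) (hb : e < 709 / 1000) :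
    0 ≤ ev1 e CLl * (-2 * log e) + ev1 e Rl + ev1 e Gl * exp (9 / 16 * log e) := by
  have he : 0 < e := by linarith
  have hl : log (17 / 25) ≤ -(385661 / 1000000) := by
    refine log_le_neg (by norm_num) (by norm_num) (by norm_num) ?_
    simp only [Finset.sum_range_succ, Finset.sum_range_zero, Nat.factorial]
    norm_num
  have hL := neg_log_ge (c := 17 / 25) (by norm_num) he hl
  have hg := chord (a := 650 / 1000) (b := 709 / 1000) (va := 784807 / 1000000) (vb := 164823 / 200000)
    (e := e) (by norm_num) (by norm_num) (by norm_num) (by norm_num) (by norm_num) (by norm_num)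
    ⟨ha, hb.le⟩
  refine slab (A := 650) (B := 709) (D := 1000) (NL := 7369500000) (NG := 59000000)
    (Lp := [32705757479, -65025000000, 47812500000, -15625000000])
    (gp := [20753413, 39308000]) (m := 30)
    (by norm_num) (by norm_num) (by decide +kernel) (by decide +kernel) (by decide +kernel)
    (by push_cast; exact ha) (by push_cast; exact hb) ?_ ?_
  · simp only [ev1]
    push_cast
    refine le_trans (le_of_eq ?_) (mul_le_mul_of_nonneg_left hL (by norm_num : (0 : ℝ) ≤ 2) |>.trans
      (le_of_eq (by ring)))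
    ring
  · simp only [ev1]
    push_cast
    refine le_trans (le_of_eq ?_) hg
    ring

theorem all {e : ℝ} (he : e ∈ Icc (173 / 1000 : ℝ) (708 / 1000)) :
    0 ≤ ev1 e CLl * (-2 * log e) + ev1 e Rl + ev1 e Gl * exp (9 / 16 * log e) := by
  obtain ⟨h1, h2⟩ := he
  rcases lt_or_ge e (200 / 1000) with h0 | h0
  · exact slab0 (by linarith) h0
  rcases lt_or_ge e (235 / 1000) with h1 | h1
  · exact slab1 (by linarith) h1
  rcases lt_or_ge e (275 / 1000) with h2 | h2
  · exact slab2 (by linarith) h2
  rcases lt_or_ge e (320 / 1000) with h3 | h3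
  · exact slab3 (by linarith) h3
  rcases lt_or_ge e (370 / 1000) with h4 | h4
  · exact slab4 (by linarith) h4
  rcases lt_or_ge e (430 / 1000) with h5 | h5
  · exact slab5 (by linarith) h5
  rcases lt_or_ge e (500 / 1000) with h6 | h6
  · exact slab6 (by linarith) h6
  rcases lt_or_ge e (580 / 1000) with h7 | h7
  · exact slab7 (by linarith) h7
  rcases lt_or_ge e (650 / 1000) with h8 | h8
  · exact slab8 (by linarith) h8
  exact slab9 (by linarith) (by linarith)

/-- lower bound of `PP` -/
theorem PP_ge {e : ℝ} (he0 : 0 < e) (he1 : e < 1) :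
    ((71 / 200 * e) * (-2 * log e) + ((71 / 200 * e) * (1 - e ^ 2)
        - ((71 / 200 * e) * (1 - e ^ 2)) ^ 2 / 2
        + ((71 / 200 * e) * (1 - e ^ 2)) ^ 3 / 3 - ((71 / 200 * e) * (1 - e ^ 2)) ^ 4 / 4))
        * ((e + 71 / 200 * (1 - e ^ 2)) ^ 3 * (1 + 71 / 200 * e * (1 - e ^ 2)))
      - 2 * (71 / 200) * (1 - e ^ 2) *
        (e * (e + 71 / 200 * (1 - e ^ 2)) ^ 3 * (1 + 71 / 200 * e * (1 - e ^ 2))
          + (71 / 200 * (1 - e ^ 2) ^ 2) / 3 * e * (e + 71 / 200 * (1 - e ^ 2)) ^ 2
            * (1 + 71 / 200 * e * (1 - e ^ 2))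
          + (71 / 200 * (1 - e ^ 2) ^ 2) ^ 2 / 5 * e * (e + 71 / 200 * (1 - e ^ 2))
            * (1 + 71 / 200 * e * (1 - e ^ 2))
          + (71 / 200 * (1 - e ^ 2) ^ 2) ^ 3 / 7 * e * (1 + 71 / 200 * e * (1 - e ^ 2))
          + (71 / 200 * (1 - e ^ 2) ^ 2) ^ 4 / 9)
    ≤ PP (1 - e ^ 2) (355 / 1000 * e) *
        ((e + 71 / 200 * (1 - e ^ 2)) ^ 3 * (1 + 71 / 200 * e * (1 - e ^ 2))) := by
  have ho : (355 / 1000 * e : ℝ) = 71 / 200 * e := by ring
  rw [ho]
  set z := 1 - e ^ 2 with hz
  set d := e + 71 / 200 * z with hd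
  set D1 := 1 + 71 / 200 * e * z with hD1
  set o := 71 / 200 * e with ho'
  have hz0 : 0 < z := by rw [hz]; nlinarith
  have hz1 : z < 1 := by rw [hz]; nlinarith
  have hd0 : 0 < d := by rw [hd]; positivity
  have hD0 : 0 < D1 := by rw [hD1]; positivity
  have ho0 : 0 < o := by rw [ho']; positivity
  have hu : 1 - (1 - o) * z = e * d := by rw [hd, ho', hz]; ring
  have hu0 : 0 < e * d := mul_pos he0 hd0
  set s := √(o * (e * d)) with hs
  have hs2 : s ^ 2 = o * (e * d) := by rw [hs, sq_sqrt (by positivity)]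
  have hs0 : 0 < s := by rw [hs]; exact sqrt_pos.2 (by positivity)
  set y := z * s / (e * d) with hy
  have hy0 : 0 < y := by rw [hy]; positivity
  have hy2 : y ^ 2 = (71 / 200 * z ^ 2) / d := by
    rw [hy, div_pow, mul_pow, hs2, ho']
    field_simp
  have hone : 1 - y ^ 2 = e * D1 / d := by
    rw [hy2, hD1, eq_div_iff hd0.ne', sub_mul, div_mul_cancel₀ _ hd0.ne', hd, hz]
    ring
  have hone0 : 0 < 1 - y ^ 2 := by rw [hone]; positivity
  have hy1 : y < 1 := by nlinarith
  have hath := ath_le_ser hy0.le hy1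
  have hsy : s * y = z * o := by
    rw [hy]
    have : s * (z * s / (e * d)) = z * s ^ 2 / (e * d) := by ring
    rw [this, hs2]
    field_simp
  have h1 : s * ath y ≤ z * o * (1 + y ^ 2 / 3 + y ^ 4 / 5 + y ^ 6 / 7
      + y ^ 8 / (9 * (1 - y ^ 2))) := by
    calc s * ath y ≤ s * (y * (1 + y ^ 2 / 3 + y ^ 4 / 5 + y ^ 6 / 7
        + y ^ 8 / (9 * (1 - y ^ 2)))) := mul_le_mul_of_nonneg_left hath hs0.le
      _ = (s * y) * (1 + y ^ 2 / 3 + y ^ 4 / 5 + y ^ 6 / 7 + y ^ 8 / (9 * (1 - y ^ 2))) := by ring
      _ = _ := by rw [hsy]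
  have hlog := log_one_add_ge (y := o * z) (by positivity)
  have hlz : log (1 - z) = 2 * log e := by
    have : 1 - z = e ^ 2 := by rw [hz]; ring
    rw [this, log_pow]; norm_num
  have hPP : PP z o = -(o * log (1 - z)) + log (1 + o * z) - 2 * s * ath y := by
    unfold PP
    rw [hu]
  have h2 : o * (-2 * log e) + (o * z - (o * z) ^ 2 / 2 + (o * z) ^ 3 / 3 - (o * z) ^ 4 / 4)
      - 2 * (z * o * (1 + y ^ 2 / 3 + y ^ 4 / 5 + y ^ 6 / 7 + y ^ 8 / (9 * (1 - y ^ 2))))
      ≤ PP z o := by
    rw [hPP, hlz]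
    linarith
  have hpos : 0 < d ^ 3 * D1 := by positivity
  have h3 := mul_le_mul_of_nonneg_right h2 hpos.le
  refine le_trans (le_of_eq ?_) h3
  have hX4 : y ^ 4 = ((71 / 200 * z ^ 2) / d) ^ 2 := by rw [← hy2]; ring
  have hX6 : y ^ 6 = ((71 / 200 * z ^ 2) / d) ^ 3 := by rw [← hy2]; ring
  have hX8 : y ^ 8 = ((71 / 200 * z ^ 2) / d) ^ 4 := by rw [← hy2]; ring
  rw [hone, hX4, hX6, hX8, hy2, ho']
  clear_value z d D1
  field_simp

/-- upper bound of `K` -/
theorem K_le {e : ℝ} (he : e ∈ Icc (173 / 1000 : ℝ) (708 / 1000)) :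
    c0 * tt (-2 * log e) * (exp ((18 / 100 * (-2 * log e) - 1 / 10) / c0) - 1)
      ≤ (7422 / 10000 - 866 / 1000 * exp (9 / 16 * log e)) * e := by
  have he0 : 0 < e := by linarith [he.1]
  have hc1 := c0_le
  have hc2 := le_c0
  have hc0 : 0 < c0 := by linarith
  have hl2a := Real.log_two_lt_d9
  have hl2b := Real.log_two_gt_d9
  have hl0 : log e < 0 := log_neg he0 (by linarith [he.2])
  have hl1 : -(17545 / 10000) ≤ log e := by
    have h := log_le_log (by norm_num : (0 : ℝ) < 173 / 1000) he.1
    refine le_trans ?_ h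
    rw [le_log_iff_exp_le (by norm_num), exp_neg]
    rw [inv_le_comm₀ (exp_pos _) (by norm_num)]
    have h2 := Real.sum_le_exp_of_nonneg (x := 17545 / 10000) (by norm_num) 12
    refine le_trans ?_ h2
    simp only [Finset.sum_range_succ, Finset.sum_range_zero, Nat.factorial]
    norm_num
  set l := log e with hl
  have hexp : exp l = e := exp_log he0
  have e1 : c0 * tt (-2 * l) * (exp ((18 / 100 * (-2 * l) - 1 / 10) / c0) - 1)
      = c0 * exp ((64 / 100 * l + log 2 - 6 / 10) / c0) - c0 * exp ((l + log 2 - 1 / 2) / c0) := by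
    unfold tt
    have h1 : exp (-(-2 * l / 2 - log 2 + 1 / 2) / c0) = exp ((l + log 2 - 1 / 2) / c0) := by
      congr 1; ring
    have h2 : exp ((64 / 100 * l + log 2 - 6 / 10) / c0)
        = exp ((l + log 2 - 1 / 2) / c0) * exp ((18 / 100 * (-2 * l) - 1 / 10) / c0) := by
      rw [← exp_add]; congr 1; ring
    rw [h1, h2]; ring
  rw [e1]
  have k1 : exp ((64 / 100 * l + log 2 - 6 / 10) / c0) ≤ 11585 / 10000 * e := by
    have h1 : (64 / 100 * l + log 2 - 6 / 10) / c0 ≤ l + 1471 / 10000 := by
      rw [div_le_iff₀ hc0]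
      nlinarith
    calc exp ((64 / 100 * l + log 2 - 6 / 10) / c0) ≤ exp (l + 1471 / 10000) := exp_le_exp.2 h1
      _ = e * exp (1471 / 10000) := by rw [exp_add, hexp]
      _ ≤ e * (11585 / 10000) := mul_le_mul_of_nonneg_left exp_le_aux he0.le
      _ = _ := by ring
  have k2 : 135188 / 100000 * (e * exp (9 / 16 * l)) ≤ exp ((l + log 2 - 1 / 2) / c0) := by
    have h1 : l + 9 / 16 * l + 3015 / 10000 ≤ (l + log 2 - 1 / 2) / c0 := by
      rw [le_div_iff₀ hc0]
      nlinarith
    calc 135188 / 100000 * (e * exp (9 / 16 * l))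
        ≤ exp (3015 / 10000) * (e * exp (9 / 16 * l)) :=
          mul_le_mul_of_nonneg_right le_exp_aux (by positivity)
      _ = exp (l + 9 / 16 * l + 3015 / 10000) := by
          rw [exp_add, exp_add, hexp]; ring
      _ ≤ _ := exp_le_exp.2 h1
  have g0 : 0 < exp (9 / 16 * l) := exp_pos _
  have k3 : c0 * exp ((64 / 100 * l + log 2 - 6 / 10) / c0) ≤ 7422 / 10000 * e := by
    calc c0 * exp ((64 / 100 * l + log 2 - 6 / 10) / c0)
        ≤ 640605 / 1000000 * (11585 / 10000 * e) := by gcongr
      _ ≤ _ := by nlinarith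
  have k4 : 866 / 1000 * exp (9 / 16 * l) * e ≤ c0 * exp ((l + log 2 - 1 / 2) / c0) := by
    calc 866 / 1000 * exp (9 / 16 * l) * e
        ≤ 6406 / 10000 * (135188 / 100000 * (e * exp (9 / 16 * l))) := by
          have : 0 < e * exp (9 / 16 * l) := by positivity
          nlinarith
      _ ≤ _ := by gcongr
  linarith

end Vals

open Vals in
theorem val_s {e : ℝ} (he : e ∈ Icc (173 / 1000 : ℝ) (708 / 1000)) :
    QB (1 - e ^ 2) (-2 * log e) (18 / 100 * (-2 * log e) - 1 / 10)
      (c0 * tt (-2 * log e) * (exp ((18 / 100 * (-2 * log e) - 1 / 10) / c0) - 1))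
      (355 / 1000 * e) ≤ PP (1 - e ^ 2) (355 / 1000 * e) := by
  have he0 : 0 < e := by linarith [he.1]
  have he1 : e < 1 := by linarith [he.2]
  have h1 := all he
  have h2 := ident e (-2 * log e) (exp (9 / 16 * log e))
  have h3 := PP_ge he0 he1
  have h4 := K_le he
  have hc1 := c0_le
  have ho : (355 / 1000 * e : ℝ) = 71 / 200 * e := by ring
  rw [ho] at h3 ⊢
  have hz0 : 0 < 1 - e ^ 2 := by nlinarith
  have hW : 0 < (e + 71 / 200 * (1 - e ^ 2)) ^ 3 * (1 + 71 / 200 * e * (1 - e ^ 2)) := by
    positivity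
  have hdn : (0 : ℝ) < dn := by unfold dn; norm_num
  have h5 : 0 ≤ (Bern.ev1 e CLl * (-2 * log e) + Bern.ev1 e Rl
      + Bern.ev1 e Gl * exp (9 / 16 * log e)) / dn := div_nonneg h1 hdn.le
  rw [← h2] at h5
  have hw : 0 < 1 - 71 / 200 * e := by linarith
  have h6 : QB (1 - e ^ 2) (-2 * log e) (18 / 100 * (-2 * log e) - 1 / 10)
      (c0 * tt (-2 * log e) * (exp ((18 / 100 * (-2 * log e) - 1 / 10) / c0) - 1))
      (71 / 200 * e)
      ≤ (1 - 71 / 200 * e) * (-2 * log e / 2 * Bq (1 - e ^ 2) (71 / 200 * e)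
          + (64061 / 100000) / 2 * Bq (1 - e ^ 2) (71 / 200 * e) ^ 2
          - (18 / 100 * (-2 * log e) - 1 / 10) * bq (1 - e ^ 2) (71 / 200 * e)
          + (7422 / 10000 - 866 / 1000 * exp (9 / 16 * log e)) * e) := by
    unfold QB
    apply mul_le_mul_of_nonneg_left _ hw.le
    have : c0 / 2 * Bq (1 - e ^ 2) (71 / 200 * e) ^ 2
        ≤ (64061 / 100000) / 2 * Bq (1 - e ^ 2) (71 / 200 * e) ^ 2 := by
      apply mul_le_mul_of_nonneg_right _ (sq_nonneg _)
      linarith
    linarith
  have h7 := mul_le_mul_of_nonneg_right h6 hW.le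
  have h8 : QB (1 - e ^ 2) (-2 * log e) (18 / 100 * (-2 * log e) - 1 / 10)
      (c0 * tt (-2 * log e) * (exp ((18 / 100 * (-2 * log e) - 1 / 10) / c0) - 1))
      (71 / 200 * e) * ((e + 71 / 200 * (1 - e ^ 2)) ^ 3 * (1 + 71 / 200 * e * (1 - e ^ 2)))
      ≤ PP (1 - e ^ 2) (71 / 200 * e)
        * ((e + 71 / 200 * (1 - e ^ 2)) ^ 3 * (1 + 71 / 200 * e * (1 - e ^ 2))) := by
    linarith
  exact le_of_mul_le_mul_right h8 hW

end BE
end Vale.Agent.P322
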