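import Vale.Agent.P322.BdElemD

/-!
# (BE3) the elementary inequality for `z ≥ 97/100`
-/

open Real Set Filter Topology

namespace Vale.Agent.P322
namespace BEC

/-- `b - 1` -/
noncomputable def b1f (ω z : ℝ) : ℝ := (1 + ω * z) * (1 - ω * (1 - (1 - ω) * z) / 5) - 1

/-- `b'` -/
noncomputable def bpf (ω z : ℝ) : ℝ :=
  (1 + ω * z) * (1 - ω * (1 - (1 - ω) * z) / 5)
    - (1 - ω) * z * (6 / 5 - 6 / 5 * (ω * (1 - (1 - ω) * z)) - 1 / 5 * (1 - ω) ^ 2 * z)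

/-- `q` -/
noncomputable def qf (z : ℝ) : ℝ := -log (1 - z) / 2 - log 2 + 1 / 2

/-- the lower term -/
noncomputable def lowf (ω z : ℝ) : ℝ :=
  qf z * bpf ω z + c0 * (bpf ω z * log (bpf ω z) - bpf ω z) + c0 * exp (-qf z / c0)

/-- the slack with the lower term -/
noncomputable def SS (ω z : ℝ) : ℝ :=
  PP ω z - (1 - ω) * (-log (1 - z) / 2 * b1f ω z + c0 / 2 * (b1f ω z) ^ 2 - lowf ω z)

/-- `∂ b / ∂ z` -/
noncomputable def b1d (ω z : ℝ) : ℝ :=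
  ω * (1 - ω * (1 - (1 - ω) * z) / 5) + (1 + ω * z) * (ω * (1 - ω) / 5)

/-- `-∂ (b' - b) / ∂ z` -/
noncomputable def Wf (ω z : ℝ) : ℝ := (1 - ω) ^ 2 / 5 * (6 - 2 * z + 14 * ω * z)

theorem c0_pos : 0 < c0 := by
  have : 0 < log 2 := log_pos (by norm_num)
  unfold c0; positivity

theorem c0_lb : 0.64060 < c0 := by
  have h := Real.log_two_gt_d9
  unfold c0
  nlinarith

theorem c0_ub : c0 < 0.64061 := by
  have h := Real.log_two_lt_d9
  have h2 := Real.log_two_gt_d9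
  unfold c0
  nlinarith

theorem hasDerivAt_b1f (ω z : ℝ) : HasDerivAt (b1f ω) (b1d ω z) z := by
  have h2 : HasDerivAt (fun t : ℝ => 1 + ω * t) ω z := by
    simpa using ((hasDerivAt_id z).const_mul ω).const_add 1
  have h3 : HasDerivAt (fun t : ℝ => 1 - (1 - ω) * t) (-(1 - ω)) z := by
    simpa using ((hasDerivAt_id z).const_mul (1 - ω)).const_sub 1
  have h4 := (h2.mul (((h3.const_mul ω).div_const 5).const_sub 1)).sub_const 1
  refine h4.congr_deriv ?_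
  unfold b1d
  ring

theorem bpf_eq (ω z : ℝ) : bpf ω z = b1f ω z + (1 - (1 - ω) * z *
    (6 / 5 - 6 / 5 * (ω * (1 - (1 - ω) * z)) - 1 / 5 * (1 - ω) ^ 2 * z)) := by
  unfold bpf b1f; ring

theorem hasDerivAt_bpf (ω z : ℝ) : HasDerivAt (bpf ω) (b1d ω z - Wf ω z) z := by
  have h3 : HasDerivAt (fun t : ℝ => 1 - (1 - ω) * t) (-(1 - ω)) z := by
    simpa using ((hasDerivAt_id z).const_mul (1 - ω)).const_sub 1
  have h5 : HasDerivAt (fun t : ℝ => (1 - ω) * t) (1 - ω) z := by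
    simpa using (hasDerivAt_id z).const_mul (1 - ω)
  have h6 : HasDerivAt (fun t : ℝ => 1 / 5 * (1 - ω) ^ 2 * t) (1 / 5 * (1 - ω) ^ 2) z := by
    simpa using (hasDerivAt_id z).const_mul (1 / 5 * (1 - ω) ^ 2)
  have h7 := (((h3.const_mul ω).const_mul (6 / 5)).const_sub (6 / 5)).sub h6
  have h8 := ((hasDerivAt_b1f ω z).add ((h5.mul h7).const_sub 1))
  have h9 : bpf ω = fun z => b1f ω z + (1 - (1 - ω) * z *
    (6 / 5 - 6 / 5 * (ω * (1 - (1 - ω) * z)) - 1 / 5 * (1 - ω) ^ 2 * z)) := by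
    funext z; exact bpf_eq ω z
  rw [h9]
  refine h8.congr_deriv ?_
  unfold Wf
  simp only [Pi.sub_apply]
  ring

theorem hasDerivAt_qf {z : ℝ} (hz : z < 1) : HasDerivAt qf (1 / (2 * (1 - z))) z := by
  have h1 : HasDerivAt (fun t : ℝ => 1 - t) (-1) z := by
    simpa using (hasDerivAt_id z).const_sub 1
  have h2 := ((((h1.log (by linarith)).neg).div_const 2).sub_const (log 2)).add_const (1 / 2)
  refine h2.congr_deriv ?_
  have : 1 - z ≠ 0 := by linarith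
  field_simp

theorem hasDerivAt_lowf {ω z : ℝ} (hz : z < 1) (hb : 0 < bpf ω z) :
    HasDerivAt (lowf ω) (1 / (2 * (1 - z)) * (bpf ω z - exp (-qf z / c0)) +
      (qf z + c0 * log (bpf ω z)) * (b1d ω z - Wf ω z)) z := by
  have hq := hasDerivAt_qf hz
  have hp := hasDerivAt_bpf ω z
  have h1 := (hq.mul hp).add (((hp.mul (hp.log hb.ne')).sub hp).const_mul c0)
  have h2 := (((hq.neg).div_const c0).exp).const_mul c0
  have h3 := h1.add h2
  refine h3.congr_deriv ?_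
  have : 1 - z ≠ 0 := by linarith
  have hc := c0_pos.ne'
  have hb' := hb.ne'
  simp only [Pi.neg_apply]
  field_simp
  ring

/-- derivative of the slack -/
theorem hasDerivAt_SS {ω z : ℝ} (hz0 : 0 ≤ z) (hz1 : z < 1) (hω0 : 0 < ω) (hω1 : ω < 1)
    (hb : 0 < bpf ω z) :
    HasDerivAt (SS ω) ((1 - ω) / (2 * (1 - z)) *
      (2 * (1 - z) * (ω * ath (z * √(ω * (1 - (1 - ω) * z)) / (1 - (1 - ω) * z)) /
        √(ω * (1 - (1 - ω) * z))) + (bpf ω z - b1f ω z) - exp (-qf z / c0)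
        - 2 * (1 - z) * Wf ω z * (qf z + c0 * log (bpf ω z))
        - 2 * (1 - z) * (log 2 - 1 / 2 + c0 * (b1f ω z - log (bpf ω z))) * b1d ω z)) z := by
  have h1 : HasDerivAt (fun t : ℝ => -log (1 - t) / 2) (1 / (2 * (1 - z))) z := by
    have h1 : HasDerivAt (fun t : ℝ => 1 - t) (-1) z := by
      simpa using (hasDerivAt_id z).const_sub 1
    refine (((h1.log (by linarith)).neg).div_const 2).congr_deriv ?_
    have : 1 - z ≠ 0 := by linarith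
    field_simp
  have hb1 := hasDerivAt_b1f ω z
  have h2 := (hasDerivAt_PP hz0 hz1 hω0 hω1).sub
    ((((h1.mul hb1).add ((hb1.pow 2).const_mul (c0 / 2))).sub
      (hasDerivAt_lowf hz1 hb)).const_mul (1 - ω))
  refine h2.congr_deriv ?_
  have h3 : 1 - z ≠ 0 := by linarith
  have hq : qf z = -log (1 - z) / 2 - log 2 + 1 / 2 := rfl
  set A := ath (z * √(ω * (1 - (1 - ω) * z)) / (1 - (1 - ω) * z)) with hA
  set m := √(ω * (1 - (1 - ω) * z)) with hm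
  set l := log (1 - z)
  set lb := log (bpf ω z)
  rw [hq]
  field_simp
  ring

/-! ### bounds -/

theorem ath_term {s ω : ℝ} (hs0 : 0 < s) (hs1 : s ≤ 0.17325) (h1 : 0.4 * s ≤ ω) (h2 : ω < 1) :
    1.465 - 3.265 * s ≤ ω * ath ((1 - s ^ 2) * √(ω * (1 - (1 - ω) * (1 - s ^ 2))) /
      (1 - (1 - ω) * (1 - s ^ 2))) / √(ω * (1 - (1 - ω) * (1 - s ^ 2))) := by
  have hω : 0 < ω := by nlinarith
  have hz0 : 0 ≤ 1 - s ^ 2 := by nlinarith
  have hz1 : 1 - s ^ 2 < 1 := by nlinarith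
  have hz1' : 1 - s ^ 2 ≤ 1 := hz1.le
  have hD := D_pos hz0 hz1 hω h2
  have hysq := y_sq hz0 hz1 hω h2
  have hy0 := y_nonneg hz0 hz1 hω h2
  have hy1 := y_lt_one hz0 hz1 hω h2
  have hath := le_ath hy0 hy1
  have hm : 0 < √(ω * (1 - (1 - ω) * (1 - s ^ 2))) := sqrt_pos.2 (by positivity)
  set z := 1 - s ^ 2 with hz
  set D := 1 - (1 - ω) * z with hDdef
  set m := √(ω * D) with hmdef
  set y := z * m / D with hy
  set x := z ^ 2 * ω / D with hx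
  have hx0 : 0 ≤ x := by positivity
  have hx1 : 0.944 - 1.59 * s ≤ x := by
    rw [hx, le_div_iff₀ hD, hDdef, hz]
    obtain ⟨t, ht⟩ : ∃ t, ω = 0.4 * s + t := ⟨ω - 0.4 * s, by ring⟩
    have ht0 : 0 ≤ t := by linarith
    have e1 : 0 ≤ (1 - s ^ 2) ^ 2 * (0.4 * s) - (0.944 - 1.59 * s) * (1 - (1 - 0.4 * s) * (1 - s ^ 2)) := by
      have : (1 - s ^ 2) ^ 2 * (0.4 * s) - (0.944 - 1.59 * s) * (1 - (1 - 0.4 * s) * (1 - s ^ 2))
        = s * (0.0224 - 0.308 * s + 1.1676 * s ^ 2 - 0.636 * s ^ 3 + 0.4 * s ^ 4) := by ring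
      rw [this]
      refine mul_nonneg hs0.le ?_
      nlinarith [sq_nonneg (s - 0.15), mul_nonneg hs0.le (sub_nonneg.2 hs1),
        mul_nonneg (sq_nonneg s) (sub_nonneg.2 hs1), mul_nonneg hs0.le (sq_nonneg (s - 0.15)),
        mul_nonneg (sq_nonneg s) (sq_nonneg (s - 0.15))]
    have e2 : 0 ≤ (1 - s ^ 2) ^ 2 - (0.944 - 1.59 * s) * (1 - s ^ 2) := by
      have : (1 - s ^ 2) ^ 2 - (0.944 - 1.59 * s) * (1 - s ^ 2)
        = (1 - s ^ 2) * (0.056 + 1.59 * s - s ^ 2) := by ring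
      rw [this]
      refine mul_nonneg hz0 ?_
      nlinarith
    rw [ht]
    nlinarith [mul_nonneg ht0 e2]
  have h3 : ω * (y + y ^ 3 / 3 + y ^ 5 / 5 + y ^ 7 / 7) / m
      = (ω * z / D) * (1 + x / 3 + x ^ 2 / 5 + x ^ 3 / 7) := by
    have : ω * (y + y ^ 3 / 3 + y ^ 5 / 5 + y ^ 7 / 7) / m
      = (ω * y / m) * (1 + y ^ 2 / 3 + (y ^ 2) ^ 2 / 5 + (y ^ 2) ^ 3 / 7) := by ring
    rw [this, hysq]
    congr 1
    rw [hy]
    field_simp
  have h4 : ω * (y + y ^ 3 / 3 + y ^ 5 / 5 + y ^ 7 / 7) / m ≤ ω * ath y / m := by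
    gcongr
  refine le_trans ?_ h4
  rw [h3]
  have h5 : x ≤ ω * z / D := by
    rw [hx]
    refine div_le_div_of_nonneg_right ?_ hD.le
    nlinarith [mul_nonneg hω.le hz0, mul_nonneg (mul_nonneg hω.le hz0) (sub_nonneg.2 hz1')]
  have h6 : x * (1 + x / 3 + x ^ 2 / 5 + x ^ 3 / 7) ≤
      ω * z / D * (1 + x / 3 + x ^ 2 / 5 + x ^ 3 / 7) := by gcongr
  refine le_trans ?_ h6
  have h7 : 1.0464 + 2.0534 * (x - 0.74) ≤ x * (1 + x / 3 + x ^ 2 / 5 + x ^ 3 / 7) := by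
    nlinarith [sq_nonneg (x - 0.74), mul_nonneg hx0 (sq_nonneg (x - 0.74)),
      mul_nonneg (mul_nonneg hx0 hx0) (sq_nonneg (x - 0.74))]
  nlinarith

theorem qf_eq {s : ℝ} : qf (1 - s ^ 2) = -log s - log 2 + 1 / 2 := by
  unfold qf
  have : 1 - (1 - s ^ 2) = s ^ 2 := by ring
  rw [this, log_pow]
  push_cast
  ring

theorem log10_lb : 2.3024 < log 10 := by
  have h1 : log 1.024 ≤ 0.024 := by
    have := log_le_sub_one_of_pos (show (0 : ℝ) < 1.024 by norm_num)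
    norm_num at this ⊢; linarith
  have h2 : log 1.024 + 3 * log 10 = 10 * log 2 := by
    rw [← log_rpow (by norm_num) (x := 10), ← log_rpow (by norm_num) (x := 2), ← log_mul (by norm_num) (by positivity)]
    congr 1
    norm_num
  have h3 := Real.log_two_gt_d9
  linarith

theorem log10_ub : log 10 < 2.3026 := by
  have h1 : 0.0237 ≤ log 1.024 := by
    have := le_log_one_add_of_nonneg (show (0 : ℝ) ≤ 0.024 by norm_num)
    norm_num at this ⊢; linarith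
  have h2 : log 1.024 + 3 * log 10 = 10 * log 2 := by
    rw [← log_rpow (by norm_num) (x := 10), ← log_rpow (by norm_num) (x := 2), ← log_mul (by norm_num) (by positivity)]
    congr 1
    norm_num
  have h3 := Real.log_two_lt_d9
  linarith

theorem inv_c0_lb : 1.5610 < 1 / c0 := by
  rw [lt_div_iff₀ c0_pos]
  have := c0_ub
  linarith

theorem inv_c0_ub : 1 / c0 < 1.5611 := by
  rw [div_lt_iff₀ c0_pos]
  have := c0_lb
  linarith

theorem exp_tangent {β s : ℝ} (hβ0 : 0 ≤ β) (hβ1 : β ≤ 1) (hs : 0 < s) :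
    exp (β * log s) ≤ exp (-(β * log 10)) * (1 - β + 10 * β * s) := by
  have h1 := rpow_one_add_le_one_add_mul_self (s := 10 * s - 1) (by linarith) hβ0 hβ1
  have h2 : (1 : ℝ) + (10 * s - 1) = 10 * s := by ring
  rw [h2, rpow_def_of_pos (by positivity), log_mul (by norm_num) hs.ne'] at h1
  have h3 : exp (β * log s) = exp (-(β * log 10)) * exp ((log 10 + log s) * β) := by
    rw [← exp_add]; congr 1; ring
  rw [h3]
  gcongr
  linarith

theorem thr_ub {s : ℝ} (hs0 : 0 < s) : 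
    exp (-qf (1 - s ^ 2) / c0) ≤ 0.3716 * s * (0.4390 + 5.611 * s) := by
  have hc := c0_pos
  have hi1 := inv_c0_lb
  have hi2 := inv_c0_ub
  set β := 1 / c0 - 1 with hβ
  have h1 : exp (-qf (1 - s ^ 2) / c0) = s * (exp (β * log s) * exp ((log 2 - 1 / 2) / c0)) := by
    rw [qf_eq, ← exp_add]
    nth_rewrite 2 [← exp_log hs0]
    rw [← exp_add]
    congr 1
    rw [hβ]
    field_simp
    ring
  have h2 := exp_tangent (β := β) (s := s) (by linarith) (by linarith) hs0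
  rw [h1]
  have h3 : exp (-(β * log 10)) * exp ((log 2 - 1 / 2) / c0) ≤ 0.3716 := by
    rw [← exp_add]
    have h4 : -(β * log 10) + (log 2 - 1 / 2) / c0 ≤ -1 + 0.0099 := by
      have := log10_lb
      have := Real.log_two_lt_d9
      have h5 : (log 2 - 1 / 2) / c0 = (log 2 - 1 / 2) * (1 / c0) := by ring
      rw [h5]
      have h6 : (log 2 - 1 / 2) * (1 / c0) ≤ 0.1931471808 * 1.5611 := by
        have := Real.log_two_gt_d9
        gcongr <;> linarith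
      have h7 : 0.5610 * 2.3024 ≤ β * log 10 := by
        gcongr <;> linarith
      linarith
    refine (exp_le_exp.2 h4).trans ?_
    have h8 := Real.exp_one_gt_d9
    have h9 : exp (-1 + 0.0099) = 1 / (exp 1 * exp (-0.0099)) := by
      rw [← exp_add, one_div, ← exp_neg]; congr 1; norm_num
    rw [h9, div_le_iff₀ (by positivity)]
    have h10 := add_one_le_exp (-0.0099 : ℝ)
    nlinarith
  have h4 : 1 - β + 10 * β * s ≤ 0.4390 + 5.611 * s := by nlinarith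
  have h5 : 0 ≤ 1 - β + 10 * β * s := by
    have : 0 ≤ β * s := mul_nonneg (by linarith) hs0.le
    linarith
  calc s * (exp (β * log s) * exp ((log 2 - 1 / 2) / c0))
      ≤ s * ((exp (-(β * log 10)) * (1 - β + 10 * β * s)) * exp ((log 2 - 1 / 2) / c0)) := by
        gcongr
    _ = s * ((exp (-(β * log 10)) * exp ((log 2 - 1 / 2) / c0)) * (1 - β + 10 * β * s)) := by ring
    _ ≤ s * (0.3716 * (0.4390 + 5.611 * s)) := by gcongr
    _ = _ := by ring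

theorem inv_thr_ub {s : ℝ} (hs0 : 0 < s) : 
    s ^ 2 / exp (-qf (1 - s ^ 2) / c0) ≤ 0.2694 * (0.5611 + 4.39 * s) := by
  have hc := c0_pos
  have hi1 := inv_c0_lb
  have hi2 := inv_c0_ub
  set β := 2 - 1 / c0 with hβ
  have h1 : s ^ 2 / exp (-qf (1 - s ^ 2) / c0) = exp (β * log s) * exp (-((log 2 - 1 / 2) / c0)) := by
    rw [qf_eq, div_eq_mul_inv, ← exp_neg, ← exp_add]
    have : s ^ 2 = exp (2 * log s) := by
      rw [mul_comm, exp_mul, exp_log hs0]; norm_num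
    rw [this, ← exp_add]
    congr 1
    rw [hβ]
    field_simp
    ring
  have h2 := exp_tangent (β := β) (s := s) (by linarith) (by linarith) hs0
  rw [h1]
  have h3 : exp (-(β * log 10)) * exp (-((log 2 - 1 / 2) / c0)) ≤ 0.2694 := by
    rw [← exp_add]
    have h4 : -(β * log 10) + -((log 2 - 1 / 2) / c0) ≤ -(1.3120) := by
      have := log10_lb
      have := Real.log_two_lt_d9
      have h5 : (log 2 - 1 / 2) / c0 = (log 2 - 1 / 2) * (1 / c0) := by ring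
      rw [h5]
      have h6 : 0.1931471800 * 1.5610 ≤ (log 2 - 1 / 2) * (1 / c0) := by
        have := Real.log_two_gt_d9
        gcongr <;> linarith
      have h7 : 0.4389 * 2.3024 ≤ β * log 10 := by
        gcongr <;> linarith
      linarith
    refine (exp_le_exp.2 h4).trans ?_
    have h8 := Real.exp_one_gt_d9
    have h9 : exp (-(1.3120) : ℝ) = 1 / (exp 1 * exp 0.312) := by
      rw [← exp_add, one_div, ← exp_neg]; congr 1; norm_num
    rw [h9, div_le_iff₀ (by positivity)]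
    have h10 : 1 + 0.312 + 0.312 ^ 2 / 2 + 0.312 ^ 3 / 6 ≤ exp (0.312 : ℝ) := by
      have := Real.sum_le_exp_of_nonneg (show (0:ℝ) ≤ 0.312 by norm_num) 4
      simp [Finset.sum_range_succ, Nat.factorial] at this
      norm_num at this ⊢
      linarith
    nlinarith
  have h4 : 1 - β + 10 * β * s ≤ 0.5611 + 4.39 * s := by nlinarith
  have h5 : 0 ≤ 1 - β + 10 * β * s := by
    have : 0 ≤ β * s := mul_nonneg (by linarith) hs0.le
    linarith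
  calc (exp (β * log s) * exp (-((log 2 - 1 / 2) / c0)))
      ≤ ((exp (-(β * log 10)) * (1 - β + 10 * β * s)) * exp (-((log 2 - 1 / 2) / c0))) := by
        gcongr
    _ = ((exp (-(β * log 10)) * exp (-((log 2 - 1 / 2) / c0))) * (1 - β + 10 * β * s)) := by ring
    _ ≤ (0.2694 * (0.5611 + 4.39 * s)) := by gcongr

theorem poly1 {s ω : ℝ} (hs0 : 0 ≤ s) (hs1 : s ≤ 0.17325) (h1 : 0.4 * s ≤ ω) (h2 : ω ≤ 1) :
    0 ≤ 2 * s ^ 2 * (1.465 - 3.265 * s) + 0.6 * ω + 0.4 * ω ^ 2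
      + 0.8 * s ^ 2 * ((1 - ω) ^ 2 * (1 + 3.4 * ω)) - 0.3716 * s * (0.4390 + 5.611 * s)
      - 0.1538 * (0.5611 + 4.39 * s) * (1.6 * ω + 1.6 * ω ^ 2 + 0.8 * s ^ 2 * (1 + 1.5 * ω))
      + 0.3502 * s ^ 2 - 2.4 * s ^ 2 * (0.0535 + 0.885 * ω + 0.641 * ω ^ 2) := by
  obtain ⟨t, ht⟩ : ∃ t, ω = 0.4 * s + t := ⟨ω - 0.4 * s, by ring⟩
  have ht0 : 0 ≤ t := by linarith
  have hω0 : 0 ≤ ω := by linarith [mul_nonneg (by norm_num : (0:ℝ) ≤ 0.4) hs0]
  have hw3 : 1 + 1.4 * ω - 5.8 * ω ^ 2 ≤ (1 - ω) ^ 2 * (1 + 3.4 * ω) := by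
    nlinarith [pow_nonneg hω0 3]
  have hs2 : 0 ≤ s ^ 2 := sq_nonneg s
  have key : 0 ≤ (2 * s * (1.465 - 3.265 * s) + 0.8 * s - 0.3716 * (0.4390 + 5.611 * s)
      - 0.1538 * (0.5611 + 4.39 * s) * (0.8 * s) + 0.3502 * s - 2.4 * s * 0.0535)
      + 0.4 * (0.6 + 1.12 * s ^ 2 - 0.1538 * (0.5611 + 4.39 * s) * (1.6 + 1.2 * s ^ 2)
          - 2.4 * s ^ 2 * 0.885)
      + 0.16 * s * (0.4 - 4.64 * s ^ 2 - 0.1538 * (0.5611 + 4.39 * s) * 1.6
          - 2.4 * s ^ 2 * 0.641) := by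
    nlinarith [mul_nonneg hs0 (sub_nonneg.2 hs1), mul_nonneg hs2 (sub_nonneg.2 hs1),
      mul_nonneg (mul_nonneg hs0 hs0) hs0]
  have key2 : 0 ≤ (0.6 + 1.12 * s ^ 2 - 0.1538 * (0.5611 + 4.39 * s) * (1.6 + 1.2 * s ^ 2)
          - 2.4 * s ^ 2 * 0.885)
      + (ω + 0.4 * s) * (0.4 - 4.64 * s ^ 2 - 0.1538 * (0.5611 + 4.39 * s) * 1.6
          - 2.4 * s ^ 2 * 0.641) := by
    have hc2 : 0 ≤ (0.4 - 4.64 * s ^ 2 - 0.1538 * (0.5611 + 4.39 * s) * 1.6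
        - 2.4 * s ^ 2 * 0.641) + 0.12 := by
      nlinarith [mul_nonneg hs0 (sub_nonneg.2 hs1)]
    have hc1 : 0 ≤ (0.6 + 1.12 * s ^ 2 - 0.1538 * (0.5611 + 4.39 * s) * (1.6 + 1.2 * s ^ 2)
        - 2.4 * s ^ 2 * 0.885) - 0.2 := by
      nlinarith [mul_nonneg hs0 (sub_nonneg.2 hs1), mul_nonneg hs2 (sub_nonneg.2 hs1)]
    have hx : 0 ≤ ω + 0.4 * s := by linarith [mul_nonneg (by norm_num : (0:ℝ) ≤ 0.4) hs0]
    nlinarith [mul_nonneg hx hc2]
  nlinarith [mul_nonneg hs0 key, mul_nonneg ht0 key2, mul_le_mul_of_nonneg_left hw3 hs2]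

/-- lower bound of `b'` -/
theorem bpf_lb {ω z : ℝ} (hz0 : 0.97 ≤ z) (hz1 : z ≤ 1) (hω0 : 0 ≤ ω) (hω1 : ω ≤ 1) :
    1.5 * ω ≤ bpf ω z := by
  obtain ⟨e, rfl⟩ : ∃ e, z = 1 - e := ⟨1 - z, by ring⟩
  have he0 : 0 ≤ e := by linarith
  have he1 : e ≤ 0.03 := by linarith
  have h : bpf ω (1 - e) - 1.5 * ω = 0.8 * e * (1 - ω) + 0.2 * e ^ 2 +
      ω * (0.1 - 1.8 * e ^ 2 + 0.8 * e) + 1.6 * ω ^ 2 * (1 - ω) - e * ω ^ 2 * (4.8 - 3.2 * ω)
      + 1.6 * e ^ 2 * ω ^ 2 * (2 - ω) := by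
    unfold bpf; ring
  have h1 : 0 ≤ 1.6 * e ^ 2 * ω ^ 2 * (2 - ω) := by
    have : 0 ≤ 2 - ω := by linarith
    positivity
  have h2 : e * ω ^ 2 * (4.8 - 3.2 * ω) ≤ 0.03 * ω ^ 2 * (4.8 - 3.2 * ω) := by
    have : 0 ≤ 4.8 - 3.2 * ω := by linarith
    gcongr
  have h3 : 0 ≤ 0.8 * e * (1 - ω) := by
    have : 0 ≤ 1 - ω := by linarith
    positivity
  have h4 : 0 ≤ ω * (0.1 - 1.8 * e ^ 2 + 0.8 * e) - ω * 0.09 := by
    have : 0 ≤ 0.01 - 1.8 * e ^ 2 + 0.8 * e := by nlinarith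
    nlinarith
  have h5 : 0 ≤ ω * (0.09 + 1.6 * ω * (1 - ω) - 0.03 * ω * (4.8 - 3.2 * ω)) := by
    refine mul_nonneg hω0 ?_
    nlinarith [mul_nonneg hω0 (sub_nonneg.2 hω1)]
  nlinarith [sq_nonneg e]

theorem bpf_ub {ω z : ℝ} (hz1 : z ≤ 1) (hz0 : 0.97 ≤ z) (hω0 : 0 ≤ ω)
    (he : (1 - z) ^ 2 / 5 ≤ 1.2 * (1 - z) * ω) :
    bpf ω z ≤ 1.6 * ω + 1.6 * ω ^ 2 + 0.8 * (1 - z) * (1 + 1.5 * ω) := by
  obtain ⟨e, rfl⟩ : ∃ e, z = 1 - e := ⟨1 - z, by ring⟩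
  have he0 : 0 ≤ e := by linarith
  have he1 : e ≤ 0.03 := by linarith
  have h : (1.6 * ω + 1.6 * ω ^ 2 + 0.8 * (1 - (1 - e)) * (1 + 1.5 * ω) + (1 - (1 - e)) ^ 2 / 5)
      - bpf ω (1 - e) = 1.2 * e * ω + 1.8 * e ^ 2 * ω + 1.6 * ω ^ 3 * ((1 - e) ^ 2)
        + e * ω ^ 2 * (4.8 - 3.2 * e) := by
    unfold bpf; ring
  have h1 : 0 ≤ 4.8 - 3.2 * e := by linarith
  have h2 : 0 ≤ 1.8 * e ^ 2 * ω + 1.6 * ω ^ 3 * ((1 - e) ^ 2)
        + e * ω ^ 2 * (4.8 - 3.2 * e) := by positivity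
  have h3 : (1 - (1 - e)) ^ 2 / 5 ≤ 1.2 * e * ω := by
    have : 1 - (1 - e) = e := by ring
    rw [this] at he ⊢
    exact he
  linarith

theorem Bd_lb {ω z : ℝ} (hz0 : 0.97 ≤ z) (hz1 : z ≤ 1) (hω0 : 0 ≤ ω) (hω1 : ω ≤ 1) :
    0.6 * ω + 0.4 * ω ^ 2 + 0.8 * (1 - z) * ((1 - ω) ^ 2 * (1 + 3.4 * ω))
      ≤ bpf ω z - b1f ω z := by
  obtain ⟨e, rfl⟩ : ∃ e, z = 1 - e := ⟨1 - z, by ring⟩
  have he0 : 0 ≤ e := by linarith
  have he1 : e ≤ 0.03 := by linarith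
  have h : bpf ω (1 - e) - b1f ω (1 - e) = 0.6 * ω + 0.4 * ω ^ 2 + 1.4 * ω ^ 2 * (1 - ω)
      + (1 - ω) ^ 2 / 5 * e * (4 + 14 * ω + (1 - 7 * ω) * e) := by
    unfold bpf b1f; ring
  rw [h]
  have h1 : 0 ≤ 1.4 * ω ^ 2 * (1 - ω) := by
    have : 0 ≤ 1 - ω := by linarith
    positivity
  have h2 : 0.8 * (1 - (1 - e)) * ((1 - ω) ^ 2 * (1 + 3.4 * ω))
      ≤ (1 - ω) ^ 2 / 5 * e * (4 + 14 * ω + (1 - 7 * ω) * e) := by
    have h3 : 4 * (1 + 3.4 * ω) ≤ 4 + 14 * ω + (1 - 7 * ω) * e := by nlinarith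
    have h4 : 0 ≤ (1 - ω) ^ 2 / 5 * e := by positivity
    have h5 := mul_le_mul_of_nonneg_left h3 h4
    have h6 : (1 - ω) ^ 2 / 5 * e * (4 * (1 + 3.4 * ω)) =
      0.8 * (1 - (1 - e)) * ((1 - ω) ^ 2 * (1 + 3.4 * ω)) := by ring
    linarith
  linarith

theorem Wf_nonneg {ω z : ℝ} (hz0 : 0 ≤ z) (hz1 : z ≤ 1) (hω0 : 0 ≤ ω) : 0 ≤ Wf ω z := by
  unfold Wf
  have : 0 ≤ ω * z := by positivity
  have : 0 ≤ (6 - 2 * z + 14 * ω * z) := by nlinarith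
  positivity

theorem Wf_ub {ω z : ℝ} (hz0 : 0.97 ≤ z) (hz1 : z ≤ 1) (hω0 : 0 ≤ ω) (hω1 : ω ≤ 1) :
    Wf ω z ≤ 0.891 := by
  unfold Wf
  have h1 : 6 - 2 * z + 14 * ω * z ≤ 4.06 + 14 * ω := by nlinarith
  have h2 : (1 - ω) ^ 2 / 5 * (6 - 2 * z + 14 * ω * z) ≤ (1 - ω) ^ 2 / 5 * (4.06 + 14 * ω) := by
    gcongr
  refine h2.trans ?_
  nlinarith [mul_nonneg hω0 (sq_nonneg (ω - 0.14)), sq_nonneg (ω - 0.14)]

theorem b1d_nonneg {ω z : ℝ} (hz0 : 0 ≤ z) (hz1 : z ≤ 1) (hω0 : 0 ≤ ω) (hω1 : ω ≤ 1) :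
    0 ≤ b1d ω z := by
  unfold b1d
  have h1 : 0 ≤ 1 - ω := by linarith
  have h2 : (1 - (1 - ω) * z) ≤ 1 := by nlinarith [mul_nonneg h1 hz0]
  have h3 : ω * (1 - (1 - ω) * z) ≤ 1 := by
    have : 0 ≤ 1 - (1 - ω) * z := by nlinarith
    nlinarith
  have h4 : 0 ≤ 1 - ω * (1 - (1 - ω) * z) / 5 := by linarith
  positivity

theorem b1d_ub {ω z : ℝ} (hz0 : 0 ≤ z) (hz1 : z ≤ 1) (hω0 : 0 ≤ ω) (hω1 : ω ≤ 1) :
    b1d ω z ≤ 1.2 * ω := by
  unfold b1d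
  have h1 : 0 ≤ 1 - ω := by linarith
  have h3 : 0 ≤ ω * (1 - (1 - ω) * z) := by
    have : 0 ≤ 1 - (1 - ω) * z := by nlinarith
    positivity
  have h4 : ω * (1 - ω * (1 - (1 - ω) * z) / 5) ≤ ω := by nlinarith
  have h5 : (1 + ω * z) * (ω * (1 - ω) / 5) ≤ 0.2 * ω := by
    have h6 : (1 + ω * z) * (1 - ω) ≤ 1 := by nlinarith [mul_nonneg hω0 h1]
    nlinarith
  linarith

theorem b1f_ub {ω z : ℝ} (hz0 : 0 ≤ z) (hz1 : z ≤ 1) (hω0 : 0 ≤ ω) (hω1 : ω ≤ 1) :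
    b1f ω z ≤ ω * z := by
  unfold b1f
  have h1 : 0 ≤ 1 - ω := by linarith
  have h3 : 0 ≤ ω * (1 - (1 - ω) * z) := by
    have : 0 ≤ 1 - (1 - ω) * z := by nlinarith
    positivity
  have h4 : 0 ≤ ω * z := by positivity
  nlinarith [mul_nonneg h3 h4]

/-- `thr ≤ b'` -/
theorem thr_le_bpf {s ω : ℝ} (hs0 : 0 < s) (hs1 : s ^ 2 ≤ 0.03) (h1 : 0.4 * s ≤ ω) (h2 : ω < 1) :
    exp (-qf (1 - s ^ 2) / c0) ≤ bpf ω (1 - s ^ 2) := by
  have hs2 : s ≤ 0.17325 := by nlinarith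
  have h3 := thr_ub hs0
  have h4 := bpf_lb (ω := ω) (z := 1 - s ^ 2) (by linarith) (by nlinarith) (by linarith) h2.le
  have h5 : 0.3716 * s * (0.4390 + 5.611 * s) ≤ 0.6 * s := by nlinarith
  linarith

theorem V_bound {ω b1 b' : ℝ} (hω : 0 < ω) (hω1 : ω ≤ 1) (hb1 : b1 ≤ ω) (hb' : 1.5 * ω ≤ b')
    {d : ℝ} (hd0 : 0 ≤ d) (hd : d ≤ 1.2 * ω) :
    (log 2 - 1 / 2 + c0 * (b1 - log b')) * d ≤ 1.2 * (0.0535 + 0.885 * ω + 0.641 * ω ^ 2) := by
  have hc := c0_pos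
  have hc1 := c0_lb
  have hc2 := c0_ub
  have hl1 := Real.log_two_gt_d9
  have hl2 := Real.log_two_lt_d9
  have h1 : log (1.5 * ω) ≤ log b' := log_le_log (by positivity) hb'
  have h2 : log (1.5 * ω) = log (12 * ω) - 3 * log 2 := by
    have : (1.5 : ℝ) * ω = 12 * ω / 2 ^ 3 := by ring
    rw [this, log_div (by positivity) (by positivity), log_pow]
    push_cast; ring
  have h3 : 1 - 1 / (12 * ω) ≤ log (12 * ω) := by
    have := one_sub_inv_le_log_of_pos (show 0 < 12 * ω by positivity)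
    rwa [← one_div] at this
  set V := log 2 - 1 / 2 + c0 * (ω + 3 * log 2 - 1 + 1 / (12 * ω)) with hV
  have h4 : log 2 - 1 / 2 + c0 * (b1 - log b') ≤ V := by
    have : b1 - log b' ≤ ω + 3 * log 2 - 1 + 1 / (12 * ω) := by linarith
    have := mul_le_mul_of_nonneg_left this hc.le
    linarith
  have h5 : 0 ≤ 1 / (12 * ω) := by positivity
  have hV0 : 0 ≤ V := by
    have : 0 ≤ c0 * (ω + 3 * log 2 - 1 + 1 / (12 * ω)) := by
      refine mul_nonneg hc.le ?_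
      linarith
    linarith
  calc (log 2 - 1 / 2 + c0 * (b1 - log b')) * d ≤ V * d := by gcongr
    _ ≤ V * (1.2 * ω) := by gcongr
    _ = 1.2 * ((log 2 - 1 / 2 + c0 * (3 * log 2 - 1)) * ω + c0 * ω ^ 2 + c0 / 12) := by
        rw [hV]; field_simp; ring
    _ ≤ _ := by
        have h6 : log 2 - 1 / 2 + c0 * (3 * log 2 - 1) ≤ 0.885 := by nlinarith
        have h7 : (log 2 - 1 / 2 + c0 * (3 * log 2 - 1)) * ω ≤ 0.885 * ω := by gcongr
        have h8 : c0 * ω ^ 2 ≤ 0.641 * ω ^ 2 := by gcongr; linarith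
        linarith

theorem Lam_bound {q b' thr W s : ℝ} (hthr : thr = exp (-q / c0)) (hb' : thr ≤ b')
    (hW0 : 0 ≤ W) (hW : W ≤ 0.891)
    (hs : s ^ 2 / thr ≤ 0.2694 * (0.5611 + 4.39 * s)) (hs0 : 0 ≤ s) :
    2 * s ^ 2 * W * (q + c0 * log b') ≤ 0.1538 * (0.5611 + 4.39 * s) * b' - 0.3502 * s ^ 2 := by
  have hc := c0_pos
  have hc1 := c0_lb
  have hc2 := c0_ub
  have hl1 := Real.log_two_gt_d9
  have hl2 := Real.log_two_lt_d9
  have ht : 0 < thr := by rw [hthr]; exact exp_pos _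
  have hb : 0 < b' := lt_of_lt_of_le ht hb'
  have hq : q = -c0 * log thr := by
    rw [hthr, log_exp]; field_simp
  have h1 : q + c0 * log b' = c0 * (log (b' / (2 * thr)) + log 2) := by
    rw [hq, log_div hb.ne' (by positivity), log_mul (by norm_num) ht.ne']
    ring
  have h2 : log (b' / (2 * thr)) ≤ b' / (2 * thr) - 1 := log_le_sub_one_of_pos (by positivity)
  set U := b' / (2 * thr) - 1 + log 2 with hU
  have h3 : q + c0 * log b' ≤ c0 * U := by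
    rw [h1]; gcongr; linarith
  have h4 : 1 ≤ b' / thr := by rwa [le_div_iff₀ ht, one_mul]
  have h5 : b' / (2 * thr) = b' / thr / 2 := by field_simp
  have hU0 : 0 ≤ U := by rw [hU, h5]; linarith
  have h6 : 2 * s ^ 2 * W * (q + c0 * log b') ≤ 2 * s ^ 2 * W * (c0 * U) := by gcongr
  have h7 : 2 * s ^ 2 * W * (c0 * U) ≤ 2 * s ^ 2 * 0.891 * (0.64061 * U) := by gcongr
  have h8 : 2 * s ^ 2 * 0.891 * (0.64061 * U)
      = 0.57078351 * (s ^ 2 / thr) * b' - 1.14156702 * (1 - log 2) * s ^ 2 := by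
    rw [hU]; field_simp; ring
  have h9 : 0.57078351 * (s ^ 2 / thr) * b' ≤
      0.57078351 * (0.2694 * (0.5611 + 4.39 * s)) * b' := by gcongr
  have h10 : 0.57078351 * (0.2694 * (0.5611 + 4.39 * s)) * b'
      ≤ 0.1538 * (0.5611 + 4.39 * s) * b' := by
    have : 0 ≤ (0.5611 + 4.39 * s) * b' := by positivity
    nlinarith
  have h11 : 0.3502 * s ^ 2 ≤ 1.14156702 * (1 - log 2) * s ^ 2 := by
    gcongr; nlinarith
  linarith

/-- the derivative of the slack is nonnegative -/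
theorem deriv_ineq {s ω : ℝ} (hs0 : 0 < s) (hs1 : s ^ 2 ≤ 0.03) (h1 : 0.4 * s ≤ ω) (h2 : ω < 1) :
    0 ≤ 2 * (1 - (1 - s ^ 2)) * (ω * ath ((1 - s ^ 2) * √(ω * (1 - (1 - ω) * (1 - s ^ 2))) /
        (1 - (1 - ω) * (1 - s ^ 2))) / √(ω * (1 - (1 - ω) * (1 - s ^ 2))))
      + (bpf ω (1 - s ^ 2) - b1f ω (1 - s ^ 2)) - exp (-qf (1 - s ^ 2) / c0)
      - 2 * (1 - (1 - s ^ 2)) * Wf ω (1 - s ^ 2) * (qf (1 - s ^ 2) + c0 * log (bpf ω (1 - s ^ 2)))
      - 2 * (1 - (1 - s ^ 2)) * (log 2 - 1 / 2 +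
          c0 * (b1f ω (1 - s ^ 2) - log (bpf ω (1 - s ^ 2)))) * b1d ω (1 - s ^ 2) := by
  have hs2 : s ≤ 0.17325 := by nlinarith
  have hω : 0 < ω := by linarith
  have hsq : 0 ≤ s ^ 2 := sq_nonneg s
  have hz0 : 0.97 ≤ 1 - s ^ 2 := by linarith
  have hz0' : 0 ≤ 1 - s ^ 2 := by linarith
  have hz1 : 1 - s ^ 2 ≤ 1 := by linarith
  have hthr := thr_le_bpf hs0 hs1 h1 h2
  have ha := ath_term hs0 hs2 h1 h2
  have hb := bpf_lb hz0 hz1 hω.le h2.le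
  have hbu := bpf_ub (ω := ω) hz1 hz0 hω.le (by
    have : 1 - (1 - s ^ 2) = s ^ 2 := by ring
    rw [this]
    nlinarith [mul_nonneg hsq (sub_nonneg.2 h1), mul_nonneg hsq hs0.le,
      mul_nonneg (mul_nonneg hsq hs0.le) (sub_nonneg.2 hs2)])
  have hBd := Bd_lb hz0 hz1 hω.le h2.le
  have hb1u : b1f ω (1 - s ^ 2) ≤ ω := by
    have := b1f_ub (ω := ω) hz0' hz1 hω.le h2.le
    nlinarith
  have hV := V_bound hω h2.le hb1u hb (b1d_nonneg hz0' hz1 hω.le h2.le)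
    (b1d_ub hz0' hz1 hω.le h2.le)
  have hL := Lam_bound (s := s) rfl hthr (Wf_nonneg (ω := ω) hz0' hz1 hω.le)
    (Wf_ub hz0 hz1 hω.le h2.le) (inv_thr_ub hs0) hs0.le
  have ht := thr_ub hs0
  have hp := poly1 hs0.le hs2 h1 h2.le
  have e1 : 1 - (1 - s ^ 2) = s ^ 2 := by ring
  rw [e1] at hbu hBd ⊢
  set A := ω * ath ((1 - s ^ 2) * √(ω * (1 - (1 - ω) * (1 - s ^ 2))) /
        (1 - (1 - ω) * (1 - s ^ 2))) / √(ω * (1 - (1 - ω) * (1 - s ^ 2)))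
  have k1 : 2 * s ^ 2 * (1.465 - 3.265 * s) ≤ 2 * s ^ 2 * A := by gcongr
  have k2 : 0.1538 * (0.5611 + 4.39 * s) * bpf ω (1 - s ^ 2) ≤
      0.1538 * (0.5611 + 4.39 * s) *
        (1.6 * ω + 1.6 * ω ^ 2 + 0.8 * s ^ 2 * (1 + 1.5 * ω)) := by gcongr
  have k3 := mul_le_mul_of_nonneg_left hV (show 0 ≤ 2 * s ^ 2 by positivity)
  nlinarith

theorem log_1_6 : 2 * log 2 - log 2.5 ≤ 0.4701 := by
  have h1 : log 1.024 ≤ 0.024 := by
    have := log_le_sub_one_of_pos (show (0 : ℝ) < 1.024 by norm_num)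
    norm_num at this ⊢; linarith
  have h2 : log 1.024 + 3 * log 2.5 = 4 * log 2 := by
    have h : log (1.024 * 2.5 ^ 3) = log (2 ^ 4) := by norm_num
    rw [log_mul (by norm_num) (by norm_num), log_pow, log_pow] at h
    push_cast at h
    exact h
  have h3 := Real.log_two_lt_d9
  linarith

theorem log_bound_a {s : ℝ} (hs : 0 < s) : s * (-log s) ≤ 0.1768 + 0.7329 * s := by
  have h1 : log 5.657 ≤ 1.7329 := by
    have h2 : (2 : ℝ) * log 5.657 = 5 * log 2 + log (5.657 ^ 2 / 32) := by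
      rw [log_div (by norm_num) (by norm_num), log_pow]
      have : log (32 : ℝ) = 5 * log 2 := by
        rw [show (32 : ℝ) = 2 ^ 5 by norm_num, log_pow]; push_cast; ring
      rw [this]; push_cast; ring
    have h3 := log_le_sub_one_of_pos (show (0 : ℝ) < 5.657 ^ 2 / 32 by norm_num)
    have h4 := Real.log_two_lt_d9
    norm_num at h3 h2 ⊢
    linarith
  have h2 := log_le_sub_one_of_pos (show (0 : ℝ) < 1 / (5.657 * s) by positivity)
  rw [one_div, log_inv, log_mul (by norm_num) hs.ne'] at h2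
  have h3 : s * (5.657 * s)⁻¹ = 1 / 5.657 := by field_simp
  have h4 : s * (-log s) ≤ s * (log 5.657 + (5.657 * s)⁻¹ - 1) := by
    gcongr; linarith
  have h5 : s * (log 5.657 + (5.657 * s)⁻¹ - 1) = s * (log 5.657 - 1) + 1 / 5.657 := by
    rw [← h3]; ring
  have h6 : s * (log 5.657 - 1) ≤ s * 0.7329 := by gcongr; linarith
  have h7 : (1 : ℝ) / 5.657 ≤ 0.1768 := by norm_num
  linarith

/-- one variable inequality -/
theorem one_var {s T : ℝ} (hs0 : 0 < s) (hs1 : s ^ 2 ≤ 0.03) (hT0 : 0 < T)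
    (hT : T ^ 2 = 1 + 2.5 * s - s ^ 2) :
    T * (2 * log (T + (1 - s ^ 2)) - log s - log (2.5 + s - s ^ 3))
      ≤ -log s * (1 + s ^ 2) + (1 - s ^ 2) := by
  have hs2 : s ≤ 0.17325 := by nlinarith
  have hT1 : 1 ≤ T := by nlinarith
  have hTu : T ≤ 1 + 1.25 * s - s ^ 2 := by
    have h1 : T ^ 2 ≤ (1 + 1.25 * s - s ^ 2) ^ 2 := by
      rw [hT]
      nlinarith [mul_nonneg (sq_nonneg s) (sub_nonneg.2 hs2), sq_nonneg (s ^ 2)]
    have h2 : 0 ≤ 1 + 1.25 * s - s ^ 2 := by nlinarith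
    nlinarith
  have hℓ : 0 ≤ -log s := by
    have := log_nonpos hs0.le (by linarith); linarith
  have hsℓ := log_bound_a hs0
  have h1 : log (T + (1 - s ^ 2)) ≤ log 2 + (0.625 * s - s ^ 2) := by
    have h2 : T + (1 - s ^ 2) ≤ 2 * (1 + (0.625 * s - s ^ 2)) := by linarith
    have h3 : 0 < 1 + (0.625 * s - s ^ 2) := by nlinarith
    have h4 := log_le_log (by nlinarith) h2
    rw [log_mul (by norm_num) h3.ne'] at h4
    have h5 := log_le_sub_one_of_pos h3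
    linarith
  have h2 : log 2.5 + (0.4 * s - 0.4 * s ^ 3) - 0.08 * s ^ 2 ≤ log (2.5 + s - s ^ 3) := by
    have h3 : (2.5 + s - s ^ 3) = 2.5 * (1 + (0.4 * s - 0.4 * s ^ 3)) := by ring
    have h4 : 0 ≤ 0.4 * s - 0.4 * s ^ 3 := by nlinarith
    rw [h3, log_mul (by norm_num) (by linarith)]
    have h5 := le_log_one_add_of_nonneg h4
    set u := 0.4 * s - 0.4 * s ^ 3
    have h6 : u - u ^ 2 / 2 ≤ 2 * u / (u + 2) := by
      rw [le_div_iff₀ (by linarith)]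
      nlinarith [pow_nonneg h4 3]
    have h7 : u ≤ 0.4 * s := by
      have : 0 ≤ s ^ 3 := by positivity
      linarith
    have h8 : u ^ 2 / 2 ≤ 0.08 * s ^ 2 := by nlinarith
    linarith
  have h3 := log_1_6
  have hB : 2 * log (T + (1 - s ^ 2)) - log (2.5 + s - s ^ 3)
      ≤ 0.4701 + 0.85 * s - 1.92 * s ^ 2 + 0.4 * s ^ 3 := by linarith
  have hBu : 0 ≤ 0.4701 + 0.85 * s - 1.92 * s ^ 2 + 0.4 * s ^ 3 := by
    have : 0 ≤ s ^ 3 := by positivity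
    nlinarith
  have h4 : T * (2 * log (T + (1 - s ^ 2)) - log (2.5 + s - s ^ 3)) ≤
      (1 + 1.25 * s - s ^ 2) * (0.4701 + 0.85 * s - 1.92 * s ^ 2 + 0.4 * s ^ 3) :=
    (mul_le_mul_of_nonneg_left hB hT0.le).trans (mul_le_mul_of_nonneg_right hTu hBu)
  have h5 : -log s * (T - 1 - s ^ 2) ≤ (0.1768 + 0.7329 * s) * (1.25 - 2 * s) := by
    have h6 : -log s * (T - 1 - s ^ 2) ≤ -log s * (1.25 * s - 2 * s ^ 2) :=
      mul_le_mul_of_nonneg_left (by linarith) hℓ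
    have h7 : -log s * (1.25 * s - 2 * s ^ 2) = s * (-log s) * (1.25 - 2 * s) := by ring
    have h8 : s * (-log s) * (1.25 - 2 * s) ≤ (0.1768 + 0.7329 * s) * (1.25 - 2 * s) := by
      have : 0 ≤ 1.25 - 2 * s := by linarith
      gcongr
    linarith
  have h6 : (0.1768 + 0.7329 * s) * (1.25 - 2 * s) +
      (1 + 1.25 * s - s ^ 2) * (0.4701 + 0.85 * s - 1.92 * s ^ 2 + 0.4 * s ^ 3) ≤ 1 - s ^ 2 := by
    nlinarith [mul_nonneg hs0.le (sub_nonneg.2 hs2), mul_nonneg (sq_nonneg s) (sub_nonneg.2 hs2),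
      mul_nonneg (pow_nonneg hs0.le 3) (sub_nonneg.2 hs2), pow_nonneg hs0.le 3]
  nlinarith

theorem b1f_nonneg {ω z : ℝ} (hz0 : 0.97 ≤ z) (hz1 : z ≤ 1) (hω0 : 0 ≤ ω) (hω1 : ω ≤ 1) :
    0 ≤ b1f ω z := by
  have h : b1f ω z = ω * (z - (1 - (1 - ω) * z) * (1 + ω * z) / 5) := by unfold b1f; ring
  rw [h]
  refine mul_nonneg hω0 ?_
  have h1 : (1 - (1 - ω) * z) * (1 + ω * z) ≤ 1 * 2 := by
    have : 0 ≤ 1 - ω := by linarith
    have : 0 ≤ (1 - ω) * z := by positivity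
    have : ω * z ≤ 1 := by nlinarith
    have : 0 ≤ ω * z := by positivity
    gcongr <;> linarith
  linarith

theorem ath_zT {s T : ℝ} (hs0 : 0 < s) (hs1 : s ^ 2 ≤ 0.03) (hT1 : 1 < T)
    (hT : T ^ 2 = 1 + 2.5 * s - s ^ 2) :
    2 * (T * ath ((1 - s ^ 2) / T)) =
      T * (2 * log (T + (1 - s ^ 2)) - log s - log (2.5 + s - s ^ 3)) := by
  have hT0 : 0 < T := by linarith
  have hTz : 0 < T - (1 - s ^ 2) := by nlinarith
  have hTz' : 0 < T + (1 - s ^ 2) := by linarith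
  have h4 : 1 + (1 - s ^ 2) / T = (T + (1 - s ^ 2)) / T := by field_simp
  have h5 : 1 - (1 - s ^ 2) / T = (T - (1 - s ^ 2)) / T := by field_simp
  have h6 : T - (1 - s ^ 2) = s * (2.5 + s - s ^ 3) / (T + (1 - s ^ 2)) := by
    rw [eq_div_iff hTz'.ne']
    have : (T - (1 - s ^ 2)) * (T + (1 - s ^ 2)) = T ^ 2 - (1 - s ^ 2) ^ 2 := by ring
    rw [this, hT]; ring
  have h7 : 0 < 2.5 + s - s ^ 3 := by nlinarith [mul_nonneg hs0.le (sub_nonneg.2 hs1)]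
  unfold ath
  rw [h4, h5, log_div hTz'.ne' hT0.ne', log_div hTz.ne' hT0.ne']
  rw [h6, log_div (by positivity) hTz'.ne', log_mul hs0.ne' h7.ne']
  ring

theorem ath_y {s ω T : ℝ} (hs0 : 0 < s) (hs1 : s ^ 2 ≤ 0.03) (hω : 0 < ω) (h1 : ω ≤ 0.4 * s)
    (hT1 : 1 < T) (hT : T ^ 2 = 1 + 2.5 * s - s ^ 2) :
    2 * √(ω * (1 - (1 - ω) * (1 - s ^ 2))) * ath ((1 - s ^ 2) *
      √(ω * (1 - (1 - ω) * (1 - s ^ 2))) / (1 - (1 - ω) * (1 - s ^ 2)))
      ≤ 2 * ω * (T * ath ((1 - s ^ 2) / T)) := by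
  have hs2 : s ≤ 0.17325 := by nlinarith
  have hω1 : ω < 1 := by linarith
  have hz0 : 0 < 1 - s ^ 2 := by linarith
  have hz1 : 1 - s ^ 2 < 1 := by nlinarith [sq_pos_of_pos hs0]
  have hD := D_pos hz0.le hz1 hω hω1
  have hT0 : 0 < T := by linarith
  have hTpos : 0 < 1 + 2.5 * s - s ^ 2 := by nlinarith
  have hysq := y_sq hz0.le hz1 hω hω1
  have hm : 0 < √(ω * (1 - (1 - ω) * (1 - s ^ 2))) := sqrt_pos.2 (by positivity)
  have hm2 : √(ω * (1 - (1 - ω) * (1 - s ^ 2))) ^ 2 = ω * (1 - (1 - ω) * (1 - s ^ 2)) :=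
    sq_sqrt (by positivity)
  have hDω : ω * (1 + 2.5 * s - s ^ 2) ≤ 1 - (1 - ω) * (1 - s ^ 2) := by
    nlinarith [mul_nonneg hs0.le (sub_nonneg.2 h1)]
  generalize 1 - s ^ 2 = z at *
  generalize √(ω * (1 - (1 - ω) * z)) = m at *
  generalize 1 - (1 - ω) * z = D at *
  have hypos : 0 < z * m / D := by positivity
  -- `y ≤ z / T`
  have hyT : z * m / D ≤ z / T := by
    have h2 : (z * m / D) ^ 2 ≤ (z / T) ^ 2 := by
      rw [hysq, div_pow, hT, div_le_div_iff₀ hD hTpos]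
      have := mul_le_mul_of_nonneg_left hDω (sq_nonneg z)
      linarith
    exact le_of_sq_le_sq h2 (by positivity)
  have hzT : z / T < 1 := by rw [div_lt_one hT0]; linarith
  have hdiv := ath_div_mono hypos hyT hzT
  have h3 : ath (z * m / D) ≤ (z * m / D) * (ath (z / T) / (z / T)) := by
    rw [div_le_iff₀ hypos] at hdiv
    linarith
  have h4 : 2 * m * ath (z * m / D) ≤ 2 * m * ((z * m / D) * (ath (z / T) / (z / T))) := by gcongr
  have h5 : 2 * m * ((z * m / D) * (ath (z / T) / (z / T))) = 2 * (m ^ 2 / D) * (T * ath (z / T)) := by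
    field_simp
  have h6 : m ^ 2 / D = ω := by rw [hm2]; field_simp
  rw [h5, h6] at h4
  exact h4

theorem fin_II {ω z ℓ B lg X c : ℝ} (hω : 0 < ω) (hω1 : ω < 1) (hz0 : 0 < z) (hz1 : z < 1)
    (hℓ : 0.826 ≤ ℓ) (hc : 0 < c) (hcu : c < 0.64061) (hB0 : 0 ≤ B) (hB : B ≤ ω * z)
    (hlg : ω * z - (ω * z) ^ 2 / 2 ≤ lg) (hX : X ≤ ω * (ℓ * (1 + (1 - z)) + z)) :
    (1 - ω) * (ℓ * B + c / 2 * B ^ 2) ≤ ω * (2 * ℓ) + lg - X := by
  have hℓ0 : 0 ≤ ℓ := by linarith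
  have h0 : 0 ≤ 1 - ω := by linarith
  have h5 : ℓ * B + c / 2 * B ^ 2 ≤ ℓ * (ω * z) + c / 2 * (ω * z) ^ 2 := by
    have h6 : B ^ 2 ≤ (ω * z) ^ 2 := by gcongr
    gcongr
  have h6 := mul_le_mul_of_nonneg_left h5 h0
  have h8 : (1 - ω) * (ℓ * (ω * z) + c / 2 * (ω * z) ^ 2) ≤
      ω * (2 * ℓ) + (ω * z - (ω * z) ^ 2 / 2) - ω * (ℓ * (1 + (1 - z)) + z) := by
    have h9 : ω * (2 * ℓ) + (ω * z - (ω * z) ^ 2 / 2) - ω * (ℓ * (1 + (1 - z)) + z)
      - (1 - ω) * (ℓ * (ω * z) + c / 2 * (ω * z) ^ 2) =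
      ω ^ 2 * z * (ℓ - z * (1 + c) / 2 + ω * z * c / 2) := by
      ring
    have h10 : 0 ≤ ℓ - z * (1 + c) / 2 + ω * z * c / 2 := by
      have h11 : z * (1 + c) ≤ 1 * (1 + 0.64061) := by gcongr
      have h12 : 0 ≤ ω * z * c / 2 := by positivity
      linarith
    have : 0 ≤ ω ^ 2 * z * (ℓ - z * (1 + c) / 2 + ω * z * c / 2) := by positivity
    linarith
  linarith

/-- region II : `ω ≤ 0.4 √(1 - z)` -/
theorem regionII {s ω : ℝ} (hs0 : 0 < s) (hs1 : s ^ 2 ≤ 0.03) (hω : 0 < ω) (h1 : ω ≤ 0.4 * s) :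
    (1 - ω) * (-log (1 - (1 - s ^ 2)) / 2 * b1f ω (1 - s ^ 2)
      + c0 / 2 * (b1f ω (1 - s ^ 2)) ^ 2) ≤ PP ω (1 - s ^ 2) := by
  have hs2 : s ≤ 0.17325 := by nlinarith
  have hω1 : ω < 1 := by linarith
  have hz0 : 0 < 1 - s ^ 2 := by linarith
  have hz1 : 1 - s ^ 2 < 1 := by nlinarith [sq_pos_of_pos hs0]
  have e1 : 1 - (1 - s ^ 2) = s ^ 2 := by ring
  have hlog : log (s ^ 2) = 2 * log s := by rw [log_pow]; push_cast; ring
  have hc := c0_pos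
  have hcu := c0_ub
  -- T
  obtain ⟨T, hT0, hT⟩ : ∃ T : ℝ, 0 < T ∧ T ^ 2 = 1 + 2.5 * s - s ^ 2 :=
    ⟨√(1 + 2.5 * s - s ^ 2), sqrt_pos.2 (by nlinarith), sq_sqrt (by nlinarith)⟩
  have hov := one_var hs0 hs1 hT0 hT
  have hT1 : 1 < T := by nlinarith
  have h2 := ath_y hs0 hs1 hω h1 hT1 hT
  have h3 := ath_zT hs0 hs1 hT1 hT
  have hb0 : 0 ≤ b1f ω (1 - s ^ 2) := b1f_nonneg (by linarith) hz1.le hω.le hω1.le
  have hb1 : b1f ω (1 - s ^ 2) ≤ ω * (1 - s ^ 2) := b1f_ub hz0.le hz1.le hω.le hω1.le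
  have hℓ : 0.826 ≤ -log s := by
    have := log_le_sub_one_of_pos hs0
    linarith
  rw [← h3] at hov
  unfold PP
  rw [e1, hlog]
  have hzs : s ^ 2 = 1 - (1 - s ^ 2) := by ring
  rw [hzs] at hov
  generalize 1 - s ^ 2 = z at *
  have h4 : ω * z - (ω * z) ^ 2 / 2 ≤ log (1 + ω * z) := by
    have h5 : 0 ≤ ω * z := by positivity
    have h6 := le_log_one_add_of_nonneg h5
    set u := ω * z
    have h7 : u - u ^ 2 / 2 ≤ 2 * u / (u + 2) := by
      rw [le_div_iff₀ (by linarith)]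
      nlinarith [pow_nonneg h5 3]
    linarith
  have h5 := fin_II hω hω1 hz0 hz1 hℓ hc hcu hb0 hb1 h4 (X := 2 * √(ω * (1 - (1 - ω) * z)) *
    ath (z * √(ω * (1 - (1 - ω) * z)) / (1 - (1 - ω) * z))) (by
      refine h2.trans ?_
      have : 2 * ω * (T * ath (z / T)) = ω * (2 * (T * ath (z / T))) := by ring
      rw [this]
      have e2 : 1 - (1 - z) = z := by ring
      rw [e2] at hov
      exact mul_le_mul_of_nonneg_left hov hω.le)
  have h6 : -(2 * log s) / 2 = -log s := by ring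
  have h7 : ω * -(2 * log s) = ω * (2 * -log s) := by ring
  rw [h6, h7]
  exact h5

theorem lowf_nonneg {ω z : ℝ} (hb : 0 < bpf ω z) : 0 ≤ lowf ω z := by
  have hc := c0_pos
  set thr := exp (-qf z / c0) with hthr
  have ht : 0 < thr := exp_pos _
  have hq : qf z = -c0 * log thr := by
    rw [hthr, log_exp]; field_simp
  have h1 : lowf ω z = c0 * (bpf ω z * log (bpf ω z / thr) - bpf ω z + thr) := by
    unfold lowf
    rw [← hthr, hq, log_div hb.ne' ht.ne']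
    ring
  rw [h1]
  refine mul_nonneg hc.le ?_
  have h2 := one_sub_inv_le_log_of_pos (show 0 < bpf ω z / thr by positivity)
  have h3 := mul_le_mul_of_nonneg_left h2 hb.le
  have h4 : bpf ω z * (1 - (bpf ω z / thr)⁻¹) = bpf ω z - thr := by
    field_simp
  linarith

/-- region I : `SS` is monotone -/
theorem SS_mono {ω a b : ℝ} (ha : 0.97 ≤ a) (hab : a ≤ b) (hb : b < 1) (hω0 : 0 < ω) (hω1 : ω < 1)
    (hωa : 0.4 * √(1 - a) ≤ ω) : SS ω a ≤ SS ω b := by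
  have hbp : ∀ t ∈ Icc a b, 0 < bpf ω t := by
    intro t ht
    have := bpf_lb (ω := ω) (z := t) (by linarith [ht.1]) (by linarith [ht.2]) hω0.le hω1.le
    linarith
  have hd : ∀ t ∈ Icc a b, HasDerivAt (SS ω) _ t := fun t ht =>
    hasDerivAt_SS (by linarith [ht.1]) (by linarith [ht.2]) hω0 hω1 (hbp t ht)
  have hmono : MonotoneOn (SS ω) (Icc a b) := by
    refine monotoneOn_of_deriv_nonneg (convex_Icc a b)
      (fun t ht => (hd t ht).continuousAt.continuousWithinAt)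
      (fun t ht => (hd t (interior_subset ht)).differentiableAt.differentiableWithinAt) ?_
    intro t ht
    have ht' := interior_subset ht
    rw [(hd t ht').deriv]
    have ht1 : 0 < 1 - t := by linarith [ht'.2]
    obtain ⟨s, hs0, hs⟩ : ∃ s : ℝ, 0 < s ∧ t = 1 - s ^ 2 :=
      ⟨√(1 - t), sqrt_pos.2 ht1, by rw [sq_sqrt ht1.le]; ring⟩
    have hs1 : s ^ 2 ≤ 0.03 := by linarith [ht'.1]
    have hsa : s ≤ √(1 - a) := by
      refine le_sqrt_of_sq_le ?_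
      linarith [ht'.1]
    have h1 : 0.4 * s ≤ ω := by linarith
    have h2 := deriv_ineq hs0 hs1 h1 hω1
    rw [← hs] at h2
    refine mul_nonneg ?_ h2
    have : 0 ≤ 1 - ω := by linarith
    positivity
  exact hmono ⟨le_rfl, hab⟩ ⟨hab, le_rfl⟩ hab

/-- the elementary inequality, as a statement at fixed `z`, `ω` -/
def BEat (z ω : ℝ) : Prop := ∀ (b b' L m M : ℝ),
    L = -log (1 - z) → M = ω * (1 - (1 - ω) * z) → m = √M →
    b = (1 + ω * z) * (1 - M / 5) →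
    b' = b - (1 - ω) * z * (6 / 5 - 6 / 5 * M - 1 / 5 * (1 - ω) ^ 2 * z) → 1 < b →
    (1 - ω) * (L / 2 * (b - 1) + c0 / 2 * (b - 1) ^ 2 -
      (if exp (-(L / 2 - log 2 + 1 / 2) / c0) ≤ b' then
        (L / 2 - log 2 + 1 / 2) * b' + c0 * (b' * log b' - b') +
          c0 * exp (-(L / 2 - log 2 + 1 / 2) / c0) else 0))
    ≤ ω * L + log (1 + ω * z) - 2 * m * ath (z * m / (1 - (1 - ω) * z))

theorem BEat_iff {z ω : ℝ} (hb : 0 < b1f ω z) : BEat z ω ↔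
    (1 - ω) * (-log (1 - z) / 2 * b1f ω z + c0 / 2 * (b1f ω z) ^ 2 -
      (if exp (-qf z / c0) ≤ bpf ω z then lowf ω z else 0)) ≤ PP ω z := by
  have e1 : b1f ω z = (1 + ω * z) * (1 - ω * (1 - (1 - ω) * z) / 5) - 1 := rfl
  have e2 : bpf ω z = (1 + ω * z) * (1 - ω * (1 - (1 - ω) * z) / 5)
    - (1 - ω) * z * (6 / 5 - 6 / 5 * (ω * (1 - (1 - ω) * z)) - 1 / 5 * (1 - ω) ^ 2 * z) := rfl
  constructor
  · intro h
    have := h _ _ _ _ _ rfl rfl rfl rfl rfl (by rw [e1] at hb; linarith)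
    rw [← e1, ← e2] at this
    exact this
  · intro h b b' L m M hL hM hm hbb hb' hb1
    subst hL hM hm hbb hb'
    rw [← e1, ← e2]
    exact h

theorem b1f_pos {ω z : ℝ} (hz0 : 0.97 ≤ z) (hz1 : z ≤ 1) (hω0 : 0 < ω) (hω1 : ω ≤ 1) :
    0 < b1f ω z := by
  have h : b1f ω z = ω * (z - (1 - (1 - ω) * z) * (1 + ω * z) / 5) := by unfold b1f; ring
  rw [h]
  refine mul_pos hω0 ?_
  have h1 : (1 - (1 - ω) * z) * (1 + ω * z) ≤ 1 * 2 := by
    have : 0 ≤ 1 - ω := by linarith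
    have : 0 ≤ (1 - ω) * z := by positivity
    have : ω * z ≤ 1 := by nlinarith
    have : 0 ≤ ω * z := by positivity
    gcongr <;> linarith
  linarith

/-- **(BE3)** -/
theorem BEat_large (h97 : ∀ ω : ℝ, 0 < ω → ω < 1 → BEat (97 / 100) ω) {z ω : ℝ}
    (hz0 : 97 / 100 ≤ z) (hz1 : z < 1) (hω0 : 0 < ω) (hω1 : ω < 1) : BEat z ω := by
  have hz0' : (0.97 : ℝ) ≤ z := by norm_num; exact hz0
  have hbp : ∀ t : ℝ, 0.97 ≤ t → t ≤ 1 → 0 < bpf ω t := by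
    intro t h1 h2
    have := bpf_lb (ω := ω) (z := t) h1 h2 hω0.le hω1.le
    linarith
  rw [BEat_iff (b1f_pos hz0' hz1.le hω0 hω1.le)]
  have ht1 : 0 < 1 - z := by linarith
  obtain ⟨s, hs0, hs⟩ : ∃ s : ℝ, 0 < s ∧ z = 1 - s ^ 2 :=
    ⟨√(1 - z), sqrt_pos.2 ht1, by rw [sq_sqrt ht1.le]; ring⟩
  have hs1 : s ^ 2 ≤ 0.03 := by linarith
  rcases le_total ω (0.4 * s) with hcase | hcase
  · have h1 := regionII hs0 hs1 hω0 hcase
    rw [← hs] at h1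
    have h2 : 0 ≤ (if exp (-qf z / c0) ≤ bpf ω z then lowf ω z else 0) := by
      split_ifs
      · exact lowf_nonneg (hbp z hz0' hz1.le)
      · exact le_rfl
    have h3 : 0 ≤ (1 - ω) * (if exp (-qf z / c0) ≤ bpf ω z then lowf ω z else 0) :=
      mul_nonneg (by linarith) h2
    rw [mul_sub]
    linarith
  · have hthr := thr_le_bpf hs0 hs1 hcase hω1
    rw [← hs] at hthr
    rw [if_pos hthr]
    suffices h : 0 ≤ SS ω z by
      unfold SS at h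
      linarith
    rcases le_total 0.03 ((2.5 * ω) ^ 2) with h3 | h3
    · -- start at `z = 97/100`
      have h4 : 0.4 * √(1 - 0.97) ≤ ω := by
        have h5 : √(1 - 0.97) ≤ 2.5 * ω := by
          rw [show (1 : ℝ) - 0.97 = 0.03 by norm_num]
          exact sqrt_le_left (by positivity) |>.2 h3
        linarith
      have h5 := SS_mono le_rfl hz0' hz1 hω0 hω1 h4
      refine le_trans ?_ h5
      have h6 := h97 ω hω0 hω1
      have e97 : (97 / 100 : ℝ) = 0.97 := by norm_num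
      rw [e97, BEat_iff (b1f_pos le_rfl (by norm_num) hω0 hω1.le)] at h6
      have h7 : exp (-qf 0.97 / c0) ≤ bpf ω 0.97 := by
        have h8 := thr_le_bpf (s := √0.03) (ω := ω) (by positivity) (by rw [sq_sqrt (by norm_num)])
          (by rwa [show (1 : ℝ) - 0.97 = 0.03 by norm_num] at h4) hω1
        rw [sq_sqrt (by norm_num)] at h8
        rwa [show (1 : ℝ) - 0.03 = 0.97 by norm_num] at h8
      rw [if_pos h7] at h6
      unfold SS
      linarith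
    · -- start on the curve `ω = 0.4 √(1 - z)`
      have hs' : s ≤ 2.5 * ω := by linarith
      have ha1 : 1 - (2.5 * ω) ^ 2 ≤ z := by
        rw [hs]
        have : s ^ 2 ≤ (2.5 * ω) ^ 2 := by gcongr
        linarith
      have h4 : 0.4 * √(1 - (1 - (2.5 * ω) ^ 2)) ≤ ω := by
        have : 1 - (1 - (2.5 * ω) ^ 2) = (2.5 * ω) ^ 2 := by ring
        rw [this, sqrt_sq (by positivity)]
        linarith
      have h5 := SS_mono (by linarith) ha1 hz1 hω0 hω1 h4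
      refine le_trans ?_ h5
      have h6 := regionII (s := 2.5 * ω) (ω := ω) (by positivity) h3 hω0 (by linarith)
      have h7 := lowf_nonneg (ω := ω) (z := 1 - (2.5 * ω) ^ 2)
        (hbp _ (by linarith) (by nlinarith [sq_nonneg (2.5 * ω)]))
      have h8 := mul_nonneg (show 0 ≤ 1 - ω by linarith) h7
      unfold SS
      rw [mul_sub]
      linarith

/-- assembly: from the inequality for `z ≤ 97/100` to the full statement -/
theorem BdElem_of_le (hle : ∀ z ω : ℝ, 0 < z → z ≤ 97 / 100 → 0 < ω → ω < 1 → BEat z ω)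
    {z ω : ℝ} (hz0 : 0 < z) (hz1 : z < 1) (hω0 : 0 < ω) (hω1 : ω < 1) (b b' L m M : ℝ)
    (hL : L = -log (1 - z)) (hM : M = ω * (1 - (1 - ω) * z)) (hm : m = √M)
    (hb : b = (1 + ω * z) * (1 - M / 5))
    (hb' : b' = b - (1 - ω) * z * (6 / 5 - 6 / 5 * M - 1 / 5 * (1 - ω) ^ 2 * z)) (hb1 : 1 < b) :
    (1 - ω) * (L / 2 * (b - 1) + c0 / 2 * (b - 1) ^ 2 -
      (if exp (-(L / 2 - log 2 + 1 / 2) / c0) ≤ b' then
        (L / 2 - log 2 + 1 / 2) * b' + c0 * (b' * log b' - b') +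
          c0 * exp (-(L / 2 - log 2 + 1 / 2) / c0) else 0))
    ≤ ω * L + log (1 + ω * z) - 2 * m * ath (z * m / (1 - (1 - ω) * z)) := by
  rcases le_total z (97 / 100) with h | h
  · exact hle z ω hz0 h hω0 hω1 b b' L m M hL hM hm hb hb' hb1
  · exact BEat_large (fun ω h1 h2 => hle _ ω (by norm_num) le_rfl h1 h2) h hz1 hω0 hω1
      b b' L m M hL hM hm hb hb' hb1

end BEC
end Vale.Agent.P322

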