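import Vale.Agent.P322.BEDefs
import Vale.Agent.P322.BERight
import Vale.Agent.P322.BECalc
import Vale.Agent.P322.BESmall
import Vale.Agent.P322.BELeft
import Vale.Agent.P322.BEVal0
import Vale.Agent.P322.BEVals
import Vale.Agent.P322.BdElemC

/-!
# (BE), assembly for `z ≤ 97/100` (S4)
-/

open Real Set Filter Topology

namespace Vale.Agent.P322
namespace BE

theorem c0_pos' : 0 < c0 := by linarith [Right.c0_bounds.1]

theorem tt_pos (L : ℝ) : 0 < tt L := exp_pos _

theorem log_tt (L : ℝ) : L / 2 - log 2 + 1 / 2 = -(c0 * log (tt L)) := by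
  have := c0_pos'
  rw [tt, log_exp]
  field_simp

theorem entropy_ineq {b β : ℝ} (hb : 0 < b) (hβ : 0 < β) :
    0 ≤ b * log b - b * log β - b + β := by
  have h := Real.log_le_sub_one_of_pos (div_pos hβ hb)
  rw [log_div hβ.ne' hb.ne'] at h
  have h2 := mul_le_mul_of_nonneg_left h hb.le
  have h3 : b * (β / b - 1) = β - b := by field_simp
  rw [h3] at h2
  linarith

/-- the low mode term -/
noncomputable def low (L b : ℝ) : ℝ :=
  if tt L ≤ b then (L / 2 - log 2 + 1 / 2) * b + c0 * (b * log b - b) + c0 * tt L else 0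

theorem low_ge {L b s : ℝ} (hs : 0 ≤ s) :
    s * b - c0 * tt L * (exp (s / c0) - 1) ≤ low L b := by
  have ht := tt_pos L
  have hc := c0_pos'
  unfold low
  split_ifs with h
  · have hb : 0 < b := lt_of_lt_of_le ht h
    have h1 := entropy_ineq hb (mul_pos ht (exp_pos (s / c0)))
    rw [log_mul ht.ne' (exp_pos _).ne', log_exp] at h1
    have h2 := mul_nonneg hc.le h1
    have h3 : c0 * (b * log b - b * (log (tt L) + s / c0) - b + tt L * exp (s / c0)) =
        c0 * (b * log b - b * log (tt L) - b + tt L * exp (s / c0)) - s * b := by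
      field_simp
      ring
    rw [h3] at h2
    rw [log_tt]
    linarith
  · have h1 : b < tt L := not_le.1 h
    have h2 : s * b ≤ s * tt L := mul_le_mul_of_nonneg_left h1.le hs
    have h3 := add_one_le_exp (s / c0)
    have h4 : c0 * tt L * (s / c0) ≤ c0 * tt L * (exp (s / c0) - 1) :=
      mul_le_mul_of_nonneg_left (by linarith) (by positivity)
    have h5 : c0 * tt L * (s / c0) = s * tt L := by
      field_simp
    linarith

theorem low_nonneg {L b : ℝ} : 0 ≤ low L b := by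
  have := low_ge (L := L) (b := b) (le_refl 0)
  simpa using this

theorem QB_zero_left (z L : ℝ) : QB z L 0 0 0 = 0 := by
  simp [QB, Bq]

theorem QB_one (z L s K : ℝ) : QB z L s K 1 = 0 := by
  simp [QB]

/-- (BE) in the form `(1 - ω)(L/2 B + c0/2 B^2 - low) ≤ PP` -/
theorem core {z o : ℝ} (hz0 : 0 < z) (hz1 : z ≤ 97 / 100) (ho0 : 0 < o) (ho1 : o < 1)
    (hB : 0 < Bq z o) :
    (1 - o) * (-log (1 - z) / 2 * Bq z o + c0 / 2 * Bq z o ^ 2 - low (-log (1 - z)) (bq z o)) ≤
      PP z o := by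
  have hz3 : z < 1 := by linarith
  have h0 : QB z (-log (1 - z)) 0 0 o = (1 - o) * (-log (1 - z) / 2 * Bq z o +
      c0 / 2 * Bq z o ^ 2) := by
    simp [QB]
  have h1 : (1 - o) * (-log (1 - z) / 2 * Bq z o + c0 / 2 * Bq z o ^ 2 -
      low (-log (1 - z)) (bq z o)) ≤ QB z (-log (1 - z)) 0 0 o := by
    rw [h0]
    refine mul_le_mul_of_nonneg_left ?_ (by linarith)
    linarith [low_nonneg (L := -log (1 - z)) (b := bq z o)]
  rcases le_or_gt z (1 / 6) with h6 | h6
  · exfalso
    have h3 : Bq z o ≤ 0 := by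
      unfold Bq
      have e1 : o * (6 * z - 1) / 5 ≤ 0 := by
        have : o * (6 * z - 1) ≤ 0 := mul_nonpos_of_nonneg_of_nonpos ho0.le (by linarith)
        linarith
      have e2 : 0 ≤ o ^ 2 * z * (2 - z) / 5 := by
        have : 0 < 2 - z := by linarith
        positivity
      have e3 : 0 ≤ o ^ 3 * z ^ 2 / 5 := by positivity
      linarith
    linarith
  rcases le_or_gt z (1 / 2) with h2 | h2
  · refine h1.trans (QB_le_PP hz0 hz3 (le_refl 0) one_pos le_rfl
      (fun o ho => conc_small h6 h2 ho) ?_ ?_ ⟨ho0.le, ho1.le⟩)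
    · rw [QB_zero_left, PP_zero]
    · rw [QB_one, PP_one hz0 hz3]
  · set e := √(1 - z) with he
    have he2 : e ^ 2 = 1 - z := sq_sqrt (by linarith)
    have he0 : 0 ≤ e := sqrt_nonneg _
    have heI : e ∈ Icc (173 / 1000 : ℝ) (708 / 1000) := by
      constructor
      · refine Real.le_sqrt_of_sq_le ?_
        norm_num
        linarith
      · exact Real.sqrt_le_iff.2 ⟨by norm_num, by norm_num; linarith⟩
    have hL : -2 * log e = -log (1 - z) := by
      rw [← he2, log_pow]
      push_cast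
      ring
    have hz : 1 - e ^ 2 = z := by rw [he2]; ring
    rcases le_or_gt o (355 / 1000 * e) with h4 | h4
    · refine h1.trans (QB_le_PP hz0 hz3 (le_refl 0) (lt_of_lt_of_le ho0 h4)
        (by linarith [heI.2]) (fun o ho => ?_) ?_ ?_ ⟨ho0.le, h4⟩)
      · have := conc_left heI ho
        rwa [hL, hz] at this
      · rw [QB_zero_left, PP_zero]
      · have := val_zero heI
        rwa [hL, hz] at this
    · have hL2 : 69 / 100 ≤ -log (1 - z) := by
        have hl2 := Real.log_two_gt_d9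
        have : log (1 - z) ≤ log (1 / 2) := log_le_log (by linarith) (by linarith)
        rw [log_div one_ne_zero two_ne_zero, log_one] at this
        linarith
      have h5 : (1 - o) * (-log (1 - z) / 2 * Bq z o + c0 / 2 * Bq z o ^ 2 -
          low (-log (1 - z)) (bq z o)) ≤ QB z (-log (1 - z)) (18 / 100 * (-log (1 - z)) - 1 / 10)
            (c0 * tt (-log (1 - z)) * (exp ((18 / 100 * (-log (1 - z)) - 1 / 10) / c0) - 1))
            o := by
        unfold QB
        refine mul_le_mul_of_nonneg_left ?_ (by linarith)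
        have := low_ge (L := -log (1 - z)) (b := bq z o)
          (s := 18 / 100 * (-log (1 - z)) - 1 / 10) (by linarith)
        linarith
      refine h5.trans (QB_le_PP (a := 355 / 1000 * e) (b := 1) hz0 hz3 (by positivity)
        (by linarith) le_rfl (fun o ho => ?_) ?_ ?_ ⟨h4.le, ho1.le⟩)
      · have := conc_right heI ho
        rwa [hL, hz] at this
      · have := val_s heI
        rwa [hL, hz] at this
      · rw [QB_one, PP_one hz0 hz3]

/-- (BE) for `z ≤ 97/100` -/
theorem BdElem_le {z ω : ℝ} (hz0 : 0 < z) (hz1 : z ≤ 97 / 100) (hω0 : 0 < ω) (hω1 : ω < 1)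
    (b b' L m M : ℝ)
    (hL : L = -log (1 - z)) (hM : M = ω * (1 - (1 - ω) * z)) (hm : m = √M)
    (hb : b = (1 + ω * z) * (1 - M / 5))
    (hb' : b' = b - (1 - ω) * z * (6 / 5 - 6 / 5 * M - 1 / 5 * (1 - ω) ^ 2 * z)) (hb1 : 1 < b) :
    (1 - ω) * (L / 2 * (b - 1) + c0 / 2 * (b - 1) ^ 2 -
      (if exp (-(L / 2 - log 2 + 1 / 2) / c0) ≤ b' then
        (L / 2 - log 2 + 1 / 2) * b' + c0 * (b' * log b' - b') +
          c0 * exp (-(L / 2 - log 2 + 1 / 2) / c0) else 0))
    ≤ ω * L + log (1 + ω * z) - 2 * m * ath (z * m / (1 - (1 - ω) * z)) := by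
  have e1 : b - 1 = Bq z ω := by rw [hb, hM, Bq]; ring
  have e2 : b' = bq z ω := by rw [hb', hb, hM, bq]; ring
  have h := core hz0 hz1 hω0 hω1 (by rw [← e1]; linarith)
  have e3 : ω * L + log (1 + ω * z) - 2 * m * ath (z * m / (1 - (1 - ω) * z)) = PP z ω := by
    rw [hm, hM, hL, PP]; ring
  rw [e3, e1, e2, hL]
  exact h

/-- (BE) for all `z` -/
theorem BdElem {z ω : ℝ} (hz0 : 0 < z) (hz1 : z < 1) (hω0 : 0 < ω) (hω1 : ω < 1)
    (b b' L m M : ℝ)
    (hL : L = -log (1 - z)) (hM : M = ω * (1 - (1 - ω) * z)) (hm : m = √M)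
    (hb : b = (1 + ω * z) * (1 - M / 5))
    (hb' : b' = b - (1 - ω) * z * (6 / 5 - 6 / 5 * M - 1 / 5 * (1 - ω) ^ 2 * z)) (hb1 : 1 < b) :
    (1 - ω) * (L / 2 * (b - 1) + c0 / 2 * (b - 1) ^ 2 -
      (if exp (-(L / 2 - log 2 + 1 / 2) / c0) ≤ b' then
        (L / 2 - log 2 + 1 / 2) * b' + c0 * (b' * log b' - b') +
          c0 * exp (-(L / 2 - log 2 + 1 / 2) / c0) else 0))
    ≤ ω * L + log (1 + ω * z) - 2 * m * ath (z * m / (1 - (1 - ω) * z)) :=
  BEC.BdElem_of_le (fun _ _ a1 a2 a3 a4 b b2 L m M e1 e2 e3 e4 e5 e6 =>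
    BdElem_le a1 a2 a3 a4 b b2 L m M e1 e2 e3 e4 e5 e6) hz0 hz1 hω0 hω1 b b' L m M hL hM hm hb
    hb' hb1

end BE
end Vale.Agent.P322
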