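import Mathlib

/-!
Kernel-checked positivity on `[0, ∞)` of polynomials in `x`, `cosh (k x)`, `sinh (k x)`.

A function `∑_k (p_k(x) cosh (k x) + q_k(x) sinh (k x))` is given by the list of blocks
`⟨k, p_k, q_k⟩` (integer coefficient lists, constant term first).  `check n P = true` says that
the first `n` derivatives at `0` are nonnegative and the `n`-th derivative has nonnegative
coefficients; then `val P x ≥ 0` for `x ≥ 0`.
-/

namespace Vale.Agent.P322.CS

open Real

/-- value of the polynomial with coefficient list `l` -/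
noncomputable def pv : List ℤ → ℝ → ℝ
  | [], _ => 0
  | a :: l, x => a + x * pv l x

/-- sum of coefficient lists -/
def padd : List ℤ → List ℤ → List ℤ
  | [], m => m
  | a :: l, [] => a :: l
  | a :: l, b :: m => (a + b) :: padd l m

/-- derivative of a coefficient list -/
def pder : List ℤ → List ℤ
  | [] => []
  | _ :: l => padd l (0 :: pder l)

/-- scalar multiple of a coefficient list -/
def psmul (c : ℤ) (l : List ℤ) : List ℤ := l.map (fun a => c * a)

/-- the block `p(x) cosh (k x) + q(x) sinh (k x)` -/
structure Blk where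
  /-- frequency -/
  k : ℕ
  /-- coefficient of `cosh` -/
  p : List ℤ
  /-- coefficient of `sinh` -/
  q : List ℤ

/-- value of a block -/
noncomputable def Blk.val (b : Blk) (x : ℝ) : ℝ :=
  pv b.p x * cosh (b.k * x) + pv b.q x * sinh (b.k * x)

/-- derivative of a block -/
def Blk.der (b : Blk) : Blk :=
  ⟨b.k, padd (pder b.p) (psmul b.k b.q), padd (pder b.q) (psmul b.k b.p)⟩

/-- value of a list of blocks -/
noncomputable def val : List Blk → ℝ → ℝ
  | [], _ => 0
  | b :: P, x => b.val x + val P x

/-- derivative of a list of blocks -/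
def der (P : List Blk) : List Blk := P.map Blk.der

/-- value at zero -/
def val0 : List Blk → ℤ
  | [] => 0
  | b :: P => b.p.headD 0 + val0 P

/-- all coefficients are nonnegative -/
def allNonneg (P : List Blk) : Bool :=
  P.all fun b => (b.p.all fun a => decide (0 ≤ a)) && (b.q.all fun a => decide (0 ≤ a))

/-- certificate checker for nonnegativity -/
def check : ℕ → List Blk → Bool
  | 0, P => allNonneg P
  | n + 1, P => decide (0 ≤ val0 P) && check n (der P)

/-- certificate checker for strict positivity -/
def checkPos : ℕ → List Blk → Bool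
  | 0, P => allNonneg P && decide (0 < val0 P)
  | n + 1, P => decide (0 ≤ val0 P) && checkPos n (der P)

theorem pv_padd (l m : List ℤ) (x : ℝ) : pv (padd l m) x = pv l x + pv m x := by
  induction l generalizing m with
  | nil => simp [padd, pv]
  | cons a l ih =>
    cases m with
    | nil => simp [padd, pv]
    | cons b m => simp only [padd, pv, ih]; push_cast; ring

theorem pv_psmul (c : ℤ) (l : List ℤ) (x : ℝ) : pv (psmul c l) x = c * pv l x := by
  induction l with
  | nil => simp [psmul, pv]
  | cons a l ih =>
    have h : psmul c (a :: l) = (c * a) :: psmul c l := rfl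
    rw [h]
    simp only [pv, ih]; push_cast; ring

theorem hasDerivAt_pv (l : List ℤ) (x : ℝ) : HasDerivAt (pv l) (pv (pder l) x) x := by
  induction l with
  | nil =>
    have h : pv [] = fun _ => (0 : ℝ) := by funext y; rfl
    rw [h]
    simpa [pder, pv] using hasDerivAt_const x (0 : ℝ)
  | cons a l ih =>
    have h : pv (a :: l) = fun y => (a : ℝ) + y * pv l y := by funext y; rfl
    rw [h]
    have h2 := ((hasDerivAt_id x).mul ih).const_add (a : ℝ)
    refine h2.congr_deriv ?_
    simp only [pder, pv_padd, pv, id]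
    push_cast
    ring

theorem Blk.hasDerivAt_val (b : Blk) (x : ℝ) : HasDerivAt b.val (b.der.val x) x := by
  have h1 : HasDerivAt (fun y : ℝ => (b.k : ℝ) * y) (b.k : ℝ) x := by
    simpa using (hasDerivAt_id x).const_mul (b.k : ℝ)
  have hc := h1.cosh
  have hs := h1.sinh
  have h := ((hasDerivAt_pv b.p x).mul hc).add ((hasDerivAt_pv b.q x).mul hs)
  refine h.congr_deriv ?_
  simp only [Blk.val, Blk.der, pv_padd, pv_psmul]
  push_cast
  ring

theorem hasDerivAt_val (P : List Blk) (x : ℝ) : HasDerivAt (val P) (val (der P) x) x := by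
  induction P with
  | nil =>
    have h : val [] = fun _ => (0 : ℝ) := by funext y; rfl
    rw [h]
    simpa [der, val] using hasDerivAt_const x (0 : ℝ)
  | cons b P ih =>
    have h : val (b :: P) = fun y => b.val y + val P y := by funext y; rfl
    rw [h]
    exact (b.hasDerivAt_val x).add ih

theorem pv_zero (l : List ℤ) : pv l 0 = (l.headD 0 : ℤ) := by
  cases l with
  | nil => simp [pv]
  | cons a l => simp [pv]

theorem val_zero (P : List Blk) : val P 0 = (val0 P : ℤ) := by
  induction P with
  | nil => simp [val, val0]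
  | cons b P ih =>
    simp only [val, val0, Blk.val, mul_zero, cosh_zero, sinh_zero, pv_zero, ih]
    push_cast
    ring

theorem pv_nonneg {l : List ℤ} (h : (l.all fun a => decide (0 ≤ a)) = true) {x : ℝ}
    (hx : 0 ≤ x) : 0 ≤ pv l x := by
  induction l with
  | nil => simp [pv]
  | cons a l ih =>
    simp only [List.all_cons, Bool.and_eq_true, decide_eq_true_eq] at h
    have h1 : (0 : ℝ) ≤ (a : ℝ) := by exact_mod_cast h.1
    have h2 := ih h.2
    simp only [pv]
    positivity

theorem le_pv {l : List ℤ} (h : (l.all fun a => decide (0 ≤ a)) = true) {x : ℝ}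
    (hx : 0 ≤ x) : ((l.headD 0 : ℤ) : ℝ) ≤ pv l x := by
  cases l with
  | nil => simp [pv]
  | cons a l =>
    simp only [List.all_cons, Bool.and_eq_true, decide_eq_true_eq] at h
    have h2 := pv_nonneg h.2 hx
    simp only [pv, List.headD_cons]
    nlinarith [mul_nonneg hx h2]

theorem val0_le {P : List Blk} (h : allNonneg P = true) {x : ℝ} (hx : 0 ≤ x) :
    (val0 P : ℝ) ≤ val P x := by
  induction P with
  | nil => simp [val, val0]
  | cons b P ih =>
    simp only [allNonneg, List.all_cons, Bool.and_eq_true] at h
    have h1 := ih (by simpa [allNonneg] using h.2)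
    have h2 := le_pv h.1.1 hx
    have h3 := pv_nonneg h.1.1 hx
    have h4 := pv_nonneg h.1.2 hx
    have hkx : 0 ≤ (b.k : ℝ) * x := by positivity
    have hc : 1 ≤ cosh ((b.k : ℝ) * x) := one_le_cosh _
    have hs : 0 ≤ sinh ((b.k : ℝ) * x) := sinh_nonneg_iff.mpr hkx
    simp only [val, val0, Blk.val]
    push_cast
    nlinarith [mul_nonneg h3 (sub_nonneg.mpr hc), mul_nonneg h4 hs]

theorem val_nonneg_of_allNonneg {P : List Blk} (h : allNonneg P = true) {x : ℝ} (hx : 0 ≤ x) :
    0 ≤ val P x := by
  induction P with
  | nil => simp [val]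
  | cons b P ih =>
    simp only [allNonneg, List.all_cons, Bool.and_eq_true] at h
    have h1 := ih (by simpa [allNonneg] using h.2)
    have h3 := pv_nonneg h.1.1 hx
    have h4 := pv_nonneg h.1.2 hx
    have hkx : 0 ≤ (b.k : ℝ) * x := by positivity
    have hs : 0 ≤ sinh ((b.k : ℝ) * x) := sinh_nonneg_iff.mpr hkx
    have hc := cosh_pos ((b.k : ℝ) * x)
    simp only [val, Blk.val]
    positivity

theorem nonneg_of_check (n : ℕ) (P : List Blk) (h : check n P = true) {x : ℝ} (hx : 0 ≤ x) :
    0 ≤ val P x := by
  induction n generalizing P x with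
  | zero => exact val_nonneg_of_allNonneg h hx
  | succ n ih =>
    simp only [check, Bool.and_eq_true, decide_eq_true_eq] at h
    have hmono : MonotoneOn (val P) (Set.Ici 0) := by
      apply monotoneOn_of_deriv_nonneg (convex_Ici 0)
      · exact fun y _ => (hasDerivAt_val P y).continuousAt.continuousWithinAt
      · exact fun y _ => (hasDerivAt_val P y).differentiableAt.differentiableWithinAt
      · intro y hy
        rw [interior_Ici, Set.mem_Ioi] at hy
        rw [(hasDerivAt_val P y).deriv]
        exact ih (der P) h.2 hy.le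
    have h0 : (0 : ℝ) ≤ val P 0 := by rw [val_zero]; exact_mod_cast h.1
    exact h0.trans (hmono (Set.mem_Ici.mpr le_rfl) (Set.mem_Ici.mpr hx) hx)

theorem pos_of_checkPos (n : ℕ) (P : List Blk) (h : checkPos n P = true) {x : ℝ} (hx : 0 < x) :
    0 < val P x := by
  induction n generalizing P x with
  | zero =>
    simp only [checkPos, Bool.and_eq_true, decide_eq_true_eq] at h
    have h1 : (0 : ℝ) < (val0 P : ℝ) := by exact_mod_cast h.2
    exact h1.trans_le (val0_le h.1 hx.le)
  | succ n ih =>
    simp only [checkPos, Bool.and_eq_true, decide_eq_true_eq] at h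
    have hmono : StrictMonoOn (val P) (Set.Ici 0) := by
      apply strictMonoOn_of_deriv_pos (convex_Ici 0)
      · exact fun y _ => (hasDerivAt_val P y).continuousAt.continuousWithinAt
      · intro y hy
        rw [interior_Ici, Set.mem_Ioi] at hy
        rw [(hasDerivAt_val P y).deriv]
        exact ih (der P) h.2 hy
    have h0 : (0 : ℝ) ≤ val P 0 := by rw [val_zero]; exact_mod_cast h.1
    exact h0.trans_lt (hmono (Set.mem_Ici.mpr le_rfl) (Set.mem_Ici.mpr hx.le) hx)

/-! ### Multiple angles -/

theorem cosh_two (x : ℝ) : cosh (2 * x) = 2 * cosh x ^ 2 - 1 := by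
  rw [Real.cosh_two_mul]; have := Real.cosh_sq x; linarith

theorem sinh_two (x : ℝ) : sinh (2 * x) = 2 * sinh x * cosh x := Real.sinh_two_mul x

theorem cosh_three (x : ℝ) : cosh (3 * x) = 4 * cosh x ^ 3 - 3 * cosh x := Real.cosh_three_mul x

theorem sinh_three (x : ℝ) : sinh (3 * x) = sinh x * (4 * cosh x ^ 2 - 1) := by
  rw [Real.sinh_three_mul]
  have := Real.cosh_sq x
  have h2 : sinh x ^ 3 = sinh x * (cosh x ^ 2 - 1) := by rw [this]; ring
  rw [h2]; ring

theorem cosh_four (x : ℝ) : cosh (4 * x) = 8 * cosh x ^ 4 - 8 * cosh x ^ 2 + 1 := by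
  rw [show (4 : ℝ) * x = 2 * (2 * x) by ring, cosh_two, cosh_two]; ring

theorem sinh_four (x : ℝ) : sinh (4 * x) = sinh x * (8 * cosh x ^ 3 - 4 * cosh x) := by
  rw [show (4 : ℝ) * x = 2 * (2 * x) by ring, sinh_two, sinh_two, cosh_two]; ring

end Vale.Agent.P322.CS
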