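import Vale.Agent.P322.HBasic
import Vale.Agent.P322.ExpPoly

/-!
# Piece (C): the function `c(u)` is decreasing, with values in `[1/2, c0]`.
-/

namespace Vale.Agent.P322
namespace CDec
open Real Set Filter Topology

/-- `x C - S` -/
noncomputable def A (x : ℝ) : ℝ := x * cosh x - sinh x

/-- auxiliary function -/
noncomputable def M (x : ℝ) : ℝ :=
  x ^ 2 * sinh x * (2 * cosh x + 1) - x * (cosh x + 1) * (4 * cosh x - 1)
    + 3 * sinh x * (cosh x + 1)

/-- derivative of `M` -/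
noncomputable def M' (x : ℝ) : ℝ :=
  2 * x * sinh x * (2 * cosh x + 1) + x ^ 2 * (cosh x * (2 * cosh x + 1) + 2 * sinh x ^ 2)
    - ((cosh x + 1) * (4 * cosh x - 1) + x * (sinh x * (8 * cosh x + 3)))
    + (3 * cosh x * (cosh x + 1) + 3 * sinh x ^ 2)

lemma hasDerivAt_A (x : ℝ) : HasDerivAt A (x * sinh x) x := by
  have h := ((hasDerivAt_id x).mul (hasDerivAt_cosh x)).sub (hasDerivAt_sinh x)
  refine (h.congr_deriv ?_).congr_of_eventuallyEq (Eventually.of_forall fun y => ?_)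
  · simp only [id]; ring
  · simp [A]

lemma hasDerivAt_M (x : ℝ) : HasDerivAt M (M' x) x := by
  have hx := hasDerivAt_id x
  have hc := hasDerivAt_cosh x
  have hs := hasDerivAt_sinh x
  have h1 := ((hx.pow 2).mul hs).mul ((hc.const_mul 2).add_const 1)
  have h2 := (hx.mul (hc.add_const 1)).mul ((hc.const_mul 4).sub_const 1)
  have h3 := (hs.const_mul 3).mul (hc.add_const 1)
  have h := (h1.sub h2).add h3
  refine (h.congr_deriv ?_).congr_of_eventuallyEq (Eventually.of_forall fun y => ?_)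
  · simp only [id, M', Pi.pow_apply, Pi.mul_apply]; push_cast; ring
  · simp [M]

lemma A_pos {x : ℝ} (hx : 0 < x) : 0 < A x := by
  have h := CS.pos_of_checkPos 3 [⟨1, [0, 1], [-1]⟩] (by decide) hx
  simp only [CS.val, CS.Blk.val, CS.pv, Nat.cast_one, one_mul] at h
  push_cast at h
  simp only [A]
  linarith

lemma M_pos {x : ℝ} (hx : 0 < x) : 0 < M x := by
  have h := CS.pos_of_checkPos 5
    [⟨0, [0, -2], []⟩, ⟨1, [0, -6], [6, 0, 2]⟩, ⟨2, [0, -4], [3, 0, 2]⟩] (by decide) hx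
  simp only [CS.val, CS.Blk.val, CS.pv, Nat.cast_zero, Nat.cast_one, one_mul, zero_mul,
    cosh_zero, sinh_zero, Nat.cast_ofNat, CS.cosh_two, CS.sinh_two] at h
  push_cast at h
  simp only [M]
  nlinarith [h]

lemma F_nonneg {x : ℝ} (hx : 0 ≤ x) :
    0 ≤ 2 * (cosh x + 1) * (x ^ 2 * A x * M' x - (2 * x * A x + x ^ 3 * sinh x) * M x)
      - x * M x ^ 2 := by
  have h := CS.nonneg_of_check 17 [⟨0, [0, -15, 0, 42, 0, 36], []⟩,
    ⟨1, [0, -12, 0, 48, 0, 48], [0, 0, -12, 0, 4]⟩,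
    ⟨2, [0, 12, 0, 4, 0, 12], [0, 0, -32, 0, 8]⟩, ⟨3, [0, 12, 0, 0, 0], [0, 0, -28, 0, 4]⟩,
    ⟨4, [0, 3, 0, 2], [0, 0, -8]⟩] (by decide) hx
  simp only [CS.val, CS.Blk.val, CS.pv, Nat.cast_zero, Nat.cast_one, one_mul, zero_mul,
    cosh_zero, sinh_zero, Nat.cast_ofNat, CS.cosh_two, CS.sinh_two, CS.cosh_three, CS.sinh_three,
    CS.cosh_four, CS.sinh_four] at h
  push_cast at h
  have hS : sinh x ^ 2 = cosh x ^ 2 - 1 := Real.sinh_sq x
  simp only [M, M', A]
  generalize cosh x = C at *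
  generalize sinh x = S at *
  linear_combination (1 / 8) * h - (1 / 8) * ((-48)*C*S*x^2 + (-32)*C*S*x^4 + 48*C*x +
    (-16)*C*x^3 + (-48)*C*x^5 + 24*C^2*x + 32*C^2*x^3 + (-32)*C^2*x^5 + (-48)*S*x^2 +
    (-32)*S*x^4 + 24*x + (-48)*x^3 + (-24)*x^5) * hS

/-- `H` in the variable `x = 2u` -/
noncomputable def h (x : ℝ) : ℝ := HH (x / 2)

lemma cosh_half_sq (x : ℝ) : cosh (x / 2) ^ 2 = (cosh x + 1) / 2 := by
  have h1 := CS.cosh_two (x / 2)
  rw [show 2 * (x / 2) = x by ring] at h1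
  linarith

lemma hasDerivAt_h (x : ℝ) : HasDerivAt h (-(x / (2 * (cosh x + 1)))) x := by
  have h1 : HasDerivAt (fun y : ℝ => y / 2) (1 / 2) x := (hasDerivAt_id x).div_const 2
  have h2 := (hasDerivAt_HH (x / 2)).comp x h1
  refine h2.congr_deriv ?_
  rw [cosh_half_sq]
  have := cosh_pos x
  field_simp

lemma h_pos (x : ℝ) : 0 < h x := HH_pos _

lemma tendsto_h : Tendsto h atTop (𝓝 0) := by
  have h1 : Tendsto (fun x : ℝ => x / 2) atTop atTop := tendsto_id.atTop_div_const (by norm_num)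
  exact tendsto_HH.comp h1

/-- the comparison function minus `h` -/
noncomputable def D (x : ℝ) : ℝ := x ^ 2 * A x / M x - h x

lemma hasDerivAt_D {x : ℝ} (hx : 0 < x) :
    HasDerivAt D (((2 * x * A x + x ^ 2 * (x * sinh x)) * M x - x ^ 2 * A x * M' x) / M x ^ 2
      - (-(x / (2 * (cosh x + 1))))) x := by
  have h1 := (((hasDerivAt_id x).pow 2).mul (hasDerivAt_A x)).div (hasDerivAt_M x) (M_pos hx).ne'
  have h2 := h1.sub (hasDerivAt_h x)
  refine (h2.congr_deriv ?_).congr_of_eventuallyEq (Eventually.of_forall fun y => ?_)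
  · simp only [id, Pi.pow_apply, Pi.mul_apply]; push_cast; ring
  · simp [D]

lemma D_deriv_nonpos {x : ℝ} (hx : 0 < x) :
    ((2 * x * A x + x ^ 2 * (x * sinh x)) * M x - x ^ 2 * A x * M' x) / M x ^ 2
      - (-(x / (2 * (cosh x + 1)))) ≤ 0 := by
  have hM := M_pos hx
  have hC := cosh_pos x
  have hF := F_nonneg hx.le
  have : ((2 * x * A x + x ^ 2 * (x * sinh x)) * M x - x ^ 2 * A x * M' x) / M x ^ 2
      - (-(x / (2 * (cosh x + 1))))
      = -(2 * (cosh x + 1) * (x ^ 2 * A x * M' x - (2 * x * A x + x ^ 3 * sinh x) * M x)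
      - x * M x ^ 2) / (M x ^ 2 * (2 * (cosh x + 1))) := by
    field_simp
    ring
  rw [this]
  apply div_nonpos_of_nonpos_of_nonneg
  · linarith
  · positivity

lemma antitoneOn_Ioi_of_deriv {f f' : ℝ → ℝ} (hd : ∀ x, 0 < x → HasDerivAt f (f' x) x)
    (hf : ∀ x, 0 < x → f' x ≤ 0) : AntitoneOn f (Ioi 0) := by
  apply antitoneOn_of_deriv_nonpos (convex_Ioi 0)
  · exact fun y hy => (hd y hy).continuousAt.continuousWithinAt
  · intro y hy
    rw [interior_Ioi] at hy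
    exact (hd y hy).differentiableAt.differentiableWithinAt
  · intro y hy
    rw [interior_Ioi] at hy
    rw [(hd y hy).deriv]
    exact hf y hy

lemma D_antitoneOn : AntitoneOn D (Ioi 0) :=
  antitoneOn_Ioi_of_deriv (fun _ hx => hasDerivAt_D hx) (fun _ hx => D_deriv_nonpos hx)

lemma D_nonneg {x : ℝ} (hx : 0 < x) : 0 ≤ D x := by
  have h1 : Tendsto (fun y => -h y) atTop (𝓝 0) := by simpa using tendsto_h.neg
  refine le_of_tendsto h1 ?_
  filter_upwards [eventually_ge_atTop x] with y hy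
  have hy0 : 0 < y := hx.trans_le hy
  have h2 : D y ≤ D x := D_antitoneOn hx hy0 hy
  have h3 : 0 ≤ y ^ 2 * A y / M y := by
    have := A_pos hy0
    have := M_pos hy0
    positivity
  have h4 : D y = y ^ 2 * A y / M y - h y := rfl
  linarith

lemma h_mul_M_le {x : ℝ} (hx : 0 < x) : h x * M x ≤ x ^ 2 * A x := by
  have h1 := D_nonneg hx
  have h2 : h x ≤ x ^ 2 * A x / M x := by
    have : D x = x ^ 2 * A x / M x - h x := rfl
    linarith
  rwa [le_div_iff₀ (M_pos hx)] at h2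

/-- `cc` in the variable `x = 2u` -/
noncomputable def g (x : ℝ) : ℝ := 2 * (A x * (cosh x + 1) * h x ^ 2) / x ^ 3

lemma cc_eq {u : ℝ} (hu : 0 < u) : cc u = g (2 * u) := by
  simp only [cc, g, etad, A, h]
  rw [show 2 * u / 2 = u by ring, show cosh u ^ 2 = (cosh (2 * u) + 1) / 2 by
    rw [CS.cosh_two]; ring]
  field_simp

lemma hasDerivAt_g {x : ℝ} (hx : 0 < x) :
    HasDerivAt g (2 * h x / x ^ 4 * (h x * M x - x ^ 2 * A x)) x := by
  have h1 := ((((hasDerivAt_A x).mul ((hasDerivAt_cosh x).add_const 1)).mul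
    ((hasDerivAt_h x).pow 2)).const_mul 2).div ((hasDerivAt_id x).pow 3)
    (by simpa using hx.ne')
  refine (h1.congr_deriv ?_).congr_of_eventuallyEq (Eventually.of_forall fun y => ?_)
  · have hC := cosh_pos x
    have hC1 : cosh x + 1 ≠ 0 := by positivity
    have hS : sinh x ^ 2 = cosh x ^ 2 - 1 := Real.sinh_sq x
    simp only [id, Pi.pow_apply, Pi.mul_apply, M, A]
    push_cast
    generalize cosh x = C at *
    generalize sinh x = S at *
    generalize h x = H at *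
    field_simp
    linear_combination (-(H ^ 2 * x)) * hS
  · simp [g]

lemma g_antitoneOn : AntitoneOn g (Ioi 0) :=
  antitoneOn_Ioi_of_deriv (fun _ hx => hasDerivAt_g hx) (fun x hx => by
    have h1 := h_mul_M_le hx
    have h2 := h_pos x
    have h3 : 0 ≤ 2 * h x / x ^ 4 := by positivity
    nlinarith)

lemma A_le {x : ℝ} (hx : 0 ≤ x) : A x ≤ x ^ 3 * cosh x / 3 := by
  have h := CS.nonneg_of_check 3 [⟨1, [0, -3, 0, 1], [3]⟩] (by decide) hx
  simp only [CS.val, CS.Blk.val, CS.pv, Nat.cast_one, one_mul] at h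
  push_cast at h
  simp only [A]
  linarith

lemma g_le {x : ℝ} (hx : 0 < x) : g x ≤ 2 / 3 * (cosh x * (cosh x + 1) * h x ^ 2) := by
  have h1 := A_le hx.le
  have hC := cosh_pos x
  have h2 : 0 ≤ (cosh x + 1) * h x ^ 2 := by positivity
  have h3 : A x * ((cosh x + 1) * h x ^ 2) ≤ x ^ 3 * cosh x / 3 * ((cosh x + 1) * h x ^ 2) :=
    mul_le_mul_of_nonneg_right h1 h2
  have hx3 : 0 < x ^ 3 := by positivity
  rw [g, div_le_iff₀ hx3]
  calc 2 * (A x * (cosh x + 1) * h x ^ 2) = 2 * (A x * ((cosh x + 1) * h x ^ 2)) := by ring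
    _ ≤ 2 * (x ^ 3 * cosh x / 3 * ((cosh x + 1) * h x ^ 2)) := by linarith
    _ = 2 / 3 * (cosh x * (cosh x + 1) * h x ^ 2) * x ^ 3 := by ring

lemma h_zero : h 0 = log 2 := by simp [h, HH_zero]

lemma g_le_c0 {x : ℝ} (hx : 0 < x) : g x ≤ c0 := by
  have hcont : Continuous fun y : ℝ => 2 / 3 * (cosh y * (cosh y + 1) * h y ^ 2) := by
    have h1 : Continuous h := continuous_iff_continuousAt.mpr
      fun y => (hasDerivAt_h y).continuousAt
    have h2 := continuous_cosh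
    fun_prop
  have h1 : Tendsto (fun y : ℝ => 2 / 3 * (cosh y * (cosh y + 1) * h y ^ 2)) (𝓝[>] 0) (𝓝 c0) := by
    have h2 : (2 / 3 * (cosh 0 * (cosh 0 + 1) * h 0 ^ 2) : ℝ) = c0 := by
      rw [cosh_zero, h_zero, c0]; ring
    have h3 := hcont.tendsto 0
    rw [h2] at h3
    exact h3.mono_left nhdsWithin_le_nhds
  refine ge_of_tendsto h1 ?_
  have h4 : Ioo (0 : ℝ) x ∈ 𝓝[>] (0 : ℝ) := Ioo_mem_nhdsGT hx
  filter_upwards [h4] with y hy
  exact (g_antitoneOn hy.1 hx hy.2.le).trans (g_le hy.1)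

lemma le_g {y : ℝ} (hy : 1 ≤ y) : 1 / 2 - 1 / y ≤ g y := by
  have hy0 : 0 < y := by linarith
  have hS : sinh y ^ 2 = cosh y ^ 2 - 1 := Real.sinh_sq y
  have hSp : 0 < sinh y := sinh_pos_iff.mpr hy0
  have hCS : sinh y < cosh y := sinh_lt_cosh y
  have hC1 : 1 < cosh y := one_lt_cosh.mpr hy0.ne'
  have h1 : 1 / 2 ≤ h y * (sinh y / y) := by
    have := le_HS (show 0 < y / 2 by positivity)
    rwa [show 2 * (y / 2) = y by ring] at this
  have h2 : y / 2 ≤ h y * sinh y := by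
    rw [mul_div_assoc', le_div_iff₀ hy0] at h1
    linarith
  have h3 : (y / 2) ^ 2 ≤ (h y * sinh y) ^ 2 := pow_le_pow_left₀ (by positivity) h2 2
  have hA := A_pos hy0
  have h4 : (cosh y - 1) * (y - 2) ≤ A y := by
    simp only [A]; nlinarith
  have hy3 : 0 < y ^ 3 := by positivity
  rw [g, le_div_iff₀ hy3]
  have h5 : (1 / 2 - 1 / y) * y ^ 3 = y ^ 2 * (y - 2) / 2 := by
    field_simp
  rw [h5]
  have h6 : (cosh y - 1) * (y ^ 2 * (y - 2) / 2) ≤
      (cosh y - 1) * (2 * (A y * (cosh y + 1) * h y ^ 2)) := by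
    have h7 : (cosh y - 1) * (2 * (A y * (cosh y + 1) * h y ^ 2))
        = 2 * (A y * (h y * sinh y) ^ 2) := by
      rw [mul_pow, hS]; ring
    rw [h7]
    have h8 : A y * (y / 2) ^ 2 ≤ A y * (h y * sinh y) ^ 2 :=
      mul_le_mul_of_nonneg_left h3 hA.le
    have h9 : (cosh y - 1) * (y - 2) * (y ^ 2 / 2) ≤ A y * (y ^ 2 / 2) :=
      mul_le_mul_of_nonneg_right h4 (by positivity)
    nlinarith
  exact le_of_mul_le_mul_left h6 (by linarith)

lemma half_le_g {x : ℝ} (hx : 0 < x) : 1 / 2 ≤ g x := by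
  have h1 : Tendsto (fun y : ℝ => 1 / 2 - 1 / y) atTop (𝓝 (1 / 2)) := by
    have h2 : Tendsto (fun y : ℝ => 1 / y) atTop (𝓝 0) := by
      simpa using tendsto_inv_atTop_zero (𝕜 := ℝ)
    have h3 := h2.const_sub (1 / 2 : ℝ)
    rwa [sub_zero] at h3
  refine le_of_tendsto h1 ?_
  filter_upwards [eventually_ge_atTop (max x 1)] with y hy
  have hy1 : 1 ≤ y := (le_max_right _ _).trans hy
  have hyx : x ≤ y := (le_max_left _ _).trans hy
  exact (le_g hy1).trans (g_antitoneOn hx (hx.trans_le hyx) hyx)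

end CDec

open Real Set Filter Topology

theorem cc_antitoneOn : AntitoneOn cc (Ioi 0) := by
  intro a ha b hb hab
  rw [mem_Ioi] at ha hb
  rw [CDec.cc_eq ha, CDec.cc_eq hb]
  exact CDec.g_antitoneOn (by simpa using ha) (by simpa using hb) (by linarith)

theorem cc_le {u : ℝ} (h : 0 < u) : cc u ≤ c0 := by
  rw [CDec.cc_eq h]
  exact CDec.g_le_c0 (by positivity)

theorem le_cc {u : ℝ} (h : 0 < u) : 1 / 2 ≤ cc u := by
  rw [CDec.cc_eq h]
  exact CDec.half_le_g (by positivity)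

end Vale.Agent.P322
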