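import Vale.Agent.P322.Defs

/-!
# Convexity of `J`, two-point log-Sobolev inequality, and inequality (Y)
-/

open Real Set Filter Topology

namespace Vale.Agent.P322

namespace JConvAux

/-! ### the log-sum inequality -/

lemma log_sum {ι : Type*} [Fintype ι] [Nonempty ι] (x y : ι → ℝ) (hx : ∀ i, 0 < x i)
    (hy : ∀ i, 0 < y i) :
    (∑ i, x i) * (log (∑ i, x i) - log (∑ i, y i)) ≤ ∑ i, x i * (log (x i) - log (y i)) := by
  set X := ∑ i, x i with hX
  set Y := ∑ i, y i with hY
  have hX0 : 0 < X := Finset.sum_pos (fun i _ => hx i) Finset.univ_nonempty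
  have hY0 : 0 < Y := Finset.sum_pos (fun i _ => hy i) Finset.univ_nonempty
  have h : ∀ i, x i * (log X - log Y) + (x i - y i * (X / Y)) ≤
      x i * (log (x i) - log (y i)) := by
    intro i
    have h1 : Real.log (y i * X / (x i * Y)) ≤ y i * X / (x i * Y) - 1 :=
      Real.log_le_sub_one_of_pos (by have := hx i; have := hy i; positivity)
    have h2 : Real.log (y i * X / (x i * Y)) = log (y i) + log X - (log (x i) + log Y) := by
      rw [Real.log_div (mul_pos (hy i) hX0).ne' (mul_pos (hx i) hY0).ne',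
        Real.log_mul (hy i).ne' hX0.ne', Real.log_mul (hx i).ne' hY0.ne']
    rw [h2] at h1
    have h3 := mul_le_mul_of_nonneg_left h1 (hx i).le
    have h4 : x i * (y i * X / (x i * Y) - 1) = y i * (X / Y) - x i := by
      have := (hx i).ne'
      field_simp
    rw [h4] at h3
    nlinarith
  have hs := Finset.sum_le_sum (fun i (_ : i ∈ Finset.univ) => h i)
  rw [Finset.sum_add_distrib, ← Finset.sum_mul, Finset.sum_sub_distrib, ← Finset.sum_mul] at hs
  have h5 : ∑ i, x i - (∑ i, y i) * (X / Y) = 0 := by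
    rw [← hX, ← hY]; field_simp; ring
  rw [h5, add_zero] at hs
  exact hs

/-- symmetric relative entropy -/
lemma sym_sum {ι : Type*} [Fintype ι] [Nonempty ι] (x y : ι → ℝ) (hx : ∀ i, 0 < x i)
    (hy : ∀ i, 0 < y i) :
    (avg x - avg y) * (log (avg x) - log (avg y)) ≤
      avg fun i => (x i - y i) * (log (x i) - log (y i)) := by
  have hc : (0 : ℝ) < Fintype.card ι := by exact_mod_cast Fintype.card_pos
  have h1 := log_sum x y hx hy
  have h2 := log_sum y x hy hx
  have hX0 : 0 < ∑ i, x i := Finset.sum_pos (fun i _ => hx i) Finset.univ_nonempty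
  have hY0 : 0 < ∑ i, y i := Finset.sum_pos (fun i _ => hy i) Finset.univ_nonempty
  unfold avg
  rw [Real.log_div hX0.ne' hc.ne', Real.log_div hY0.ne' hc.ne', le_div_iff₀ hc]
  have h3 : ∑ i, (x i - y i) * (log (x i) - log (y i)) =
      ∑ i, x i * (log (x i) - log (y i)) + ∑ i, y i * (log (y i) - log (x i)) := by
    rw [← Finset.sum_add_distrib]
    exact Finset.sum_congr rfl fun i _ => by ring
  rw [h3]
  refine le_trans (le_of_eq ?_) (add_le_add h1 h2)
  field_simp
  ring

lemma avg_affine {ι : Type*} [Fintype ι] [Nonempty ι] (s : ι → ℝ) (c : ℝ) :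
    avg (fun i => 1 + c * s i) = 1 + c * avg s := by
  have hc : (Fintype.card ι : ℝ) ≠ 0 := by
    exact_mod_cast Fintype.card_ne_zero
  unfold avg
  rw [Finset.sum_add_distrib, ← Finset.mul_sum]
  simp
  field_simp

end JConvAux

open JConvAux in
theorem JJ_jensen {ι : Type*} [Fintype ι] [Nonempty ι] (s t : ι → ℝ)
    (hs : ∀ i, s i ∈ Ioo (-1 : ℝ) 1) (ht : ∀ i, t i ∈ Ioo (-1 : ℝ) 1) :
    JJ (avg s) (avg t) ≤ avg fun i => JJ (s i) (t i) := by
  have h1 := sym_sum (fun i => 1 + 1 * s i) (fun i => 1 + 1 * t i)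
    (fun i => by have := (hs i).1; linarith) (fun i => by have := (ht i).1; linarith)
  have h2 := sym_sum (fun i => 1 + (-1) * s i) (fun i => 1 + (-1) * t i)
    (fun i => by have := (hs i).2; linarith) (fun i => by have := (ht i).2; linarith)
  rw [avg_affine, avg_affine] at h1 h2
  have h3 : (avg fun i => JJ (s i) (t i)) =
      ((avg fun i => (1 + 1 * s i - (1 + 1 * t i)) * (log (1 + 1 * s i) - log (1 + 1 * t i))) +
      (avg fun i => (1 + (-1) * s i - (1 + (-1) * t i)) *
        (log (1 + (-1) * s i) - log (1 + (-1) * t i)))) / 8 := by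
    unfold avg JJ ath
    rw [← add_div, ← Finset.sum_add_distrib, div_right_comm, Finset.sum_div _ _ (8 : ℝ)]
    congr 1
    refine Finset.sum_congr rfl fun i _ => ?_
    rw [one_mul, one_mul, neg_one_mul, neg_one_mul, ← sub_eq_add_neg, ← sub_eq_add_neg]
    ring
  rw [h3]
  unfold JJ ath
  rw [one_mul, one_mul] at h1
  rw [neg_one_mul, neg_one_mul, ← sub_eq_add_neg, ← sub_eq_add_neg] at h2
  linarith

namespace JConvAux

/-! ### hyperbolic parametrisation -/

lemma one_add_tanh (u : ℝ) : 1 + tanh u = exp u / cosh u := by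
  rw [tanh_eq_sinh_div_cosh, ← cosh_add_sinh]
  field_simp [(cosh_pos u).ne']

lemma one_sub_tanh (u : ℝ) : 1 - tanh u = exp (-u) / cosh u := by
  rw [tanh_eq_sinh_div_cosh, ← cosh_sub_sinh]
  field_simp [(cosh_pos u).ne']

lemma log_one_add_tanh (u : ℝ) : log (1 + tanh u) = u - log (cosh u) := by
  rw [one_add_tanh, Real.log_div (exp_pos u).ne' (cosh_pos u).ne', Real.log_exp]

lemma log_one_sub_tanh (u : ℝ) : log (1 - tanh u) = -u - log (cosh u) := by
  rw [one_sub_tanh, Real.log_div (exp_pos _).ne' (cosh_pos u).ne', Real.log_exp]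

lemma ath_tanh' (u : ℝ) : ath (tanh u) = u := by
  unfold ath
  rw [log_one_add_tanh, log_one_sub_tanh]
  ring

lemma Phi_tanh' (u : ℝ) : Phi (tanh u) = u * tanh u - log (cosh u) := by
  unfold Phi
  rw [log_one_add_tanh, log_one_sub_tanh]
  ring

lemma exists_tanh {t : ℝ} (h : t ∈ Ioo (-1 : ℝ) 1) : t = tanh (ath t) := by
  have h1 : 0 < 1 + t := by linarith [h.1]
  have h2 : 0 < 1 - t := by linarith [h.2]
  have h3 : ath t = artanh t := by
    rw [artanh_eq_half_log ⟨h.1.le, h.2.le⟩, Real.log_div h1.ne' h2.ne']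
    unfold ath
    ring
  rw [h3, tanh_artanh h]

lemma ath_pos {t : ℝ} (h0 : 0 < t) (h1 : t < 1) : 0 < ath t := by
  unfold ath
  have : log (1 - t) < log (1 + t) := Real.log_lt_log (by linarith) (by linarith)
  linarith

/-- `G₂ ≥ 0` : `u tanh u ≤ 2 ln cosh u` -/
lemma G2_nonneg' (u : ℝ) : 0 ≤ G2 u := by
  have key : ∀ u : ℝ, 0 ≤ u → 0 ≤ G2 u := by
    intro u hu
    have hd : ∀ x : ℝ, HasDerivAt G2 (tanh x - x / cosh x ^ 2) x := by
      intro x
      have hc := (cosh_pos x).ne'
      have h1 : HasDerivAt (fun x => log (cosh x)) (sinh x / cosh x) x :=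
        (Real.hasDerivAt_cosh x).log hc
      have h2 : HasDerivAt (fun x => tanh x) (1 / cosh x ^ 2) x := by
        have := (Real.hasDerivAt_sinh x).div (Real.hasDerivAt_cosh x) hc
        have e : (fun x => tanh x) = fun x => sinh x / cosh x := by
          funext y; exact tanh_eq_sinh_div_cosh y
        rw [e]
        refine this.congr_deriv ?_
        have h5 := Real.cosh_sq x
        congr 1
        nlinarith
      have h3 : HasDerivAt (fun x => 2 * log (cosh x) - x * tanh x)
          (2 * (sinh x / cosh x) - (1 * tanh x + x * (1 / cosh x ^ 2))) x :=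
        (h1.const_mul 2).sub ((hasDerivAt_id x).mul h2)
      refine HasDerivAt.congr_deriv (f := G2) h3 ?_
      rw [tanh_eq_sinh_div_cosh]
      ring
    have hmono : MonotoneOn G2 (Ici 0) := by
      apply monotoneOn_of_deriv_nonneg (convex_Ici 0)
      · exact fun x _ => (hd x).continuousAt.continuousWithinAt
      · exact fun x _ => (hd x).differentiableAt.differentiableWithinAt
      · intro x hx
        rw [interior_Ici] at hx
        rw [(hd x).deriv, tanh_eq_sinh_div_cosh]
        have hx0 : 0 < x := hx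
        have hc := cosh_pos x
        have h1 : x ≤ sinh x := self_le_sinh_iff.2 hx0.le
        have h2 : 1 ≤ cosh x := one_le_cosh x
        have h3 : sinh x / cosh x - x / cosh x ^ 2 = (sinh x * cosh x - x) / cosh x ^ 2 := by
          field_simp
        rw [h3]
        apply div_nonneg _ (by positivity)
        nlinarith
    have := hmono (Set.mem_Ici.2 le_rfl) (Set.mem_Ici.2 hu) hu
    simpa [G2] using this
  rcases le_total 0 u with h | h
  · exact key u h
  · have := key (-u) (by linarith)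
    have e : G2 (-u) = G2 u := by unfold G2; rw [cosh_neg, tanh_neg]; ring
    rwa [e] at this

/-- `2 Φ(δ) ≤ δ artanh δ` -/
lemma two_Phi_le {δ : ℝ} (h : δ ∈ Ioo (-1 : ℝ) 1) : 2 * Phi δ ≤ δ * ath δ := by
  have h1 := exists_tanh h
  set u := ath δ with hu
  rw [h1, Phi_tanh']
  have := G2_nonneg' u
  unfold G2 at this
  linarith

/-- the homogeneous form of the entropy defect -/
lemma hom_defect {x y : ℝ} (hx : 0 < x) (hy : 0 < y) :
    x * log x + y * log y - (x + y) * log ((x + y) / 2) =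
      (x + y) * Phi ((y - x) / (x + y)) := by
  have hc : 0 < (x + y) / 2 := by linarith
  have h1 : 1 + (y - x) / (x + y) = y / ((x + y) / 2) := by field_simp; ring
  have h2 : 1 - (y - x) / (x + y) = x / ((x + y) / 2) := by field_simp; ring
  unfold Phi
  rw [h1, h2, Real.log_div hx.ne' hc.ne', Real.log_div hy.ne' hc.ne']
  field_simp
  ring

/-- `log y - log x = 2 artanh ((y-x)/(x+y))` -/
lemma log_sub_log {x y : ℝ} (hx : 0 < x) (hy : 0 < y) :
    log y - log x = 2 * ath ((y - x) / (x + y)) := by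
  have hc : 0 < (x + y) / 2 := by linarith
  have h1 : 1 + (y - x) / (x + y) = y / ((x + y) / 2) := by field_simp; ring
  have h2 : 1 - (y - x) / (x + y) = x / ((x + y) / 2) := by field_simp; ring
  unfold ath
  rw [h1, h2, Real.log_div hx.ne' hc.ne', Real.log_div hy.ne' hc.ne']
  ring

lemma ratio_mem {x y : ℝ} (hx : 0 < x) (hy : 0 < y) : (y - x) / (x + y) ∈ Ioo (-1 : ℝ) 1 := by
  have : 0 < x + y := by linarith
  constructor
  · rw [lt_div_iff₀ this]; linarith
  · rw [div_lt_iff₀ this]; linarith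

lemma half_lsi {x y : ℝ} (hx : 0 < x) (hy : 0 < y) :
    x * log x + y * log y - (x + y) * log ((x + y) / 2) ≤ (y - x) * (log y - log x) / 4 := by
  rw [hom_defect hx hy, log_sub_log hx hy]
  have h := two_Phi_le (ratio_mem hx hy)
  have hs : 0 < x + y := by linarith
  have h2 := mul_le_mul_of_nonneg_left h hs.le
  have h3 : (x + y) * ((y - x) / (x + y) * ath ((y - x) / (x + y))) =
      (y - x) * ath ((y - x) / (x + y)) := by
    field_simp
  rw [h3] at h2
  linarith

end JConvAux

open JConvAux in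
/-- two-point log-Sobolev -/
theorem LSI {s t : ℝ} (hs : s ∈ Ioo (-1 : ℝ) 1) (ht : t ∈ Ioo (-1 : ℝ) 1) :
    Phi s + Phi t - 2 * Phi ((s + t) / 2) ≤ JJ s t := by
  have a1 : 0 < 1 + s := by linarith [hs.1]
  have a2 : 0 < 1 + t := by linarith [ht.1]
  have b1 : 0 < 1 - s := by linarith [hs.2]
  have b2 : 0 < 1 - t := by linarith [ht.2]
  have h1 := half_lsi a1 a2
  have h2 := half_lsi b1 b2
  have e1 : (1 + s + (1 + t)) / 2 = 1 + (s + t) / 2 := by ring
  have e2 : (1 - s + (1 - t)) / 2 = 1 - (s + t) / 2 := by ring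
  rw [e1] at h1
  rw [e2] at h2
  unfold Phi JJ ath
  nlinarith

namespace JConvAux

/-- `P(v) = Φ(tanh v) / tanh v` -/
noncomputable def PP (v : ℝ) : ℝ := Phi (tanh v) / tanh v

lemma PP_eq {v : ℝ} (hv : 0 < v) : PP v = v - log (cosh v) * cosh v / sinh v := by
  unfold PP
  have h1 : 0 < sinh v := sinh_pos_iff.2 hv
  have h2 := cosh_pos v
  rw [Phi_tanh', tanh_eq_sinh_div_cosh]
  field_simp

lemma hasDerivAt_PP {v : ℝ} (hv : 0 < v) :
    HasDerivAt PP (log (1 + sinh v ^ 2) / sinh v ^ 2 / 2) v := by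
  have h1 : 0 < sinh v := sinh_pos_iff.2 hv
  have h2 := cosh_pos v
  have hd : HasDerivAt (fun v => v - log (cosh v) * cosh v / sinh v)
      (1 - ((sinh v / cosh v * cosh v + log (cosh v) * sinh v) * sinh v -
        log (cosh v) * cosh v * cosh v) / sinh v ^ 2) v :=
    (hasDerivAt_id v).sub ((((Real.hasDerivAt_cosh v).log h2.ne').mul
      (Real.hasDerivAt_cosh v)).div (Real.hasDerivAt_sinh v) h1.ne')
  have he : PP =ᶠ[𝓝 v] fun v => v - log (cosh v) * cosh v / sinh v := by
    filter_upwards [lt_mem_nhds hv] with w hw using PP_eq hw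
  have hd' := hd.congr_of_eventuallyEq he
  refine hd'.congr_deriv ?_
  have h3 : 1 + sinh v ^ 2 = cosh v ^ 2 := by rw [Real.cosh_sq]; ring
  have h4 : log (cosh v ^ 2) = 2 * log (cosh v) := by rw [Real.log_pow]; norm_num
  rw [h3, h4]
  have h5 := Real.cosh_sq v
  field_simp
  rw [h5]
  ring

lemma log_div_antitone {x y : ℝ} (hx : 0 < x) (hxy : x ≤ y) :
    log (1 + y) / y ≤ log (1 + x) / x := by
  have hy : 0 < y := hx.trans_le hxy
  have hconc := strictConcaveOn_log_Ioi.concaveOn
  have h1 : (1 : ℝ) ∈ Ioi (0 : ℝ) := by simp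
  have h2 : (1 + y : ℝ) ∈ Ioi (0 : ℝ) := by simp; linarith
  have h3 := hconc.2 h1 h2
    (show (0 : ℝ) ≤ 1 - x / y by rw [sub_nonneg, div_le_one hy]; exact hxy)
    (show (0 : ℝ) ≤ x / y by positivity) (by ring)
  simp only [smul_eq_mul, Real.log_one, mul_zero, zero_add] at h3
  have h4 : (1 - x / y) * 1 + x / y * (1 + y) = 1 + x := by field_simp; ring
  rw [h4] at h3
  rw [div_le_div_iff₀ hy hx]
  have h5 := mul_le_mul_of_nonneg_left h3 hy.le
  have h6 : y * (x / y * log (1 + y)) = log (1 + y) * x := by field_simp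
  rw [h6] at h5
  linarith

lemma concaveOn_PP : ConcaveOn ℝ (Ioi 0) PP := by
  apply AntitoneOn.concaveOn_of_deriv (convex_Ioi 0)
  · exact fun x hx => (hasDerivAt_PP hx).continuousAt.continuousWithinAt
  · rw [interior_Ioi]
    exact fun x hx => (hasDerivAt_PP hx).differentiableAt.differentiableWithinAt
  · rw [interior_Ioi]
    intro x hx y hy hxy
    rw [(hasDerivAt_PP hx).deriv, (hasDerivAt_PP hy).deriv]
    have h1 : 0 < sinh x := sinh_pos_iff.2 hx
    have h2 : sinh x ≤ sinh y := sinh_le_sinh.2 hxy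
    have h3 := log_div_antitone (x := sinh x ^ 2) (y := sinh y ^ 2) (by positivity)
      (pow_le_pow_left₀ h1.le h2 2)
    linarith

end JConvAux

open JConvAux in
/-- (Y) : `y/δ ≤ Φ(tanh v)/tanh v` -/
theorem Y_le {s t : ℝ} (hs : s ∈ Ioo (-1 : ℝ) 1) (ht : t ∈ Ioo (-1 : ℝ) 1) (hst : s < t) :
    (Phi s + Phi t) / 2 - Phi ((s + t) / 2)
      ≤ (t - s) / 2 * (Phi (tanh ((ath t - ath s) / 2)) / tanh ((ath t - ath s) / 2)) := by
  have a1 : 0 < 1 + s := by linarith [hs.1]
  have a2 : 0 < 1 + t := by linarith [ht.1]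
  have b1 : 0 < 1 - s := by linarith [hs.2]
  have b2 : 0 < 1 - t := by linarith [ht.2]
  have h1 := hom_defect a1 a2
  have h2 := hom_defect b2 b1
  have l1 := log_sub_log a1 a2
  have l2 := log_sub_log b2 b1
  set d1 := (1 + t - (1 + s)) / (1 + s + (1 + t)) with hd1
  set d2 := (1 - s - (1 - t)) / (1 - t + (1 - s)) with hd2
  have m1 : d1 ∈ Ioo (-1 : ℝ) 1 := ratio_mem a1 a2
  have m2 : d2 ∈ Ioo (-1 : ℝ) 1 := ratio_mem b2 b1
  have p1 : 0 < d1 := div_pos (by linarith) (by linarith)
  have p2 : 0 < d2 := div_pos (by linarith) (by linarith)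
  have q1 := ath_pos p1 m1.2
  have q2 := ath_pos p2 m2.2
  have t1 := exists_tanh m1
  have t2 := exists_tanh m2
  have hv : (ath t - ath s) / 2 = (1 / 2) * ath d1 + (1 / 2) * ath d2 := by
    unfold ath at l1 l2 ⊢
    linarith
  have hconc := concaveOn_PP.2 (Set.mem_Ioi.2 q1) (Set.mem_Ioi.2 q2)
    (show (0 : ℝ) ≤ 1 / 2 by norm_num) (show (0 : ℝ) ≤ 1 / 2 by norm_num) (by norm_num)
  simp only [smul_eq_mul] at hconc
  rw [← hv] at hconc
  have e1 : PP (ath d1) = Phi d1 / d1 := by unfold PP; rw [← t1]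
  have e2 : PP (ath d2) = Phi d2 / d2 := by unfold PP; rw [← t2]
  rw [e1, e2] at hconc
  have hd : 0 < (t - s) / 2 := by linarith
  have h3 := mul_le_mul_of_nonneg_left hconc hd.le
  refine le_trans (le_of_eq ?_) h3
  have f1 : (1 + s + (1 + t)) * d1 = t - s := by rw [hd1]; field_simp; ring
  have f2 : (1 - t + (1 - s)) * d2 = t - s := by rw [hd2]; field_simp; ring
  have g1 : (t - s) * (Phi d1 / d1) = (1 + s + (1 + t)) * Phi d1 := by
    rw [← f1]; field_simp
  have g2 : (t - s) * (Phi d2 / d2) = (1 - t + (1 - s)) * Phi d2 := by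
    rw [← f2]; field_simp
  have e3 : (1 + s + (1 + t)) / 2 = 1 + (s + t) / 2 := by ring
  have e4 : (1 - t + (1 - s)) / 2 = 1 - (s + t) / 2 := by ring
  rw [e3] at h1
  rw [e4] at h2
  have h5 : (t - s) / 2 * (1 / 2 * (Phi d1 / d1) + 1 / 2 * (Phi d2 / d2)) =
      ((1 + s + (1 + t)) * Phi d1 + (1 - t + (1 - s)) * Phi d2) / 4 := by
    rw [← g1, ← g2]; ring
  rw [h5, ← h1, ← h2]
  unfold Phi
  ring

end Vale.Agent.P322
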