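import Vale.Agent.P322.HInv
import Vale.Agent.P322.JConv
import Vale.Agent.P322.Cdec

/-!
# (BD): the boundary inequality of the two-half Bellman induction
-/

namespace Vale.Agent.P322

open Real Set Filter Topology

/-- the statement of (BE), the elementary two-variable inequality -/
def BdElemStmt : Prop := ∀ (z ω : ℝ), 0 < z → z < 1 → 0 < ω → ω < 1 → ∀ (b b' L m M : ℝ),
    L = -log (1 - z) → M = ω * (1 - (1 - ω) * z) → m = √M →
    b = (1 + ω * z) * (1 - M / 5) →
    b' = b - (1 - ω) * z * (6 / 5 - 6 / 5 * M - 1 / 5 * (1 - ω) ^ 2 * z) → 1 < b →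
    (1 - ω) * (L / 2 * (b - 1) + c0 / 2 * (b - 1) ^ 2 -
      (if exp (-(L / 2 - log 2 + 1 / 2) / c0) ≤ b' then
        (L / 2 - log 2 + 1 / 2) * b' + c0 * (b' * log b' - b') +
          c0 * exp (-(L / 2 - log 2 + 1 / 2) / c0) else 0))
    ≤ ω * L + log (1 + ω * z) - 2 * m * ath (z * m / (1 - (1 - ω) * z))

namespace BdAux

theorem c0_pos : 0 < c0 := by
  have : 0 < log 2 := log_pos (by norm_num)
  rw [c0]; positivity

/-- `q = ln cosh + HS - ln 2` -/
theorem qq_eq {v : ℝ} (hv : 0 < v) :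
    qq v = log (cosh v) + HH v * (sinh (2 * v) / (2 * v)) - log 2 := by
  rw [qq, G2, eta, if_neg hv.ne', HH, log_mul (by norm_num) (cosh_pos v).ne']
  ring

theorem qq_le {v : ℝ} (hv : 0 < v) : qq v ≤ log (cosh v) := by
  rw [qq_eq hv]; linarith [HS_le hv]

theorem le_qq {v : ℝ} (hv : 0 < v) : log (cosh v) - log 2 + 1 / 2 ≤ qq v := by
  rw [qq_eq hv]; linarith [le_HS hv]

section G

variable {v : ℝ}

/-- the slope `p(β) = q(Hinv(H(v)/β))` of `G` -/
noncomputable def pp (v β : ℝ) : ℝ := qq (Hinv (HH v / β))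

/-- `G(β) = β N(H(v)/β)` -/
noncomputable def GG (v β : ℝ) : ℝ := β * NN (HH v / β)

theorem GG_one (hv : 0 ≤ v) : GG v 1 = G2 v := by
  rw [GG, div_one, NN_HH hv, one_mul]

theorem pp_one (hv : 0 ≤ v) : pp v 1 = qq v := by
  rw [pp, div_one, Hinv_HH hv]

theorem GG_nonneg {β : ℝ} (hβ : 0 < β) : 0 ≤ GG v β := mul_nonneg hβ.le (NN_nonneg _)

theorem pp_nonneg (β : ℝ) : 0 ≤ pp v β := qq_nonneg (Hinv_nonneg _)

theorem hasDerivAt_G {β : ℝ} (hβ : 0 < β) : HasDerivAt (GG v) (pp v β) β :=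
  hasDerivAt_GG (HH_pos v) hβ

/-- `G` is nondecreasing -/
theorem GG_mono : MonotoneOn (GG v) (Ioi 0) := by
  apply monotoneOn_of_deriv_nonneg (convex_Ioi 0)
  · exact fun y hy => (hasDerivAt_G hy).continuousAt.continuousWithinAt
  · intro y hy
    rw [interior_Ioi] at hy
    exact (hasDerivAt_G hy).differentiableAt.differentiableWithinAt
  · intro y hy
    rw [interior_Ioi] at hy
    rw [(hasDerivAt_G hy).deriv]
    exact pp_nonneg y

/-- derivative of the slope -/
theorem hasDerivAt_pp {β : ℝ} (hβ : 0 < β) (h : HH v / β < log 2) :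
    HasDerivAt (pp v) (cc (Hinv (HH v / β)) / β) β := by
  have hH := HH_pos v
  have hpos : 0 < HH v / β := by positivity
  have hu := Hinv_pos hpos h
  have h1 : HasDerivAt (fun β : ℝ => HH v / β) (-(HH v / β ^ 2)) β := by
    have := ((hasDerivAt_inv hβ.ne').const_mul (HH v))
    refine (this.congr_deriv ?_)
    field_simp
  have h2 := (hasDerivAt_Hinv hpos h).comp β h1
  have h3 := (hasDerivAt_qq hu).comp β h2
  refine h3.congr_deriv ?_
  rw [cc, HH_Hinv hpos h.le]
  field_simp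

/-- upper bound of the slope for `β ≥ 1` -/
theorem pp_le (hv : 0 < v) {β : ℝ} (hβ : 1 ≤ β) : pp v β ≤ qq v + c0 * log β := by
  have hH := HH_pos v
  have hHl : HH v < log 2 := by
    rw [← HH_zero]
    exact HH_strictAntiOn (mem_Ici.mpr le_rfl) (mem_Ici.mpr hv.le) hv
  have hlt : ∀ y : ℝ, 1 ≤ y → HH v / y < log 2 := by
    intro y hy
    have : HH v / y ≤ HH v := div_le_self hH.le hy
    linarith
  have hd : ∀ y : ℝ, 1 ≤ y → HasDerivAt (fun y => qq v + c0 * log y - pp v y)
      (c0 * y⁻¹ - cc (Hinv (HH v / y)) / y) y := by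
    intro y hy
    have hy0 : 0 < y := by linarith
    have h1 := (((Real.hasDerivAt_log hy0.ne').const_mul c0).const_add (qq v))
    exact h1.sub (hasDerivAt_pp hy0 (hlt y hy))
  have hmono : MonotoneOn (fun y => qq v + c0 * log y - pp v y) (Ici 1) := by
    apply monotoneOn_of_deriv_nonneg (convex_Ici 1)
    · exact fun y hy => (hd y hy).continuousAt.continuousWithinAt
    · intro y hy
      rw [interior_Ici] at hy
      exact (hd y (le_of_lt hy)).differentiableAt.differentiableWithinAt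
    · intro y hy
      rw [interior_Ici, mem_Ioi] at hy
      rw [(hd y hy.le).deriv]
      have hy0 : 0 < y := by linarith
      have h1 := cc_le (Hinv_pos (by positivity) (hlt y hy.le))
      have h2 : cc (Hinv (HH v / y)) / y ≤ c0 / y := div_le_div_of_nonneg_right h1 hy0.le
      rw [← div_eq_mul_inv]
      linarith
  have := hmono (mem_Ici.mpr le_rfl) (mem_Ici.mpr hβ) hβ
  simp only [log_one, mul_zero, add_zero, pp_one hv.le, sub_self] at this
  linarith

/-- lower bound of the slope for `β ≤ 1` -/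
theorem le_pp (hv : 0 < v) {β : ℝ} (hβ0 : 0 < β) (hβ : β ≤ 1) : qq v + c0 * log β ≤ pp v β := by
  have hH := HH_pos v
  have hl2 : 0 < log 2 := log_pos (by norm_num)
  have hHl : HH v < log 2 := by
    rw [← HH_zero]
    exact HH_strictAntiOn (mem_Ici.mpr le_rfl) (mem_Ici.mpr hv.le) hv
  -- first for `β ≥ β₀ := H(v)/ln 2`
  have hb0 : 0 < HH v / log 2 := by positivity
  have hb01 : HH v / log 2 < 1 := by rw [div_lt_one hl2]; exact hHl
  have key : ∀ y ∈ Ioc (HH v / log 2) 1, qq v + c0 * log y ≤ pp v y := by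
    intro y hy
    have hd : ∀ y : ℝ, HH v / log 2 < y → HasDerivAt (fun y => qq v + c0 * log y - pp v y)
        (c0 * y⁻¹ - cc (Hinv (HH v / y)) / y) y := by
      intro y hy
      have hy0 : 0 < y := by linarith
      have hlt : HH v / y < log 2 := by
        rw [div_lt_iff₀ hy0]; rw [div_lt_iff₀ hl2] at hy; linarith
      have h1 := (((Real.hasDerivAt_log hy0.ne').const_mul c0).const_add (qq v))
      exact h1.sub (hasDerivAt_pp hy0 hlt)
    have hmono : MonotoneOn (fun y => qq v + c0 * log y - pp v y) (Ioi (HH v / log 2)) := by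
      apply monotoneOn_of_deriv_nonneg (convex_Ioi _)
      · exact fun y hy => (hd y hy).continuousAt.continuousWithinAt
      · intro y hy
        rw [interior_Ioi] at hy
        exact (hd y hy).differentiableAt.differentiableWithinAt
      · intro y hy
        rw [interior_Ioi, mem_Ioi] at hy
        rw [(hd y hy).deriv]
        have hy0 : 0 < y := by linarith
        have hlt : HH v / y < log 2 := by
          rw [div_lt_iff₀ hy0]; rw [div_lt_iff₀ hl2] at hy; linarith
        have h1 := cc_le (Hinv_pos (by positivity) hlt)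
        have h2 : cc (Hinv (HH v / y)) / y ≤ c0 / y := div_le_div_of_nonneg_right h1 hy0.le
        rw [← div_eq_mul_inv]
        linarith
    have := hmono (mem_Ioi.mpr hy.1) (mem_Ioi.mpr hb01) hy.2
    simp only [log_one, mul_zero, add_zero, pp_one hv.le, sub_self] at this
    linarith
  -- at the end point by continuity
  have hcont : ContinuousAt (fun y => qq v + c0 * log y - pp v y) (HH v / log 2) := by
    have h1 : ContinuousAt (fun y : ℝ => HH v / y) (HH v / log 2) :=
      continuousAt_const.div continuousAt_id hb0.ne'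
    have h2 : ContinuousAt (pp v) (HH v / log 2) := by
      have h3 : ContinuousAt Hinv (HH v / (HH v / log 2)) :=
        continuousOn_Hinv.continuousAt (Ioi_mem_nhds (by positivity))
      exact continuous_qq.continuousAt.comp (ContinuousAt.comp (f := fun y : ℝ => HH v / y) h3 h1)
    exact (continuousAt_const.add (continuousAt_const.mul (continuousAt_log hb0.ne'))).sub h2
  have hend : qq v + c0 * log (HH v / log 2) - pp v (HH v / log 2) ≤ 0 := by
    apply le_of_tendsto (hcont.tendsto.mono_left nhdsWithin_le_nhds : Tendsto _ (𝓝[>] (HH v / log 2)) _)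
    filter_upwards [Ioc_mem_nhdsGT hb01] with y hy
    linarith [key y hy]
  have hpend : pp v (HH v / log 2) = 0 := by
    rw [pp]
    have : HH v / (HH v / log 2) = log 2 := by field_simp
    rw [this, Hinv_of_ge le_rfl, qq_zero]
  rcases lt_or_ge (HH v / log 2) β with h | h
  · exact key β ⟨h, hβ⟩
  · have h1 : log β ≤ log (HH v / log 2) := log_le_log hβ0 h
    have h2 := mul_le_mul_of_nonneg_left h1 c0_pos.le
    have h3 := pp_nonneg (v := v) β
    linarith

/-- primitive of `q + c₀ ln β` -/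
theorem hasDerivAt_prim {q y : ℝ} (hy : 0 < y) :
    HasDerivAt (fun y => q * y + c0 * (y * log y - y)) (q + c0 * log y) y := by
  have h1 := (hasDerivAt_id y).mul (Real.hasDerivAt_log hy.ne')
  have h2 := ((h1.sub (hasDerivAt_id y)).const_mul c0)
  have h3 := ((hasDerivAt_id y).const_mul q).add h2
  refine (h3.congr_deriv ?_)
  have : y * y⁻¹ = 1 := mul_inv_cancel₀ hy.ne'
  simp only [id]
  rw [this]
  ring

/-- `G(b) - G(a) ≤ [q β + c₀(β ln β - β)]_a^b` for `1 ≤ a ≤ b` -/
theorem GG_sub_le (hv : 0 < v) {a b : ℝ} (ha : 1 ≤ a) (hab : a ≤ b) :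
    GG v b - GG v a ≤ (qq v * b + c0 * (b * log b - b)) - (qq v * a + c0 * (a * log a - a)) := by
  have hd : ∀ y : ℝ, 0 < y → HasDerivAt (fun y => (qq v * y + c0 * (y * log y - y)) - GG v y)
      (qq v + c0 * log y - pp v y) y := fun y hy => (hasDerivAt_prim hy).sub (hasDerivAt_G hy)
  have hmono : MonotoneOn (fun y => (qq v * y + c0 * (y * log y - y)) - GG v y) (Ici 1) := by
    apply monotoneOn_of_deriv_nonneg (convex_Ici 1)
    · intro y hy
      have : 0 < y := by have := mem_Ici.mp hy; linarith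
      exact (hd y this).continuousAt.continuousWithinAt
    · intro y hy
      rw [interior_Ici, mem_Ioi] at hy
      exact (hd y (by linarith)).differentiableAt.differentiableWithinAt
    · intro y hy
      rw [interior_Ici, mem_Ioi] at hy
      rw [(hd y (by linarith)).deriv]
      linarith [pp_le hv hy.le]
  have := hmono (mem_Ici.mpr ha) (mem_Ici.mpr (ha.trans hab)) hab
  simp only at this
  linarith

/-- `G(b) - G(a) ≥ [q β + c₀(β ln β - β)]_a^b` for `0 < a ≤ b ≤ 1` -/
theorem le_GG_sub (hv : 0 < v) {a b : ℝ} (ha : 0 < a) (hab : a ≤ b) (hb : b ≤ 1) :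
    (qq v * b + c0 * (b * log b - b)) - (qq v * a + c0 * (a * log a - a)) ≤ GG v b - GG v a := by
  have hd : ∀ y : ℝ, 0 < y → HasDerivAt (fun y => GG v y - (qq v * y + c0 * (y * log y - y)))
      (pp v y - (qq v + c0 * log y)) y := fun y hy => (hasDerivAt_G hy).sub (hasDerivAt_prim hy)
  have hmono : MonotoneOn (fun y => GG v y - (qq v * y + c0 * (y * log y - y))) (Ioc 0 1) := by
    apply monotoneOn_of_deriv_nonneg (convex_Ioc 0 1)
    · exact fun y hy => (hd y hy.1).continuousAt.continuousWithinAt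
    · intro y hy
      rw [interior_Ioc] at hy
      exact (hd y hy.1).differentiableAt.differentiableWithinAt
    · intro y hy
      rw [interior_Ioc] at hy
      rw [(hd y hy.1).deriv]
      linarith [le_pp hv hy.1 hy.2.le]
  have := hmono ⟨ha, hab.trans hb⟩ ⟨lt_of_lt_of_le ha hab, hb⟩ hab
  simp only at this
  linarith

/-- the lower bound function -/
noncomputable def FF (q b : ℝ) : ℝ := q * b + c0 * (b * log b - b) + c0 * exp (-q / c0)

theorem FF_mono {q q' b : ℝ} (h : q ≤ q') (hb : exp (-q / c0) ≤ b) : FF q b ≤ FF q' b := by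
  have hc := c0_pos
  -- `exp(-q/c0) - exp(-q'/c0) ≤ (q'-q)/c0 * exp(-q/c0)`
  have h1 : exp (-q / c0) * (1 - (q' - q) / c0) ≤ exp (-q' / c0) := by
    have e : exp (-q' / c0) = exp (-q / c0) * exp (-((q' - q) / c0)) := by
      rw [← exp_add]; congr 1; field_simp; ring
    rw [e]
    apply mul_le_mul_of_nonneg_left _ (exp_pos _).le
    linarith [add_one_le_exp (-((q' - q) / c0))]
  have h2 : c0 * (exp (-q / c0) * (1 - (q' - q) / c0)) ≤ c0 * exp (-q' / c0) :=
    mul_le_mul_of_nonneg_left h1 hc.le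
  have e2 : c0 * (exp (-q / c0) * (1 - (q' - q) / c0))
      = c0 * exp (-q / c0) - (q' - q) * exp (-q / c0) := by field_simp
  have h3 : (q' - q) * exp (-q / c0) ≤ (q' - q) * b :=
    mul_le_mul_of_nonneg_left hb (by linarith)
  rw [FF, FF]
  rw [e2] at h2
  linarith

/-- `F(q,b) ≤ G(b)` for `e^{-q/c₀} ≤ b ≤ 1` -/
theorem FF_le_GG (hv : 0 < v) {b : ℝ} (hb0 : exp (-qq v / c0) ≤ b) (hb1 : b ≤ 1) :
    FF (qq v) b ≤ GG v b := by
  have hc := c0_pos
  have h1 := le_GG_sub hv (exp_pos _) hb0 hb1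
  have h2 : 0 ≤ GG v (exp (-qq v / c0)) := GG_nonneg (exp_pos _)
  rw [log_exp] at h1
  rw [FF]
  have e : qq v * exp (-qq v / c0) + c0 * (exp (-qq v / c0) * (-qq v / c0) - exp (-qq v / c0))
      = - (c0 * exp (-qq v / c0)) := by
    field_simp
    ring
  rw [e] at h1
  linarith

theorem mul_log_le {b : ℝ} (hb : 1 ≤ b) : b * log b - b + 1 ≤ (b - 1) ^ 2 / 2 := by
  have hd : ∀ y : ℝ, 0 < y → HasDerivAt (fun y => (y - 1) ^ 2 / 2 - (y * log y - y))
      ((y - 1) - log y) y := by
    intro y hy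
    have h1 := (hasDerivAt_id y).mul (Real.hasDerivAt_log hy.ne')
    have h2 := (h1.sub (hasDerivAt_id y))
    have h3 := ((((hasDerivAt_id y).sub_const 1).pow 2).div_const 2).sub h2
    refine (h3.congr_deriv ?_)
    simp
    field_simp
    ring
  have hmono : MonotoneOn (fun y => (y - 1) ^ 2 / 2 - (y * log y - y)) (Ici 1) := by
    apply monotoneOn_of_deriv_nonneg (convex_Ici 1)
    · intro y hy
      have : 0 < y := by have := mem_Ici.mp hy; linarith
      exact (hd y this).continuousAt.continuousWithinAt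
    · intro y hy
      rw [interior_Ici, mem_Ioi] at hy
      exact (hd y (by linarith)).differentiableAt.differentiableWithinAt
    · intro y hy
      rw [interior_Ici, mem_Ioi] at hy
      have hy0 : 0 < y := by linarith
      rw [(hd y hy0).deriv]
      linarith [log_le_sub_one_of_pos hy0]
  have := hmono (mem_Ici.mpr le_rfl) (mem_Ici.mpr hb) hb
  simp at this
  linarith

/-- the case `b > 1` -/
theorem GG_diff (hv : 0 < v) {b b' : ℝ} (hb : 1 ≤ b) (hb'0 : 0 < b') (hb' : b' ≤ b) :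
    GG v b - GG v b' ≤ G2 v + (log (cosh v) * (b - 1) + c0 / 2 * (b - 1) ^ 2 -
      (if exp (-(log (cosh v) - log 2 + 1 / 2) / c0) ≤ b' then
        FF (log (cosh v) - log 2 + 1 / 2) b' else 0)) := by
  have hc := c0_pos
  have h1 : GG v b - GG v 1 ≤ _ := GG_sub_le hv le_rfl hb
  rw [GG_one hv.le] at h1
  simp only [log_one, mul_zero, zero_sub, mul_one] at h1
  have h2 := mul_log_le hb
  have h2' := mul_le_mul_of_nonneg_left h2 hc.le
  have h3 := mul_le_mul_of_nonneg_right (qq_le hv) (by linarith : 0 ≤ b - 1)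
  have hq := le_qq hv
  split_ifs with hif
  · have hF := FF_mono hq hif
    have hexp : exp (-qq v / c0) ≤ b' := by
      refine le_trans ?_ hif
      apply exp_le_exp.mpr
      apply div_le_div_of_nonneg_right _ hc.le
      linarith
    rcases le_total b' 1 with hb1 | hb1
    · have h4 := FF_le_GG hv hexp hb1
      linarith
    · -- `b' > 1`
      have h5 := GG_sub_le hv hb1 hb'
      have hexp1 : exp (-qq v / c0) ≤ 1 := by
        rw [exp_le_one_iff]
        apply div_nonpos_of_nonpos_of_nonneg _ hc.le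
        linarith [qq_nonneg hv.le]
      have h6 := FF_le_GG hv hexp1 le_rfl
      rw [GG_one hv.le] at h6
      rw [FF] at h6 hF
      rw [FF] at hF
      simp only [log_one, mul_zero, zero_sub, mul_one] at h6
      rw [FF]
      linarith
  · have h4 := GG_nonneg (v := v) hb'0
    linarith

end G

/-! ### the geometry of the two-point parametrisation -/

section Geo

variable (c v : ℝ)

/-- `D = cosh² v + sinh² c` -/
noncomputable def DD : ℝ := cosh v ^ 2 + sinh c ^ 2

theorem DD_pos : 0 < DD c v := by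
  have := cosh_pos v
  rw [DD]; positivity

theorem cosh_mul_cosh : cosh (c + v) * cosh (c - v) = DD c v := by
  rw [cosh_add, cosh_sub, DD]
  have h1 := cosh_sq c
  have h2 := cosh_sq v
  nlinarith

theorem tanh_sub_half :
    (tanh (c + v) - tanh (c - v)) / 2 = sinh v * cosh v / DD c v := by
  rw [← cosh_mul_cosh, tanh_eq_sinh_div_cosh, tanh_eq_sinh_div_cosh, div_sub_div _ _
    (cosh_pos _).ne' (cosh_pos _).ne', div_div, div_eq_div_iff (by have := cosh_pos (c + v); have := cosh_pos (c - v); positivity) (by have := cosh_pos (c + v); have := cosh_pos (c - v); positivity)]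
  rw [sinh_add, cosh_add, sinh_sub, cosh_sub]
  have h1 := cosh_sq c
  ring_nf
  rw [show cosh c ^ 4 = (cosh c ^ 2) ^ 2 by ring, h1]
  ring

theorem tanh_add_half :
    (tanh (c + v) + tanh (c - v)) / 2 = sinh c * cosh c / DD c v := by
  rw [← cosh_mul_cosh, tanh_eq_sinh_div_cosh, tanh_eq_sinh_div_cosh, div_add_div _ _
    (cosh_pos _).ne' (cosh_pos _).ne', div_div, div_eq_div_iff (by have := cosh_pos (c + v); have := cosh_pos (c - v); positivity) (by have := cosh_pos (c + v); have := cosh_pos (c - v); positivity)]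
  rw [sinh_add, cosh_add, sinh_sub, cosh_sub]
  have h1 := cosh_sq v
  ring_nf
  rw [show cosh v ^ 4 = (cosh v ^ 2) ^ 2 by ring, h1]
  ring

theorem one_sub_tanh_sq (v : ℝ) : 1 - tanh v ^ 2 = 1 / cosh v ^ 2 := by
  have := cosh_pos v
  have h := cosh_sq v
  rw [tanh_eq_sinh_div_cosh]
  field_simp
  linarith

theorem tanh_mono {a x : ℝ} (h : a ≤ x) : tanh a ≤ tanh x := by
  have h1 : 0 ≤ sinh (x - a) := sinh_nonneg_iff.mpr (by linarith)
  rw [sinh_sub] at h1
  rw [tanh_eq_sinh_div_cosh, tanh_eq_sinh_div_cosh, div_le_div_iff₀ (cosh_pos a) (cosh_pos x)]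
  linarith

theorem ath_neg (x : ℝ) : ath (-x) = -ath x := by
  rw [ath, ath]; ring_nf

theorem abs_mul_ath (k m : ℝ) : |m| * ath (k * |m|) = m * ath (k * m) := by
  rcases abs_cases m with ⟨h, _⟩ | ⟨h, _⟩
  · rw [h]
  · rw [h, mul_neg, ath_neg]; ring

/-- `ath x + ath y = ath t` when `x + y = t (1 + x y)` -/
theorem ath_add {x y t : ℝ} (hx : x ∈ Ioo (-1 : ℝ) 1) (hy : y ∈ Ioo (-1 : ℝ) 1)
    (ht : t ∈ Ioo (-1 : ℝ) 1) (h : x + y = t * (1 + x * y)) : ath x + ath y = ath t := by
  have a1 : 0 < 1 + x := by linarith [hx.1]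
  have a2 : 0 < 1 - x := by linarith [hx.2]
  have b1 : 0 < 1 + y := by linarith [hy.1]
  have b2 : 0 < 1 - y := by linarith [hy.2]
  have c1 : 0 < 1 + t := by linarith [ht.1]
  have c2 : 0 < 1 - t := by linarith [ht.2]
  have e : (1 + x) * (1 + y) * (1 - t) = (1 - x) * (1 - y) * (1 + t) := by nlinarith
  have e2 : log ((1 + x) * (1 + y) * (1 - t)) = log ((1 - x) * (1 - y) * (1 + t)) := by rw [e]
  rw [log_mul (by positivity) (by positivity), log_mul (by positivity) (by positivity),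
    log_mul (by positivity) (by positivity), log_mul (by positivity) (by positivity)] at e2
  rw [ath, ath, ath]
  linarith

theorem Phi_eq {m : ℝ} (hm : m ∈ Ioo (-1 : ℝ) 1) : Phi m = m * ath m + log (1 - m ^ 2) / 2 := by
  have a1 : 0 < 1 + m := by linarith [hm.1]
  have a2 : 0 < 1 - m := by linarith [hm.2]
  have e : 1 - m ^ 2 = (1 + m) * (1 - m) := by ring
  rw [e, log_mul a1.ne' a2.ne', Phi, ath]
  ring

/-- all the geometry in one place: `m` centre, `w` scale, `ω = 1 - w`, `z = tanh² v` -/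
theorem geo {c v : ℝ} (hv : 0 < v) : ∃ m w ω : ℝ,
    (tanh (c - v) + tanh (c + v)) / 2 = m ∧ (tanh (c + v) - tanh (c - v)) / 2 = w * tanh v ∧
    tanh (c - v) = m - w * tanh v ∧ tanh (c + v) = m + w * tanh v ∧
    w + ω = 1 ∧ 0 < w ∧ 0 ≤ ω ∧ m ∈ Ioo (-1 : ℝ) 1 ∧
    m ^ 2 = ω * (1 - w * tanh v ^ 2) ∧ 1 - m ^ 2 = w * (1 + ω * tanh v ^ 2) ∧
    (tanh v ^ 2 / (1 - w * tanh v ^ 2)) * m = tanh v ^ 2 * tanh c ∧
    JJ (tanh (c - v)) (tanh (c + v)) = w * tanh v * v ∧
    JJ (tanh (c - v)) (tanh (c + v)) - (Phi (tanh (c - v)) + Phi (tanh (c + v))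
        - 2 * Phi m) = w * G2 v + (ω * (-log (1 - tanh v ^ 2)) + log (1 + ω * tanh v ^ 2)
          - 2 * (m * ath (tanh v ^ 2 * tanh c))) := by
  have hD := DD_pos c v
  have hch := cosh_pos v
  have hsh : 0 < sinh v := sinh_pos_iff.mpr hv
  have hcc := cosh_pos c
  have hT0 : 0 < tanh v := by rw [tanh_eq_sinh_div_cosh]; positivity
  have hT1 : tanh v < 1 := tanh_lt_one v
  have hTc1 : tanh c < 1 := tanh_lt_one c
  have hTc2 : -1 < tanh c := neg_one_lt_tanh c
  obtain ⟨m, hm⟩ : ∃ m, m = (tanh (c - v) + tanh (c + v)) / 2 := ⟨_, rfl⟩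
  obtain ⟨d, hd⟩ : ∃ d, d = (tanh (c + v) - tanh (c - v)) / 2 := ⟨_, rfl⟩
  obtain ⟨w, hw⟩ : ∃ w, w = cosh v ^ 2 / DD c v := ⟨_, rfl⟩
  obtain ⟨ω, hω⟩ : ∃ ω, ω = sinh c ^ 2 / DD c v := ⟨_, rfl⟩
  obtain ⟨z, hz⟩ : ∃ z, z = tanh v ^ 2 := ⟨_, rfl⟩
  have hm' : m = sinh c * cosh c / DD c v := by rw [hm, add_comm, tanh_add_half]
  have hd' : d = sinh v * cosh v / DD c v := by rw [hd, tanh_sub_half]
  have hs : tanh (c - v) = m - d := by rw [hm, hd]; ring
  have ht : tanh (c + v) = m + d := by rw [hm, hd]; ring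
  have hwω : w + ω = 1 := by rw [hw, hω, ← add_div, ← DD, div_self hD.ne']
  have hw0 : 0 < w := by rw [hw]; positivity
  have hω0 : 0 ≤ ω := by rw [hω]; positivity
  have hz0 : 0 < z := by rw [hz]; positivity
  have hz1 : z < 1 := by rw [hz]; nlinarith
  have hdw : d = w * tanh v := by
    rw [hd', hw, tanh_eq_sinh_div_cosh]; field_simp
  have hd2 : d ^ 2 = w ^ 2 * z := by rw [hdw, hz]; ring
  have hwz : 1 - w * z = cosh c ^ 2 / DD c v := by
    rw [hw, hz, tanh_eq_sinh_div_cosh, eq_div_iff hD.ne']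
    field_simp
    rw [DD]
    have h1 := cosh_sq v
    have h2 := cosh_sq c
    linarith
  have hm2 : m ^ 2 = ω * (1 - w * z) := by
    rw [hwz, hm', hω]; ring
  have hcz : w * (1 - z) = 1 / DD c v := by
    rw [hw, hz, one_sub_tanh_sq]; field_simp
  have h1m : 1 - m ^ 2 = w * (1 + ω * z) := by
    rw [hm2]
    have : w = 1 - ω := by linarith
    rw [this]; ring
  have hmI : m ∈ Ioo (-1 : ℝ) 1 := by
    have : 0 < 1 - m ^ 2 := by rw [h1m]; positivity
    constructor <;> nlinarith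
  have hath : ath m + ath (z * tanh c) = c := by
    have hzT : z * tanh c ∈ Ioo (-1 : ℝ) 1 := by
      constructor <;> nlinarith
    have h := ath_add (t := tanh c) hmI hzT ⟨hTc2, hTc1⟩ ?_
    · rw [h, ath_tanh]
    · have e1 : m = tanh c * (cosh c ^ 2 / DD c v) := by
        rw [hm', tanh_eq_sinh_div_cosh]; field_simp
      have e2 : 1 - z * tanh c ^ 2 = DD c v / (cosh v ^ 2 * cosh c ^ 2) := by
        rw [hz, tanh_eq_sinh_div_cosh, tanh_eq_sinh_div_cosh, DD]
        have h1 := cosh_sq v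
        have h2 := cosh_sq c
        field_simp
        rw [h1, h2]
        ring
      have e3 : 1 - z = 1 / cosh v ^ 2 := by rw [hz, one_sub_tanh_sq]
      have e4 : m * (1 - z * tanh c ^ 2) = tanh c * (1 - z) := by
        rw [e2, e3, e1]; field_simp
      linarith
  have hL : -log (1 - z) = 2 * log (cosh v) := by
    rw [hz, one_sub_tanh_sq, one_div, log_inv, log_pow]; push_cast; ring
  -- the three entropies
  have hsI : tanh (c - v) ∈ Ioo (-1 : ℝ) 1 := ⟨neg_one_lt_tanh _, tanh_lt_one _⟩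
  have htI : tanh (c + v) ∈ Ioo (-1 : ℝ) 1 := ⟨neg_one_lt_tanh _, tanh_lt_one _⟩
  have hJ : JJ (tanh (c - v)) (tanh (c + v)) = d * v := by
    rw [JJ, ath_tanh, ath_tanh, hd]; ring
  have hPhis : Phi (tanh (c - v)) + Phi (tanh (c + v)) = 2 * c * m + 2 * v * d - log (DD c v) := by
    rw [Phi_tanh, Phi_tanh, ← cosh_mul_cosh, log_mul (cosh_pos _).ne' (cosh_pos _).ne', hs, ht]
    ring
  have hPhim : Phi m = m * (c - ath (z * tanh c)) + log (1 - m ^ 2) / 2 := by
    rw [Phi_eq hmI]
    have : ath m = c - ath (z * tanh c) := by linarith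
    rw [this]
  have hlogm : log (1 - m ^ 2) = 2 * log (cosh v) - log (DD c v) + log (1 + ω * z) := by
    have : 0 < 1 + ω * z := by positivity
    rw [h1m, hw, log_mul (by positivity) this.ne', log_div (by positivity) hD.ne', log_pow]
    push_cast; ring
  have hG2 : G2 v = 2 * log (cosh v) - v * tanh v := rfl
  -- the identity `J - 2y = w G₂ + P`
  have hid : JJ (tanh (c - v)) (tanh (c + v)) - (Phi (tanh (c - v)) + Phi (tanh (c + v))
        - 2 * Phi m) = w * G2 v + (ω * (-log (1 - z)) + log (1 + ω * z)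
          - 2 * (m * ath (z * tanh c))) := by
    rw [hJ, hPhis, hPhim, hlogm, hG2, hL]
    have : w = 1 - ω := by linarith
    rw [hdw, this]
    ring
  have e3 : z / (1 - w * z) * m = z * tanh c := by
    rw [hwz, hm', tanh_eq_sinh_div_cosh]; field_simp
  refine ⟨m, w, ω, hm.symm, hd ▸ hdw, hdw ▸ hs, hdw ▸ ht, hwω, hw0, hω0, hmI, hz ▸ hm2, hz ▸ h1m,
    hz ▸ e3, by rw [hJ, hdw], hz ▸ hid⟩

theorem aux_num {w ω z m : ℝ} (h : w + ω = 1) (hw : 0 < w) (hω : 0 ≤ ω) (hz0 : 0 < z) (hz1 : z < 1)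
    (h1m : 1 - m ^ 2 = w * (1 + ω * z)) : 0 ≤ 6 / 5 - 6 / 5 * m ^ 2 - 1 / 5 * w ^ 2 * z := by
  have h1 : 0 ≤ w * (ω * z) := by positivity
  have h2 : w ^ 2 ≤ w := by nlinarith
  have h3 : w ^ 2 * z ≤ w ^ 2 := by nlinarith [sq_nonneg w]
  nlinarith

theorem aa_pos {x : ℝ} (hx : x ∈ Ioo (-1 : ℝ) 1) : 0 < aa x := by
  have : x ^ 2 < 1 := by nlinarith [hx.1, hx.2]
  rw [aa]
  apply mul_pos <;> linarith

/-- the core statement in the parameters `c` (centre) and `v` (half logit gap) -/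
theorem core (hBE : BdElemStmt) {c v : ℝ} (hv : 0 < v) :
    QQ (aa ((tanh (c - v) + tanh (c + v)) / 2)) ((tanh (c + v) - tanh (c - v)) / 2 * theta v)
      - QQ ((aa (tanh (c - v)) + aa (tanh (c + v))) / 2)
          ((tanh (c + v) - tanh (c - v)) / 2 * theta v)
    ≤ JJ (tanh (c - v)) (tanh (c + v)) - (Phi (tanh (c - v)) + Phi (tanh (c + v))
        - 2 * Phi ((tanh (c - v) + tanh (c + v)) / 2)) := by
  obtain ⟨m, w, ω, hm, hd, hs, ht, hwω, hw0, hω0, hmI, hm2, h1m, e3, hJ, hid⟩ := geo (c := c) hv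
  have hsI : tanh (c - v) ∈ Ioo (-1 : ℝ) 1 := ⟨neg_one_lt_tanh _, tanh_lt_one _⟩
  have htI : tanh (c + v) ∈ Ioo (-1 : ℝ) 1 := ⟨neg_one_lt_tanh _, tanh_lt_one _⟩
  have hT0 : 0 < tanh v := by
    rw [tanh_eq_sinh_div_cosh]; exact div_pos (sinh_pos_iff.mpr hv) (cosh_pos v)
  have hT1 : tanh v < 1 := tanh_lt_one v
  have hz0 : 0 < tanh v ^ 2 := by positivity
  have hz1 : tanh v ^ 2 < 1 := by nlinarith
  have hL : -log (1 - tanh v ^ 2) = 2 * log (cosh v) := by
    rw [one_sub_tanh_sq, one_div, log_inv, log_pow]; push_cast; ring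
  have hG2 : G2 v = 2 * log (cosh v) - v * tanh v := rfl
  have hτ : w * tanh v * theta v = w * HH v := by
    rw [theta]; field_simp
  have hnum := aux_num hwω hw0 hω0 hz0 hz1 h1m
  rw [hd, hm, hτ]
  generalize hzdef : tanh v ^ 2 = z at *
  obtain ⟨b, hb⟩ : ∃ b, b = (1 + ω * z) * (1 - m ^ 2 / 5) := ⟨_, rfl⟩
  obtain ⟨b', hb'⟩ : ∃ b', b' = b - w * z * (6 / 5 - 6 / 5 * m ^ 2 - 1 / 5 * w ^ 2 * z) := ⟨_, rfl⟩
  have ham : aa m = w * b := by rw [aa, h1m, hb]; ring
  have ham' : (aa (tanh (c - v)) + aa (tanh (c + v))) / 2 = w * b' := by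
    have e : (aa (m - w * tanh v) + aa (m + w * tanh v)) / 2
        = aa m - w ^ 2 * tanh v ^ 2 * (6 / 5 - 6 / 5 * m ^ 2 - w ^ 2 * tanh v ^ 2 / 5) := by
      rw [aa, aa, aa]; ring
    rw [hs, ht, e, ham, hzdef, hb']; ring
  have hb0 : 0 < b := by
    have h1 := aa_pos hmI
    rw [ham] at h1
    exact (mul_pos_iff_of_pos_left hw0).mp h1
  have hb'0 : 0 < b' := by
    have h1 := aa_pos hsI
    have h2 := aa_pos htI
    have h3 : 0 < w * b' := by rw [← ham']; linarith
    exact (mul_pos_iff_of_pos_left hw0).mp h3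
  have hb'b : b' ≤ b := by
    have h4 : 0 ≤ w * z * (6 / 5 - 6 / 5 * m ^ 2 - 1 / 5 * w ^ 2 * z) := by positivity
    linarith
  have hQ : ∀ β : ℝ, QQ (w * β) (w * HH v) = w * GG v β := by
    intro β
    rw [QQ, GG, mul_div_mul_left _ _ hw0.ne']; ring
  rw [ham', ham, hQ, hQ, hid]
  -- `b ≤ 1` or `b > 1`
  rcases le_or_gt b 1 with hb1 | hb1
  · have h1 : GG v b ≤ G2 v := by
      rw [← GG_one hv.le]
      exact GG_mono (mem_Ioi.mpr hb0) (mem_Ioi.mpr one_pos) hb1
    have h2 := GG_nonneg (v := v) hb'0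
    have h3 := mul_le_mul_of_nonneg_left h1 hw0.le
    have h4 := mul_nonneg hw0.le h2
    -- `P ≥ 0` by (Y)
    have hst : tanh (c - v) < tanh (c + v) := by
      have : 0 < w * tanh v := by positivity
      rw [hs, ht]; linarith
    have h5 := Y_le hsI htI hst
    rw [ath_tanh, ath_tanh, hm, hd] at h5
    have e : (c + v - (c - v)) / 2 = v := by ring
    rw [e, Phi_tanh v] at h5
    have h6 : w * tanh v * ((v * tanh v - log (cosh v)) / tanh v)
        = w * (v * tanh v - log (cosh v)) := by field_simp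
    rw [h6] at h5
    have h7 : w * G2 v ≤ JJ (tanh (c - v)) (tanh (c + v)) - (Phi (tanh (c - v)) + Phi (tanh (c + v))
        - 2 * Phi m) := by
      rw [hJ, hG2]
      linarith
    linarith
  · have hω1 : ω < 1 := by linarith
    have hω0' : 0 < ω := by
      rcases hω0.lt_or_eq with h | h
      · exact h
      · exfalso
        rw [hb, ← h] at hb1
        nlinarith [sq_nonneg m]
    have h1 := GG_diff hv hb1.le hb'0 hb'b
    have h2 := hBE z ω hz0 hz1 hω0' hω1 b b' (-log (1 - z)) (√(m ^ 2)) (m ^ 2) rfl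
      (by rw [hm2]; have : w = 1 - ω := by linarith
          rw [this]) rfl hb (by rw [hb']; have : w = 1 - ω := by linarith
                                rw [this]) hb1
    have e1 : 1 - ω = w := by linarith
    have e2 : z * √(m ^ 2) / (1 - (1 - ω) * z) = z / (1 - w * z) * |m| := by
      rw [sqrt_sq_eq_abs, e1]; ring
    have e4 : 2 * √(m ^ 2) * ath (z * √(m ^ 2) / (1 - (1 - ω) * z))
        = 2 * (m * ath (z * tanh c)) := by
      rw [e2, sqrt_sq_eq_abs, mul_assoc, abs_mul_ath, e3]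
    have e5 : -log (1 - z) / 2 = log (cosh v) := by rw [hL]; ring
    rw [e4, e1, e5] at h2
    have h3 := mul_le_mul_of_nonneg_left h1 hw0.le
    simp only [FF] at h3
    linarith

end Geo

end BdAux

/-- (BD) the boundary inequality, from (BE) -/
theorem Bd_of (hBE : BdElemStmt) {s t : ℝ} (hs : s ∈ Ioo (-1 : ℝ) 1) (ht : t ∈ Ioo (-1 : ℝ) 1) (hst : s < t) :
    QQ (aa ((s + t) / 2)) ((t - s) / 2 * theta ((ath t - ath s) / 2))
      - QQ ((aa s + aa t) / 2) ((t - s) / 2 * theta ((ath t - ath s) / 2))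
    ≤ JJ s t - (Phi s + Phi t - 2 * Phi ((s + t) / 2)) := by
  have e1 : (ath t + ath s) / 2 - (ath t - ath s) / 2 = ath s := by ring
  have e2 : (ath t + ath s) / 2 + (ath t - ath s) / 2 = ath t := by ring
  have hlt : ath s < ath t := by
    by_contra hcon
    push Not at hcon
    have h1 := BdAux.tanh_mono hcon
    rw [tanh_ath hs, tanh_ath ht] at h1
    linarith
  have h := BdAux.core hBE (c := (ath t + ath s) / 2) (v := (ath t - ath s) / 2) (by linarith)
  rw [e1, e2, tanh_ath hs, tanh_ath ht] at h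
  exact h

end Vale.Agent.P322
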