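import Mathlib

/-!
# Courtade-Kumar: the statement

Sample space: `x : Fin n → ℤˣ` (the input `X`, uniform) and `z : Fin n → ℤˣ` (the noise signs,
independent, each equal to `-1` with probability `ε`); the channel output is `Y = x * z`
(coordinatewise product).
-/

namespace Vale.Agent.P322

/-- Probability of the pair `(X, Z) = (x, z)`: `X` is uniform on `{-1,1}^n`, and the signs `Z i`
are independent of `X` and of each other, with `P(Z i = -1) = ε`. -/
noncomputable def sampleProb {n : ℕ} (ε : ℝ) (_x z : Fin n → ℤˣ) : ℝ :=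
  (1 / 2) ^ n * ∏ i, (if z i = -1 then ε else 1 - ε)

/-- Joint distribution of `(f(X), Y)` where `Y = X * Z`: the probability that `f(X) = b` and
`Y = y`. -/
noncomputable def jointLaw {n : ℕ} (f : (Fin n → ℤˣ) → ℤˣ) (ε : ℝ) (b : ℤˣ) (y : Fin n → ℤˣ) : ℝ :=
  ∑ x, ∑ z, if f x = b ∧ x * z = y then sampleProb ε x z else 0

/-- Mutual information in bits of a pair of random variables with values in finite types `α`
and `β` and joint distribution `p`:
`∑ p(a,b) log₂ (p(a,b) / (p(a) p(b)))` (terms with `p(a,b) = 0` vanish). -/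
noncomputable def mutualInfo {α β : Type*} [Fintype α] [Fintype β] (p : α → β → ℝ) : ℝ :=
  ∑ a, ∑ b, p a b * Real.logb 2 (p a b / ((∑ b', p a b') * (∑ a', p a' b)))

/-- Binary entropy in bits. -/
noncomputable def h₂ (p : ℝ) : ℝ := -p * Real.logb 2 p - (1 - p) * Real.logb 2 (1 - p)

end Vale.Agent.P322
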