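import Vale.Agent.P322.Defs
import Vale.Agent.P322.Statement

/-! Reduction of the statement in bits to the inequality `Ent (noise ρ f) ≤ Phi ρ`. -/

namespace Vale.Agent.P322.Channel

open Real

/-- `Bool ≃ {1,-1}` -/
def e : Bool ≃ ℤˣ where
  toFun b := if b then 1 else -1
  invFun u := decide (u = 1)
  left_inv b := by cases b <;> decide
  right_inv u := by
    rcases Int.units_eq_one_or u with h | h <;> subst h <;> decide

/-- `(Fin n → Bool) ≃ (Fin n → {1,-1})` -/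
def cube (n : ℕ) : (Fin n → Bool) ≃ (Fin n → ℤˣ) := Equiv.arrowCongr (Equiv.refl _) e

theorem cube_apply {n : ℕ} (x : Fin n → Bool) (i : Fin n) : cube n x i = e (x i) := rfl

theorem mul_eq_iff {n : ℕ} (x y z : Fin n → ℤˣ) : x * z = y ↔ z = x * y := by
  constructor
  · rintro rfl
    funext i
    simp [Pi.mul_apply, ← mul_assoc]
  · rintro rfl
    funext i
    simp [Pi.mul_apply, ← mul_assoc]

theorem units_mul_eq_neg_one (a b : ℤˣ) : a * b = -1 ↔ a ≠ b := by
  rcases Int.units_eq_one_or a with h | h <;> rcases Int.units_eq_one_or b with h' | h' <;>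
    subst h <;> subst h' <;> decide

theorem jointLaw_eq {n : ℕ} (f : (Fin n → ℤˣ) → ℤˣ) (ε : ℝ) (b : ℤˣ) (y : Fin n → ℤˣ) :
    jointLaw f ε b y
      = (1 / 2) ^ n * ∑ x, (if f x = b then 1 else 0) * ∏ i, (if x i = y i then 1 - ε else ε) := by
  unfold jointLaw
  rw [Finset.mul_sum]
  refine Finset.sum_congr rfl fun x _ => ?_
  rw [Finset.sum_eq_single (x * y)]
  · by_cases h : f x = b
    · have : x * (x * y) = y := (mul_eq_iff x y (x * y)).2 rfl
      simp only [h, this, and_self, if_true, sampleProb, one_mul]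
      congr 1
      refine Finset.prod_congr rfl fun i _ => ?_
      by_cases h2 : x i = y i
      · have : ¬ ((x * y) i = -1) := by
          rw [Pi.mul_apply, units_mul_eq_neg_one]; simpa using h2
        simp [h2, this]
      · have : ((x * y) i = -1) := by
          rw [Pi.mul_apply, units_mul_eq_neg_one]; exact h2
        simp [h2, this]
    · simp [h]
  · intro z _ hz
    have : ¬ (x * z = y) := by
      rw [mul_eq_iff]; exact hz
    simp [this]
  · intro h
    exact absurd (Finset.mem_univ _) h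

/-- the `±1`-valued real function on `Fin n → Bool` -/
noncomputable def fB {n : ℕ} (f : (Fin n → ℤˣ) → ℤˣ) (x : Fin n → Bool) : ℝ :=
  ((f (cube n x) : ℤ) : ℝ)

theorem fB_eq {n : ℕ} (f : (Fin n → ℤˣ) → ℤˣ) (x : Fin n → Bool) : fB f x = 1 ∨ fB f x = -1 := by
  unfold fB
  rcases Int.units_eq_one_or (f (cube n x)) with h | h <;> simp [h]

theorem ker_cube {n : ℕ} (ε : ℝ) (x y : Fin n → Bool) :
    (∏ i, (if cube n x i = cube n y i then 1 - ε else ε)) = ker (1 - 2 * ε) x y := by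
  unfold ker
  refine Finset.prod_congr rfl fun i _ => ?_
  rw [cube_apply, cube_apply]
  by_cases h : x i = y i
  · simp [h]; ring
  · have : ¬ (e (x i) = e (y i)) := fun h' => h (e.injective h')
    simp [h, this]

theorem sum_ker {n : ℕ} (ρ : ℝ) (y : Fin n → Bool) : ∑ x, ker ρ x y = 1 := by
  unfold ker
  rw [← Fintype.prod_sum fun i b => if b = y i then (1 + ρ) / 2 else (1 - ρ) / 2]
  apply Finset.prod_eq_one
  intro i _
  cases h : y i
  · simp
    ring
  · simp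
    ring

theorem ker_comm {n : ℕ} (ρ : ℝ) (x y : Fin n → Bool) : ker ρ x y = ker ρ y x := by
  unfold ker
  refine Finset.prod_congr rfl fun i _ => ?_
  simp only [eq_comm]

theorem ker_nonneg {n : ℕ} {ρ : ℝ} (h0 : -1 ≤ ρ) (h1 : ρ ≤ 1) (x y : Fin n → Bool) :
    0 ≤ ker ρ x y := by
  unfold ker
  refine Finset.prod_nonneg fun i _ => ?_
  split_ifs <;> linarith

theorem jointLaw_cube {n : ℕ} (f : (Fin n → ℤˣ) → ℤˣ) (ε : ℝ) (b : ℤˣ) (y : Fin n → Bool) :
    jointLaw f ε b (cube n y)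
      = (1 / 2) ^ n * ((1 + (b : ℤ) * noise (1 - 2 * ε) (fB f) y) / 2) := by
  rw [jointLaw_eq]
  congr 1
  rw [← (cube n).sum_comp]
  have h1 : ∀ x : Fin n → Bool, (if f (cube n x) = b then (1 : ℝ) else 0)
      = (1 + ((b : ℤ) : ℝ) * fB f x) / 2 := by
    intro x
    unfold fB
    rcases Int.units_eq_one_or (f (cube n x)) with h | h <;>
      rcases Int.units_eq_one_or b with h' | h' <;> rw [h, h'] <;> norm_num
  simp only [h1, ker_cube]
  unfold noise
  rw [Finset.mul_sum]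
  have h2 : ∀ x : Fin n → Bool, (1 + ((b : ℤ) : ℝ) * fB f x) / 2 * ker (1 - 2 * ε) x y
      = ker (1 - 2 * ε) x y / 2 + ((b : ℤ) : ℝ) * (ker (1 - 2 * ε) x y * fB f x) / 2 := by
    intro x; ring
  simp only [h2]
  rw [Finset.sum_add_distrib, ← Finset.sum_div, ← Finset.sum_div, sum_ker]
  ring

theorem avg_noise_aux {n : ℕ} (f : (Fin n → Bool) → ℝ) (ρ : ℝ) :
    ∑ y, noise ρ f y = ∑ x, f x := by
  unfold noise
  rw [Finset.sum_comm]
  refine Finset.sum_congr rfl fun x _ => ?_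
  rw [← Finset.sum_mul]
  have : ∑ y, ker ρ x y = 1 := by
    simp only [ker_comm ρ x]
    exact sum_ker ρ x
  rw [this, one_mul]

theorem abs_noise_le {n : ℕ} (f : (Fin n → Bool) → ℝ) (hf : ∀ x, f x = 1 ∨ f x = -1) {ρ : ℝ}
    (h0 : -1 ≤ ρ) (h1 : ρ ≤ 1) (y : Fin n → Bool) : |noise ρ f y| ≤ 1 := by
  unfold noise
  refine (Finset.abs_sum_le_sum_abs _ _).trans ?_
  rw [← sum_ker ρ y]
  refine Finset.sum_le_sum fun x _ => ?_
  rw [abs_mul, abs_of_nonneg (ker_nonneg h0 h1 x y)]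
  rcases hf x with h | h <;> simp [h]

theorem card_cube (n : ℕ) : (Fintype.card (Fin n → Bool) : ℝ) = 2 ^ n := by
  simp

theorem phi_eq (t : ℝ) : ∑ b : ℤˣ, (1 + ((b : ℤ) : ℝ) * t) / 2 * log (1 + ((b : ℤ) : ℝ) * t)
    = Phi t := by
  have : (Finset.univ : Finset ℤˣ) = {1, -1} := rfl
  rw [this, Finset.sum_pair (by decide)]
  unfold Phi
  push_cast
  simp only [one_mul, neg_one_mul, Units.val_one, Int.cast_one, Units.val_neg, Int.cast_neg]
  ring_nf

theorem mutualInfo_eq {n : ℕ} (f : (Fin n → ℤˣ) → ℤˣ) {ε : ℝ} (h0 : 0 ≤ ε) (h1 : ε ≤ 1 / 2) :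
    mutualInfo (jointLaw f ε) = Ent (noise (1 - 2 * ε) (fB f)) / log 2 := by
  set g := noise (1 - 2 * ε) (fB f) with hg
  set m := avg g with hm
  have hcard : (Fintype.card (Fin n → Bool) : ℝ) = 2 ^ n := card_cube n
  have h2n : (0 : ℝ) < 2 ^ n := by positivity
  have hhalf : ((1 : ℝ) / 2) ^ n = (2 ^ n)⁻¹ := by rw [one_div, inv_pow]
  have hgle : ∀ y, |g y| ≤ 1 := fun y =>
    abs_noise_le (fB f) (fB_eq f) (by linarith) (by linarith) y
  -- margins
  have hmargY : ∀ y : Fin n → Bool, ∑ b : ℤˣ, jointLaw f ε b (cube n y) = (1 / 2) ^ n := by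
    intro y
    simp only [jointLaw_cube]
    rw [← Finset.mul_sum]
    have : (Finset.univ : Finset ℤˣ) = {1, -1} := rfl
    rw [this, Finset.sum_pair (by decide)]
    push_cast
    ring_nf
  have hmargF : ∀ b : ℤˣ, ∑ y, jointLaw f ε b y = (1 + ((b : ℤ) : ℝ) * m) / 2 := by
    intro b
    rw [← (cube n).sum_comp]
    simp only [jointLaw_cube]
    rw [← Finset.mul_sum, ← Finset.sum_div, Finset.sum_add_distrib, ← Finset.mul_sum, hm]
    unfold avg
    rw [hcard, hhalf]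
    simp only [Finset.sum_const, Finset.card_univ, nsmul_eq_mul, mul_one]
    rw [hcard]
    field_simp
    rfl
  -- each term
  have hterm : ∀ (b : ℤˣ) (y : Fin n → Bool),
      jointLaw f ε b (cube n y) * logb 2 (jointLaw f ε b (cube n y) /
        ((∑ y', jointLaw f ε b y') * (∑ b', jointLaw f ε b' (cube n y))))
      = (1 / 2) ^ n * ((1 + ((b : ℤ) : ℝ) * g y) / 2 * log (1 + ((b : ℤ) : ℝ) * g y)
          - (1 + ((b : ℤ) : ℝ) * g y) / 2 * log (1 + ((b : ℤ) : ℝ) * m)) / log 2 := by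
    intro b y
    rw [hmargY, hmargF, jointLaw_cube, ← hg]
    by_cases hz : 1 + ((b : ℤ) : ℝ) * g y = 0
    · rw [hz]; simp
    · have hbb : ((b : ℤ) : ℝ) = 1 ∨ ((b : ℤ) : ℝ) = -1 := by
        rcases Int.units_eq_one_or b with h | h <;> simp [h]
      have hpos : ∀ y', 0 ≤ 1 + ((b : ℤ) : ℝ) * g y' := by
        intro y'
        have := abs_le.1 (hgle y')
        rcases hbb with h | h <;> rw [h] <;> linarith
      have hgpos : 0 < 1 + ((b : ℤ) : ℝ) * g y := lt_of_le_of_ne (hpos y) (Ne.symm hz)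
      have hmpos : 0 < 1 + ((b : ℤ) : ℝ) * m := by
        have : 1 + ((b : ℤ) : ℝ) * m = (∑ y', (1 + ((b : ℤ) : ℝ) * g y')) / 2 ^ n := by
          rw [hm]; unfold avg
          rw [Finset.sum_add_distrib, ← Finset.mul_sum, hcard]
          simp only [Finset.sum_const, Finset.card_univ, nsmul_eq_mul, mul_one]
          rw [hcard]
          field_simp
        rw [this]
        apply div_pos _ h2n
        exact Finset.sum_pos' (fun y' _ => hpos y') ⟨y, Finset.mem_univ _, hgpos⟩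
      have hq : (1 / 2 : ℝ) ^ n * ((1 + ((b : ℤ) : ℝ) * g y) / 2) /
          ((1 + ((b : ℤ) : ℝ) * m) / 2 * (1 / 2) ^ n)
          = (1 + ((b : ℤ) : ℝ) * g y) / (1 + ((b : ℤ) : ℝ) * m) := by
        have : (1 / 2 : ℝ) ^ n ≠ 0 := by positivity
        field_simp
      rw [hq, logb, log_div hgpos.ne' hmpos.ne']
      ring
  unfold mutualInfo
  have hsum : ∀ b : ℤˣ, ∑ y, jointLaw f ε b y * logb 2 (jointLaw f ε b y /
        ((∑ y', jointLaw f ε b y') * (∑ b', jointLaw f ε b' y)))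
      = ∑ y : Fin n → Bool, jointLaw f ε b (cube n y) * logb 2 (jointLaw f ε b (cube n y) /
        ((∑ y', jointLaw f ε b y') * (∑ b', jointLaw f ε b' (cube n y)))) := by
    intro b
    rw [← (cube n).sum_comp]
  simp only [hsum, hterm]
  rw [Finset.sum_comm]
  have hin : ∀ y : Fin n → Bool, ∑ b : ℤˣ,
      (1 / 2) ^ n * ((1 + ((b : ℤ) : ℝ) * g y) / 2 * log (1 + ((b : ℤ) : ℝ) * g y)
          - (1 + ((b : ℤ) : ℝ) * g y) / 2 * log (1 + ((b : ℤ) : ℝ) * m)) / log 2
      = (1 / 2) ^ n * (Phi (g y) - ∑ b : ℤˣ,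
          (1 + ((b : ℤ) : ℝ) * g y) / 2 * log (1 + ((b : ℤ) : ℝ) * m)) / log 2 := by
    intro y
    rw [← Finset.sum_div, ← Finset.mul_sum, Finset.sum_sub_distrib, phi_eq]
  simp only [hin]
  rw [← Finset.sum_div, ← Finset.mul_sum, Finset.sum_sub_distrib, Finset.sum_comm]
  have hlast : ∑ b : ℤˣ, ∑ y : Fin n → Bool,
      (1 + ((b : ℤ) : ℝ) * g y) / 2 * log (1 + ((b : ℤ) : ℝ) * m) = 2 ^ n * Phi m := by
    rw [← phi_eq, Finset.mul_sum]
    refine Finset.sum_congr rfl fun b _ => ?_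
    rw [← Finset.sum_mul, ← Finset.sum_div, Finset.sum_add_distrib, ← Finset.mul_sum]
    have : ∑ y, g y = 2 ^ n * m := by
      rw [hm]; unfold avg; rw [hcard]; field_simp
    rw [this]
    simp only [Finset.sum_const, Finset.card_univ, nsmul_eq_mul, mul_one]
    rw [hcard]
    ring
  rw [hlast]
  congr 1
  unfold Ent
  rw [← hm]
  unfold avg
  rw [hcard, hhalf]
  field_simp

theorem Phi_eq {ε : ℝ} (h0 : 0 ≤ ε) (h1 : ε ≤ 1 / 2) :
    Phi (1 - 2 * ε) / log 2 = 1 - h₂ ε := by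
  have hl : log 2 ≠ 0 := (log_pos (by norm_num)).ne'
  unfold Phi h₂ logb
  have e1 : 1 + (1 - 2 * ε) = 2 * (1 - ε) := by ring
  have e2 : 1 - (1 - 2 * ε) = 2 * ε := by ring
  rw [e1, e2, log_mul (by norm_num) (by linarith)]
  by_cases hz : ε = 0
  · subst hz
    have : (2 : ℝ) * 0 = 0 := by ring
    rw [this]
    simp only [sub_zero, log_one, log_zero, mul_zero, add_zero, zero_div]
    field_simp
  · rw [log_mul (by norm_num) hz]
    field_simp
    ring

theorem ck_of_nats {n : ℕ}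
    (H : ∀ (f : (Fin n → Bool) → ℝ), (∀ x, f x = 1 ∨ f x = -1) → ∀ {ρ : ℝ}, 0 ≤ ρ → ρ ≤ 1 →
      Ent (noise ρ f) ≤ Phi ρ)
    (f : (Fin n → ℤˣ) → ℤˣ) {ε : ℝ} (h0 : 0 ≤ ε) (h1 : ε ≤ 1 / 2) :
    mutualInfo (jointLaw f ε) ≤ 1 - h₂ ε := by
  rw [mutualInfo_eq f h0 h1, ← Phi_eq h0 h1]
  have hl : 0 < log 2 := log_pos (by norm_num)
  gcongr
  exact H (fB f) (fB_eq f) (by linarith) (by linarith)

end Vale.Agent.P322.Channel
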