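import Vale.Agent.P322.Defs

/-! Splitting of averages and of the Dirichlet form along the first coordinate, and the two
Bellman inductions, with the two-half inequalities as hypotheses. -/

namespace Vale.Agent.P322.Cube

open Real Set

/-- the half `x₀ = b` -/
def half {n : ℕ} {β : Type*} (g : (Fin (n + 1) → Bool) → β) (b : Bool) (x : Fin n → Bool) : β :=
  g (Fin.cons b x)

theorem sum_cons {n : ℕ} (g : (Fin (n + 1) → Bool) → ℝ) :
    ∑ x, g x = ∑ x, half g false x + ∑ x, half g true x := by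
  rw [← (Fin.consEquiv (fun _ : Fin (n + 1) => Bool)).sum_comp, Fintype.sum_prod_type,
    Fintype.sum_bool, add_comm]
  rfl

theorem avg_cons {n : ℕ} (g : (Fin (n + 1) → Bool) → ℝ) :
    avg g = (avg (half g false) + avg (half g true)) / 2 := by
  unfold avg
  rw [sum_cons]
  have h1 : (Fintype.card (Fin (n + 1) → Bool) : ℝ) = 2 * 2 ^ n := by
    simp [pow_succ, mul_comm]
  have h2 : (Fintype.card (Fin n → Bool) : ℝ) = 2 ^ n := by simp
  rw [h1, h2]
  have : (2 : ℝ) ^ n ≠ 0 := by positivity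
  field_simp

theorem avg_comp_cons {n : ℕ} (φ : ℝ → ℝ) (g : (Fin (n + 1) → Bool) → ℝ) :
    avg (fun x => φ (g x))
      = (avg (fun x => φ (half g false x)) + avg (fun x => φ (half g true x))) / 2 :=
  avg_cons (fun x => φ (g x))

theorem JJ_comm (s t : ℝ) : JJ s t = JJ t s := by unfold JJ; ring

theorem avg_add {ι : Type*} [Fintype ι] (f g : ι → ℝ) :
    avg (fun i => f i + g i) = avg f + avg g := by
  unfold avg; rw [Finset.sum_add_distrib, add_div]

theorem flip_cons_zero {n : ℕ} (b : Bool) (x : Fin n → Bool) :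
    flip (Fin.cons b x : Fin (n + 1) → Bool) 0 = Fin.cons (!b) x := by
  unfold flip
  rw [Fin.cons_zero, Fin.update_cons_zero]

theorem flip_cons_succ {n : ℕ} (b : Bool) (x : Fin n → Bool) (i : Fin n) :
    flip (Fin.cons b x : Fin (n + 1) → Bool) i.succ = Fin.cons b (flip x i) := by
  unfold flip
  rw [Fin.cons_succ, ← Fin.cons_update]

theorem Dir_cons {n : ℕ} (g : (Fin (n + 1) → Bool) → ℝ) :
    Dir g = (Dir (half g false) + Dir (half g true)) / 2
      + avg (fun x => JJ (half g false x) (half g true x)) := by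
  unfold Dir
  rw [avg_cons]
  have h : ∀ b : Bool, (half (fun x => ∑ i, JJ (g x) (g (flip x i))) b)
      = fun x => JJ (half g b x) (half g (!b) x)
          + ∑ i, JJ (half g b x) (half g b (flip x i)) := by
    intro b
    funext x
    change ∑ i, JJ (g (Fin.cons b x)) (g (flip (Fin.cons b x) i)) = _
    rw [Fin.sum_univ_succ, flip_cons_zero]
    simp only [flip_cons_succ]
    rfl
  rw [h, h, avg_add, avg_add]
  simp only [Bool.not_false, Bool.not_true]
  have : (avg fun x => JJ (half g true x) (half g false x))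
      = avg fun x => JJ (half g false x) (half g true x) := by
    congr 1; funext x; exact JJ_comm _ _
  rw [this]
  ring

theorem avg_unique (g : (Fin 0 → Bool) → ℝ) (x : Fin 0 → Bool) : avg g = g x := by
  unfold avg
  rw [Fintype.card_unique, Nat.cast_one, div_one, Fintype.sum_unique]
  congr 1
  exact Subsingleton.elim _ _

theorem Dir_zero (g : (Fin 0 → Bool) → ℝ) : Dir g = 0 := by
  unfold Dir
  rw [avg_unique _ default]
  simp

/-- First Bellman induction. -/
theorem bellman1_of
    (hbase : ∀ {m u : ℝ}, m ∈ Ioo (-1 : ℝ) 1 → 0 ≤ u → qq u * aa m ≤ eta u * ent m)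
    (hstep : ∀ {n : ℕ} (s t : (Fin n → Bool) → ℝ)
      (_ : ∀ i, s i ∈ Ioo (-1 : ℝ) 1) (_ : ∀ i, t i ∈ Ioo (-1 : ℝ) 1) {u : ℝ} (_ : 0 ≤ u),
      ∃ u', 0 ≤ u' ∧
      Phi (avg s) + Phi (avg t) - 2 * Phi ((avg s + avg t) / 2)
        + qq u * aa ((avg s + avg t) / 2) - qq u' * ((aa (avg s) + aa (avg t)) / 2)
        - (eta u - eta u') * ((avg (fun i => ent (s i)) + avg (fun i => ent (t i))) / 2)
      ≤ avg fun i => JJ (s i) (t i))
    {n : ℕ} (g : (Fin n → Bool) → ℝ) (hg : ∀ x, g x ∈ Ioo (-1 : ℝ) 1) {u : ℝ}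
    (hu : 0 ≤ u) :
    2 * (ent (avg g) - avg (fun x => ent (g x))) + qq u * aa (avg g)
      - eta u * avg (fun x => ent (g x)) ≤ Dir g := by
  induction n generalizing u with
  | zero =>
    rw [Dir_zero, avg_unique g default, avg_unique (fun x => ent (g x)) default]
    have := hbase (hg default) hu
    linarith
  | succ n ih =>
    have h0 : ∀ x, half g false x ∈ Ioo (-1 : ℝ) 1 := fun x => hg _
    have h1 : ∀ x, half g true x ∈ Ioo (-1 : ℝ) 1 := fun x => hg _
    obtain ⟨u', hu', H⟩ := hstep (half g false) (half g true) h0 h1 hu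
    have i0 := ih (half g false) h0 hu'
    have i1 := ih (half g true) h1 hu'
    rw [Dir_cons, avg_cons g, avg_comp_cons ent g]
    unfold ent at *
    nlinarith [i0, i1, H]

/-- Second Bellman induction. -/
theorem bellman2_of {U : ℝ}
    (hstep : ∀ {n : ℕ} (s t : (Fin n → Bool) → ℝ)
      (_ : ∀ i, s i ∈ Ioo (-1 : ℝ) 1) (_ : ∀ i, t i ∈ Ioo (-1 : ℝ) 1) {u : ℝ} (_ : 0 ≤ u)
      (_ : u ≤ U),
      ∃ u', 0 ≤ u' ∧ u' ≤ U ∧
      ((eta u + 2) * ((Ent s + Ent t) / 2
          + ((Phi (avg s) + Phi (avg t)) / 2 - Phi ((avg s + avg t) / 2)) - Phi (tanh u))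
          + u * tanh u)
        - ((eta u' + 2) * ((Ent s + Ent t) / 2 - Phi (tanh u')) + u' * tanh u')
      ≤ avg fun i => JJ (s i) (t i))
    (hbase : ∀ {u : ℝ}, 0 ≤ u → u ≤ U → u * tanh u ≤ (eta u + 2) * Phi (tanh u))
    {n : ℕ} (g : (Fin n → Bool) → ℝ) (hg : ∀ x, g x ∈ Ioo (-1 : ℝ) 1) {u : ℝ}
    (hu : 0 ≤ u) (hu1 : u ≤ U) :
    (eta u + 2) * (Ent g - Phi (tanh u)) + u * tanh u ≤ Dir g := by
  induction n generalizing u with
  | zero =>
    have : Ent g = 0 := by
      unfold Ent
      rw [avg_unique g default, avg_unique (fun x => Phi (g x)) default, sub_self]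
    rw [Dir_zero, this]
    have := hbase hu hu1
    linarith
  | succ n ih =>
    have h0 : ∀ x, half g false x ∈ Ioo (-1 : ℝ) 1 := fun x => hg _
    have h1 : ∀ x, half g true x ∈ Ioo (-1 : ℝ) 1 := fun x => hg _
    obtain ⟨u', hu', hu1', H⟩ := hstep (half g false) (half g true) h0 h1 hu hu1
    have i0 := ih (half g false) h0 hu' hu1'
    have i1 := ih (half g true) h1 hu' hu1'
    have hE : Ent g = (Ent (half g false) + Ent (half g true)) / 2
        + ((Phi (avg (half g false)) + Phi (avg (half g true))) / 2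
            - Phi ((avg (half g false) + avg (half g true)) / 2)) := by
      unfold Ent
      rw [avg_comp_cons Phi g, avg_cons g]
      ring
    rw [Dir_cons, hE]
    linarith [i0, i1, H]

end Vale.Agent.P322.Cube
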