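import Mathlib

/-!
# Courtade-Kumar: basic definitions

All entropies in nats.  `tanh`-parametrisation: for `t = tanh u`,
`Phi t = u * tanh u - log (cosh u)`, `ath t = u`, `ent t = HH u`.
-/

namespace Vale.Agent.P322

open Real

/-- `Φ(t) = ½[(1+t) ln(1+t) + (1-t) ln(1-t)]` -/
noncomputable def Phi (t : ℝ) : ℝ := ((1 + t) * log (1 + t) + (1 - t) * log (1 - t)) / 2

/-- `Φ'(t) = artanh t = ½ (ln(1+t) - ln(1-t))` -/
noncomputable def ath (t : ℝ) : ℝ := (log (1 + t) - log (1 - t)) / 2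

/-- binary entropy (nats) of a sign with mean `t` : `ln 2 - Φ(t)` -/
noncomputable def ent (t : ℝ) : ℝ := log 2 - Phi t

/-- `J(s,t) = ¼ (artanh s - artanh t)(s - t)` -/
noncomputable def JJ (s t : ℝ) : ℝ := (ath s - ath t) * (s - t) / 4

/-- entropy in the logit variable: `H(u) = ln(2 cosh u) - u tanh u` (`= ent (tanh u)`) -/
noncomputable def HH (u : ℝ) : ℝ := log (2 * cosh u) - u * tanh u

/-- `L(u) = ln(2 cosh u)` -/
noncomputable def LL (u : ℝ) : ℝ := log (2 * cosh u)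

/-- `η(u) = sinh(2u)/(2u) - 1`, `η(0) = 0` -/
noncomputable def eta (u : ℝ) : ℝ := if u = 0 then 0 else sinh (2 * u) / (2 * u) - 1

/-- derivative of `η` at `u > 0` -/
noncomputable def etad (u : ℝ) : ℝ := (2 * u * cosh (2 * u) - sinh (2 * u)) / (2 * u ^ 2)

/-- `G₂(u) = 2 ln cosh u - u tanh u` -/
noncomputable def G2 (u : ℝ) : ℝ := 2 * log (cosh u) - u * tanh u

/-- `q(u) = G₂(u) + H(u) η(u)`; one has `q' = H η'` -/
noncomputable def qq (u : ℝ) : ℝ := G2 u + HH u * eta u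

/-- `κ(u) = sinh² u / ln(2 cosh u)` -/
noncomputable def kap (u : ℝ) : ℝ := sinh u ^ 2 / log (2 * cosh u)

/-- `γ(u) = u + H(u) sinh(2u) / (2 L(u))` -/
noncomputable def gam (u : ℝ) : ℝ := u + HH u * sinh (2 * u) / (2 * log (2 * cosh u))

/-- `ϑ(u) = H(u)/tanh u`; `ϑ' = -1/κ` -/
noncomputable def theta (u : ℝ) : ℝ := HH u / tanh u

/-- `c(u) = η'(u) H(u)² cosh² u / u` -/
noncomputable def cc (u : ℝ) : ℝ := etad u * HH u ^ 2 * cosh u ^ 2 / u

/-- `c(0+) = (4/3) ln² 2` -/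
noncomputable def c0 : ℝ := 4 / 3 * log 2 ^ 2

/-- `a(m) = (1-m²)(1-m²/5) = 1 - (6/5) m² + (1/5) m⁴` -/
noncomputable def aa (m : ℝ) : ℝ := (1 - m ^ 2) * (1 - m ^ 2 / 5)

open Classical in
/-- inverse of `H : [0,∞) → (0, ln 2]`, extended by `0` above `ln 2` -/
noncomputable def Hinv (s : ℝ) : ℝ := if h : ∃ u, 0 ≤ u ∧ HH u = s then h.choose else 0

/-- `N(s) = G₂(H⁻¹(s)) = sup_{u ≥ 0} (q(u) - η(u) s)` for `s > 0` (zero for `s ≥ ln 2`) -/
noncomputable def NN (s : ℝ) : ℝ := G2 (Hinv s)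

/-- `Q(a,τ) = a N(τ/a) = sup_{u ≥ 0} (q(u) a - η(u) τ)` -/
noncomputable def QQ (a τ : ℝ) : ℝ := a * NN (τ / a)

/-- uniform average over a finite type -/
noncomputable def avg {ι : Type*} [Fintype ι] (f : ι → ℝ) : ℝ := (∑ i, f i) / Fintype.card ι

/-- flip the `i`-th coordinate -/
def flip {n : ℕ} (x : Fin n → Bool) (i : Fin n) : Fin n → Bool := Function.update x i (!x i)

/-- the Dirichlet form `E Σ_i J(g(x), g(x^i))` -/
noncomputable def Dir {n : ℕ} (g : (Fin n → Bool) → ℝ) : ℝ :=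
  avg fun x => ∑ i, JJ (g x) (g (flip x i))

/-- transition kernel of `n` independent binary symmetric channels with correlation `ρ` -/
noncomputable def ker {n : ℕ} (ρ : ℝ) (x y : Fin n → Bool) : ℝ :=
  ∏ i, (if x i = y i then (1 + ρ) / 2 else (1 - ρ) / 2)

/-- noise operator `T_ρ f (y) = E[f(X) | Y = y]` -/
noncomputable def noise {n : ℕ} (ρ : ℝ) (f : (Fin n → Bool) → ℝ) (y : Fin n → Bool) : ℝ :=
  ∑ x, ker ρ x y * f x

/-- `Ent(g) = E Φ(g) - Φ(E g)` -/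
noncomputable def Ent {ι : Type*} [Fintype ι] (g : ι → ℝ) : ℝ :=
  avg (fun x => Phi (g x)) - Phi (avg g)

end Vale.Agent.P322
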