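import Vale.Agent.P322.HBasic

/-! (N) the inverse function of `H`, and the Legendre-type functions `N`, `Q` -/

open Real Set Filter Topology
namespace Vale.Agent.P322

open HBasicAux

namespace HInvAux

lemma exists_HH_eq {s : ℝ} (h0 : 0 < s) (h1 : s ≤ log 2) : ∃ u, 0 ≤ u ∧ HH u = s := by
  have h2 : ∀ᶠ u in atTop, HH u < s := tendsto_HH (Iio_mem_nhds h0)
  obtain ⟨U, hU⟩ := (h2.and (eventually_ge_atTop 0)).exists
  have h3 := intermediate_value_Icc' hU.2 (continuous_HH.continuousOn (s := Icc 0 U))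
  have h4 : s ∈ Icc (HH U) (HH 0) := ⟨hU.1.le, by rw [HH_zero]; exact h1⟩
  obtain ⟨u, hu, hus⟩ := h3 h4
  exact ⟨u, hu.1, hus⟩

lemma HH_inj {u v : ℝ} (hu : 0 ≤ u) (hv : 0 ≤ v) (h : HH u = HH v) : u = v :=
  HH_strictAntiOn.injOn (mem_Ici.2 hu) (mem_Ici.2 hv) h

lemma Hinv_spec {s : ℝ} (h : ∃ u, 0 ≤ u ∧ HH u = s) : 0 ≤ Hinv s ∧ HH (Hinv s) = s := by
  unfold Hinv
  rw [dif_pos h]
  exact h.choose_spec

lemma eta_nonneg {u : ℝ} (h : 0 ≤ u) : 0 ≤ eta u := by
  rw [← eta_zero]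
  exact eta_strictMonoOn.monotoneOn (mem_Ici.2 le_rfl) (mem_Ici.2 h) h

lemma G2_zero : G2 0 = 0 := by simp [G2]

/-- a function with continuous supporting slopes is differentiable -/
lemma hasDerivAt_of_support {f g : ℝ → ℝ} {s : ℝ} {U : Set ℝ} (hU : U ∈ 𝓝 s)
    (h : ∀ x ∈ U, ∀ y ∈ U, f x + g x * (y - x) ≤ f y) (hg : ContinuousAt g s) :
    HasDerivAt f (g s) s := by
  rw [hasDerivAt_iff_isLittleO, Asymptotics.isLittleO_iff]
  intro c hc
  have h1 : ∀ᶠ t in 𝓝 s, |g t - g s| < c := by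
    have := Metric.tendsto_nhds.1 hg c hc
    simpa [Real.dist_eq] using this
  filter_upwards [h1, hU] with t ht htU
  have hs : s ∈ U := mem_of_mem_nhds hU
  have h2 := h s hs t htU
  have h3 := h t htU s hs
  rw [Real.norm_eq_abs, Real.norm_eq_abs, smul_eq_mul]
  have h4 : f t - f s - (t - s) * g s ≤ (g t - g s) * (t - s) := by linarith
  have h5 : 0 ≤ f t - f s - (t - s) * g s := by linarith
  rw [abs_of_nonneg h5]
  calc f t - f s - (t - s) * g s ≤ (g t - g s) * (t - s) := h4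
    _ ≤ |(g t - g s) * (t - s)| := le_abs_self _
    _ = |g t - g s| * |t - s| := abs_mul _ _
    _ ≤ c * |t - s| := mul_le_mul_of_nonneg_right ht.le (abs_nonneg _)

end HInvAux

open HInvAux

theorem Hinv_nonneg (s : ℝ) : 0 ≤ Hinv s := by
  by_cases h : ∃ u, 0 ≤ u ∧ HH u = s
  · exact (Hinv_spec h).1
  · unfold Hinv
    rw [dif_neg h]

theorem Hinv_HH {u : ℝ} (h : 0 ≤ u) : Hinv (HH u) = u := by
  have := Hinv_spec ⟨u, h, rfl⟩
  exact HH_inj this.1 h this.2

theorem HH_Hinv {s : ℝ} (h0 : 0 < s) (h1 : s ≤ log 2) : HH (Hinv s) = s :=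
  (Hinv_spec (exists_HH_eq h0 h1)).2

theorem Hinv_of_ge {s : ℝ} (h : log 2 ≤ s) : Hinv s = 0 := by
  by_cases h1 : ∃ u, 0 ≤ u ∧ HH u = s
  · have h2 := Hinv_spec h1
    have h3 : s = log 2 := le_antisymm (by rw [← h2.2]; exact HH_le _) h
    apply HH_inj h2.1 le_rfl
    rw [h2.2, HH_zero, h3]
  · unfold Hinv
    rw [dif_neg h1]

theorem Hinv_pos {s : ℝ} (h0 : 0 < s) (h1 : s < log 2) : 0 < Hinv s := by
  rcases (Hinv_nonneg s).eq_or_lt with h | h
  · have h2 := HH_Hinv h0 h1.le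
    rw [← h, HH_zero] at h2
    exact absurd h2.symm h1.ne
  · exact h

theorem Hinv_antitoneOn : AntitoneOn Hinv (Ioi 0) := by
  intro s hs t ht hst
  rcases le_total (log 2) t with h | h
  · rw [Hinv_of_ge h]
    exact Hinv_nonneg s
  · by_contra hcon
    push Not at hcon
    have h1 := HH_strictAntiOn (mem_Ici.2 (Hinv_nonneg s)) (mem_Ici.2 (Hinv_nonneg t)) hcon
    rw [HH_Hinv hs (hst.trans h), HH_Hinv ht h] at h1
    exact absurd hst (not_le.2 h1)

theorem continuousOn_Hinv : ContinuousOn Hinv (Ioi 0) := by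
  intro s₀ hs₀
  apply ContinuousAt.continuousWithinAt
  have hs0 : 0 < s₀ := hs₀
  rw [ContinuousAt, tendsto_order]
  constructor
  · intro a ha
    rcases lt_or_ge a 0 with h | h
    · exact Eventually.of_forall fun s => h.trans_le (Hinv_nonneg s)
    · have h1 : s₀ < log 2 := by
        by_contra hcon
        push Not at hcon
        rw [Hinv_of_ge hcon] at ha
        exact absurd h (not_le.2 ha)
      obtain ⟨a', h2, h3⟩ := exists_between ha
      have h4 : s₀ < HH a' := by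
        have := HH_strictAntiOn (mem_Ici.2 (h.trans h2.le)) (mem_Ici.2 (Hinv_nonneg s₀)) h3
        rwa [HH_Hinv hs0 h1.le] at this
      filter_upwards [Iio_mem_nhds h4, Ioi_mem_nhds hs0] with s hs hs'
      have h5 := Hinv_antitoneOn (mem_Ioi.2 hs') (mem_Ioi.2 (HH_pos a')) (le_of_lt hs)
      rw [Hinv_HH (h.trans h2.le)] at h5
      exact h2.trans_le h5
  · intro a ha
    obtain ⟨a', h2, h3⟩ := exists_between ha
    have ha' : 0 ≤ a' := (Hinv_nonneg s₀).trans h2.le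
    have h4 : HH a' < s₀ := by
      rcases le_or_gt s₀ (log 2) with h | h
      · have := HH_strictAntiOn (mem_Ici.2 (Hinv_nonneg s₀)) (mem_Ici.2 ha') h2
        rwa [HH_Hinv hs0 h] at this
      · exact (HH_le a').trans_lt h
    filter_upwards [Ioi_mem_nhds h4] with s hs
    have h5 := Hinv_antitoneOn (mem_Ioi.2 (HH_pos a')) (mem_Ioi.2 ((HH_pos a').trans hs))
      (le_of_lt hs)
    rw [Hinv_HH ha'] at h5
    exact h5.trans_lt h3

namespace HInvAux

lemma continuousAt_Hinv {s : ℝ} (h : 0 < s) : ContinuousAt Hinv s :=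
  continuousOn_Hinv.continuousAt (Ioi_mem_nhds h)

end HInvAux

theorem hasDerivAt_Hinv {s : ℝ} (h0 : 0 < s) (h1 : s < log 2) :
    HasDerivAt Hinv (-(cosh (Hinv s) ^ 2 / Hinv s)) s := by
  have h2 := Hinv_pos h0 h1
  have h3 := cosh_pos (Hinv s)
  have h4 : -(Hinv s / cosh (Hinv s) ^ 2) ≠ 0 := by
    have : 0 < Hinv s / cosh (Hinv s) ^ 2 := by positivity
    exact neg_ne_zero.2 this.ne'
  have h5 := HasDerivAt.of_local_left_inverse (continuousAt_Hinv h0) (hasDerivAt_HH (Hinv s)) h4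
    (by
      filter_upwards [Iio_mem_nhds h1, Ioi_mem_nhds h0] with y hy1 hy0
      exact HH_Hinv hy0 (le_of_lt hy1))
  refine h5.congr_deriv ?_
  rw [inv_neg, inv_div]

theorem NN_nonneg (s : ℝ) : 0 ≤ NN s := G2_nonneg _

theorem NN_HH {u : ℝ} (h : 0 ≤ u) : NN (HH u) = G2 u := by
  unfold NN
  rw [Hinv_HH h]

theorem NN_of_ge {s : ℝ} (h : log 2 ≤ s) : NN s = 0 := by
  unfold NN
  rw [Hinv_of_ge h, G2_zero]

theorem plane_le_NN {u s : ℝ} (hu : 0 ≤ u) (hs : 0 < s) : qq u - eta u * s ≤ NN s := by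
  rcases le_total s (log 2) with h | h
  · have h1 := qq_sub_le hu (Hinv_nonneg s)
    rw [HH_Hinv hs h] at h1
    exact h1
  · rw [NN_of_ge h]
    have h1 := qq_sub_le hu (le_refl (0 : ℝ))
    rw [HH_zero, G2_zero] at h1
    have h2 := mul_le_mul_of_nonneg_left h (eta_nonneg hu)
    linarith

theorem NN_eq {s : ℝ} (hs : 0 < s) : NN s = max (qq (Hinv s) - eta (Hinv s) * s) 0 := by
  rcases le_total s (log 2) with h | h
  · have h1 : qq (Hinv s) - eta (Hinv s) * s = G2 (Hinv s) := by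
      unfold qq
      rw [HH_Hinv hs h]
      ring
    rw [h1, max_eq_left (G2_nonneg _)]
    rfl
  · rw [NN_of_ge h, Hinv_of_ge h, qq_zero, eta_zero]
    simp

namespace HInvAux

lemma NN_eq' {s : ℝ} (hs : 0 < s) : NN s = qq (Hinv s) - eta (Hinv s) * s := by
  rcases le_total s (log 2) with h | h
  · have h1 : qq (Hinv s) - eta (Hinv s) * s = G2 (Hinv s) := by
      unfold qq
      rw [HH_Hinv hs h]
      ring
    rw [h1]
    rfl
  · rw [NN_of_ge h, Hinv_of_ge h, qq_zero, eta_zero]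
    simp

end HInvAux

theorem hasDerivAt_NN {s : ℝ} (hs : 0 < s) : HasDerivAt NN (-eta (Hinv s)) s := by
  refine hasDerivAt_of_support (g := fun s => -eta (Hinv s)) (U := Ioi 0) (Ioi_mem_nhds hs) ?_ ?_
  · intro x hx y hy
    have h1 := plane_le_NN (Hinv_nonneg x) hy
    have h2 := NN_eq' hx
    rw [h2]
    linarith
  · exact (continuous_eta.continuousAt.comp (continuousAt_Hinv hs)).neg

/-- `∂Q/∂τ` -/
theorem hasDerivAt_QQ {a τ : ℝ} (ha : 0 < a) (hτ : 0 < τ) :
    HasDerivAt (fun τ => QQ a τ) (-eta (Hinv (τ / a))) τ := by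
  have h1 : HasDerivAt (fun τ : ℝ => τ / a) (1 / a) τ := (hasDerivAt_id' τ).div_const a
  have h2 := (hasDerivAt_NN (div_pos hτ ha)).comp τ h1
  refine (h2.const_mul a).congr_deriv ?_
  field_simp

/-- `d/db [b N(h/b)] = q(Hinv(h/b))` -/
theorem hasDerivAt_GG {h b : ℝ} (hh : 0 < h) (hb : 0 < b) :
    HasDerivAt (fun b => b * NN (h / b)) (qq (Hinv (h / b))) b := by
  have h1 : HasDerivAt (fun b : ℝ => h / b) (-(h / b ^ 2)) b := by
    refine ((hasDerivAt_inv hb.ne').const_mul h).congr_deriv ?_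
    field_simp
  have h2 := (hasDerivAt_NN (div_pos hh hb)).comp b h1
  refine ((hasDerivAt_id' b).mul h2).congr_deriv ?_
  simp only [Function.comp_apply]
  rw [NN_eq' (div_pos hh hb)]
  field_simp
  ring

end Vale.Agent.P322
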