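import Vale.Agent.P322.Ode
import Vale.Agent.P322.Cube
import Vale.Agent.P322.JB
import Vale.Agent.P322.HInv
import Vale.Agent.P322.EntA

/-! Glue: base cases and the second two-half inequality. -/

namespace Vale.Agent.P322.Glue

open Real Set

theorem eta_nonneg {u : ℝ} (hu : 0 ≤ u) : 0 ≤ eta u := by
  have := eta_strictMonoOn.monotoneOn (le_refl (0 : ℝ)) hu hu
  rwa [eta_zero] at this

theorem base1 {m u : ℝ} (hm : m ∈ Ioo (-1 : ℝ) 1) (hu : 0 ≤ u) : qq u * aa m ≤ eta u * ent m := by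
  have h1 := qq_sub_le hu (le_refl (0 : ℝ))
  rw [HH_zero] at h1
  have h2 : G2 0 = 0 := by simp [G2]
  rw [h2] at h1
  have h3 := aa_log_two_le_ent ⟨hm.1.le, hm.2.le⟩
  have h4 := eta_nonneg hu
  have h5 : 0 ≤ aa m := by
    unfold aa
    have : 0 ≤ 1 - m ^ 2 := by nlinarith [hm.1, hm.2]
    have h6 : 0 ≤ 1 - m ^ 2 / 5 := by nlinarith [hm.1, hm.2]
    positivity
  calc qq u * aa m ≤ (eta u * log 2) * aa m := by
        apply mul_le_mul_of_nonneg_right _ h5; linarith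
    _ = eta u * (aa m * log 2) := by ring
    _ ≤ eta u * ent m := mul_le_mul_of_nonneg_left h3 h4

/-- `u tanh u ≤ (η + 2) Φ(tanh u)`: at `m = 0`, `F - λX = q - η ln 2 ≤ 0`. -/
theorem base2 {u : ℝ} (hu : 0 ≤ u) : u * tanh u ≤ (eta u + 2) * Phi (tanh u) := by
  have h1 := qq_sub_le hu (le_refl (0 : ℝ))
  rw [HH_zero] at h1
  have h2 : G2 0 = 0 := by simp [G2]
  rw [h2] at h1
  have h3 := Phi_tanh u
  have h4 : HH u = log 2 - Phi (tanh u) := by
    rw [← ent_tanh]; rfl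
  have h5 : G2 u = u * tanh u - 2 * Phi (tanh u) := by
    rw [h3]; unfold G2; ring
  have h6 : qq u = G2 u + HH u * eta u := rfl
  rw [h6, h5, h4] at h1
  nlinarith

theorem JJ_nonneg {s t : ℝ} (hs : s ∈ Ioo (-1 : ℝ) 1) (ht : t ∈ Ioo (-1 : ℝ) 1) :
    0 ≤ JJ s t := by
  have key : ∀ {a b : ℝ}, a ∈ Ioo (-1 : ℝ) 1 → b ∈ Ioo (-1 : ℝ) 1 → a ≤ b → ath a ≤ ath b := by
    intro a b ha hb hab
    unfold ath
    have h1 : log (1 + a) ≤ log (1 + b) := log_le_log (by linarith [ha.1]) (by linarith)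
    have h2 : log (1 - b) ≤ log (1 - a) := log_le_log (by linarith [hb.2]) (by linarith)
    linarith
  unfold JJ
  rcases le_total s t with h | h
  · have := key hs ht h
    nlinarith
  · have := key ht hs h
    nlinarith

theorem Ent_nonneg {ι : Type*} [Fintype ι] [Nonempty ι] {g : ι → ℝ}
    (hg : ∀ i, g i ∈ Ioo (-1 : ℝ) 1) : 0 ≤ Ent g := by
  have hm := JBaux.avg_mem hg
  unfold Ent
  have h : ∀ i, Phi (avg g) + ath (avg g) * (g i - avg g) ≤ Phi (g i) := by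
    intro i
    have := JBaux.KL_nonneg (hg i) hm
    linarith
  have h2 := JBaux.avg_mono h
  have h3 : avg (fun i => Phi (avg g) + ath (avg g) * (g i - avg g)) = Phi (avg g) := by
    rw [JBaux.avg_add, JBaux.avg_mul_left, JBaux.avg_sub, JBaux.avg_const, JBaux.avg_const]
    ring
  rw [h3] at h2
  linarith

/-- second two-half inequality from the deterministic inequality `tf` -/
theorem twoHalf2_of
    (htf : ∀ {m₀ m₁ X u : ℝ} (_ : m₀ ∈ Ioo (-1 : ℝ) 1) (_ : m₁ ∈ Ioo (-1 : ℝ) 1) (_ : m₀ < m₁)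
      (_ : 0 ≤ X) (_ : 0 ≤ u) (_ : u ≤ 1 / 3),
      ∃ A u', 0 ≤ A ∧ (∀ m ∈ Icc m₀ m₁, A * (2 * (1 - m ^ 2) + (m₁ - m) * (m - m₀)) ≤ 1) ∧
        0 ≤ u' ∧ u' ≤ 1 / 3 ∧
        ((eta u + 2) * (X + ((Phi m₀ + Phi m₁) / 2 - Phi ((m₀ + m₁) / 2)) - Phi (tanh u))
            + u * tanh u)
          - ((eta u' + 2) * (X - Phi (tanh u')) + u' * tanh u')
        ≤ JJ m₀ m₁ + (m₁ - m₀) ^ 2 / 2 * A * X)
    {ι : Type*} [Fintype ι] [Nonempty ι] (s t : ι → ℝ)
    (hs : ∀ i, s i ∈ Ioo (-1 : ℝ) 1) (ht : ∀ i, t i ∈ Ioo (-1 : ℝ) 1) {u : ℝ} (hu : 0 ≤ u)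
    (hu1 : u ≤ 1 / 3) :
    ∃ u', 0 ≤ u' ∧ u' ≤ 1 / 3 ∧
      ((eta u + 2) * ((Ent s + Ent t) / 2
          + ((Phi (avg s) + Phi (avg t)) / 2 - Phi ((avg s + avg t) / 2)) - Phi (tanh u))
          + u * tanh u)
        - ((eta u' + 2) * ((Ent s + Ent t) / 2 - Phi (tanh u')) + u' * tanh u')
      ≤ avg fun i => JJ (s i) (t i) := by
  have hX : 0 ≤ (Ent s + Ent t) / 2 := by
    have := Ent_nonneg hs
    have := Ent_nonneg ht
    linarith
  have key : ∀ (s t : ι → ℝ) (_ : ∀ i, s i ∈ Ioo (-1 : ℝ) 1) (_ : ∀ i, t i ∈ Ioo (-1 : ℝ) 1)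
      (_ : 0 ≤ (Ent s + Ent t) / 2) (_ : avg s < avg t),
      ∃ u', 0 ≤ u' ∧ u' ≤ 1 / 3 ∧
      ((eta u + 2) * ((Ent s + Ent t) / 2
          + ((Phi (avg s) + Phi (avg t)) / 2 - Phi ((avg s + avg t) / 2)) - Phi (tanh u))
          + u * tanh u)
        - ((eta u' + 2) * ((Ent s + Ent t) / 2 - Phi (tanh u')) + u' * tanh u')
      ≤ avg fun i => JJ (s i) (t i) := by
    intro s t hs ht hX h
    obtain ⟨A, u', hA, hAm, hu', hu1', H⟩ :=
      htf (JBaux.avg_mem hs) (JBaux.avg_mem ht) h hX hu hu1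
    exact ⟨u', hu', hu1', H.trans (jb s t hs ht h.le hA hAm)⟩
  rcases lt_trichotomy (avg s) (avg t) with h | h | h
  · exact key s t hs ht hX h
  · refine ⟨u, hu, hu1, ?_⟩
    have h1 : 0 ≤ avg fun i => JJ (s i) (t i) :=
      JBaux.avg_nonneg fun i => JJ_nonneg (hs i) (ht i)
    rw [h]
    have h2 : (Phi (avg t) + Phi (avg t)) / 2 - Phi ((avg t + avg t) / 2) = 0 := by
      have : (avg t + avg t) / 2 = avg t := by ring
      rw [this]; ring
    rw [h2]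
    linarith
  · obtain ⟨u', hu', hu1', H⟩ := key t s ht hs (by linarith) h
    refine ⟨u', hu', hu1', ?_⟩
    have e1 : (avg fun i => JJ (s i) (t i)) = avg fun i => JJ (t i) (s i) := by
      congr 1; funext i; exact Cube.JJ_comm _ _
    have e2 : (Ent s + Ent t) = Ent t + Ent s := add_comm _ _
    have e3 : Phi (avg s) + Phi (avg t) = Phi (avg t) + Phi (avg s) := add_comm _ _
    have e4 : avg s + avg t = avg t + avg s := add_comm _ _
    rw [e1, e2, e3, e4]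
    exact H

end Vale.Agent.P322.Glue
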