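import Vale.Agent.P322.Defs

/-! (A) one-variable calculus -/

open Real Set Filter Topology
namespace Vale.Agent.P322

namespace HBasicAux

lemma cosh_ne (u : ℝ) : cosh u ≠ 0 := (cosh_pos u).ne'

lemma two_cosh_pos (u : ℝ) : 0 < 2 * cosh u := by have := cosh_pos u; positivity

lemma hasDerivAt_tanh' (u : ℝ) : HasDerivAt tanh (1 / cosh u ^ 2) u := by
  have h1 : tanh = fun x => sinh x / cosh x := by
    funext x; exact tanh_eq_sinh_div_cosh x
  rw [h1]
  have h2 := (hasDerivAt_sinh u).div (hasDerivAt_cosh u) (cosh_ne u)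
  have h3 : (cosh u * cosh u - sinh u * sinh u) / cosh u ^ 2 = 1 / cosh u ^ 2 := by
    congr 1
    have := cosh_sq u
    nlinarith
  rw [h3] at h2
  exact h2

lemma hasDerivAt_logcosh (u : ℝ) : HasDerivAt (fun x => log (cosh x)) (tanh u) u := by
  have := (hasDerivAt_cosh u).log (cosh_ne u)
  rwa [← tanh_eq_sinh_div_cosh] at this

lemma hasDerivAt_logtwocosh (u : ℝ) : HasDerivAt (fun x => log (2 * cosh x)) (tanh u) u := by
  have h1 : (fun x => log (2 * cosh x)) = fun x => log 2 + log (cosh x) := by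
    funext x; exact log_mul (by norm_num) (cosh_ne x)
  rw [h1]
  exact (hasDerivAt_logcosh u).const_add _

lemma hasDerivAt_mul_tanh (u : ℝ) :
    HasDerivAt (fun x => x * tanh x) (tanh u + u / cosh u ^ 2) u := by
  have := (hasDerivAt_id u).mul (hasDerivAt_tanh' u)
  simp only [id, one_mul] at this
  have h2 : u * (1 / cosh u ^ 2) = u / cosh u ^ 2 := by ring
  rw [h2] at this
  exact this

lemma one_add_tanh (u : ℝ) : 1 + tanh u = exp u / cosh u := by
  rw [tanh_eq_sinh_div_cosh, eq_div_iff (cosh_ne u), add_mul, div_mul_cancel₀ _ (cosh_ne u),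
    one_mul, cosh_add_sinh]

lemma one_sub_tanh (u : ℝ) : 1 - tanh u = exp (-u) / cosh u := by
  rw [tanh_eq_sinh_div_cosh, eq_div_iff (cosh_ne u), sub_mul, div_mul_cancel₀ _ (cosh_ne u),
    one_mul, cosh_sub_sinh]

lemma log_one_add_tanh (u : ℝ) : log (1 + tanh u) = u - log (cosh u) := by
  rw [one_add_tanh, log_div (exp_pos _).ne' (cosh_ne u), log_exp]

lemma log_one_sub_tanh (u : ℝ) : log (1 - tanh u) = -u - log (cosh u) := by
  rw [one_sub_tanh, log_div (exp_pos _).ne' (cosh_ne u), log_exp]

lemma HH_neg (u : ℝ) : HH (-u) = HH u := by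
  unfold HH; rw [cosh_neg, tanh_neg]; ring

lemma G2_neg (u : ℝ) : G2 (-u) = G2 u := by
  unfold G2; rw [cosh_neg, tanh_neg]; ring

lemma tanh_nonneg' {u : ℝ} (h : 0 ≤ u) : 0 ≤ tanh u := by
  rw [tanh_eq_sinh_div_cosh]
  exact div_nonneg (sinh_nonneg_iff.2 h) (cosh_pos u).le

lemma tanh_pos' {u : ℝ} (h : 0 < u) : 0 < tanh u := by
  rw [tanh_eq_sinh_div_cosh]
  exact div_pos (sinh_pos_iff.2 h) (cosh_pos u)

/-- monotonicity from the sign of the derivative on a half line -/
lemma mono_of_deriv {f f' : ℝ → ℝ} {a : ℝ} (hc : ContinuousOn f (Ici a))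
    (hd : ∀ x, a < x → HasDerivAt f (f' x) x) (h : ∀ x, a < x → 0 ≤ f' x) :
    MonotoneOn f (Ici a) := by
  apply monotoneOn_of_deriv_nonneg (convex_Ici a) hc
  · intro x hx
    rw [interior_Ici] at hx
    exact (hd x hx).differentiableAt.differentiableWithinAt
  · intro x hx
    rw [interior_Ici] at hx
    rw [(hd x hx).deriv]
    exact h x hx

lemma smono_of_deriv {f f' : ℝ → ℝ} {a : ℝ} (hc : ContinuousOn f (Ici a))
    (hd : ∀ x, a < x → HasDerivAt f (f' x) x) (h : ∀ x, a < x → 0 < f' x) :
    StrictMonoOn f (Ici a) := by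
  apply strictMonoOn_of_deriv_pos (convex_Ici a) hc
  intro x hx
  rw [interior_Ici] at hx
  rw [(hd x hx).deriv]
  exact h x hx

lemma santi_of_deriv {f f' : ℝ → ℝ} {a : ℝ} (hc : ContinuousOn f (Ici a))
    (hd : ∀ x, a < x → HasDerivAt f (f' x) x) (h : ∀ x, a < x → f' x < 0) :
    StrictAntiOn f (Ici a) := by
  apply strictAntiOn_of_deriv_neg (convex_Ici a) hc
  intro x hx
  rw [interior_Ici] at hx
  rw [(hd x hx).deriv]
  exact h x hx

lemma tanh_le_self {u : ℝ} (h : 0 ≤ u) : tanh u ≤ u := by
  have h1 : MonotoneOn (fun x => x - tanh x) (Ici 0) := by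
    apply mono_of_deriv (f' := fun x => 1 - 1 / cosh x ^ 2)
    · exact (continuous_id.sub (continuous_iff_continuousAt.2
        fun x => (hasDerivAt_tanh' x).continuousAt)).continuousOn
    · intro x _
      exact (hasDerivAt_id x).sub (hasDerivAt_tanh' x)
    · intro x _
      have := one_le_cosh x
      rw [sub_nonneg, div_le_one (by positivity)]
      nlinarith
  have := h1 (mem_Ici.2 le_rfl) (mem_Ici.2 h) h
  simp only [tanh_zero, sub_zero] at this
  linarith

end HBasicAux

open HBasicAux

theorem HH_zero : HH 0 = log 2 := by simp [HH]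

theorem hasDerivAt_HH (u : ℝ) : HasDerivAt HH (-(u / cosh u ^ 2)) u := by
  have := (hasDerivAt_logtwocosh u).sub (hasDerivAt_mul_tanh u)
  have h2 : tanh u - (tanh u + u / cosh u ^ 2) = -(u / cosh u ^ 2) := by ring
  rw [h2] at this
  exact this

namespace HBasicAux
lemma continuous_HH : Continuous HH :=
  continuous_iff_continuousAt.2 fun x => (hasDerivAt_HH x).continuousAt

lemma hasDerivAt_G2 (u : ℝ) : HasDerivAt G2 (tanh u - u / cosh u ^ 2) u := by
  have := ((hasDerivAt_logcosh u).const_mul 2).sub (hasDerivAt_mul_tanh u)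
  have h2 : 2 * tanh u - (tanh u + u / cosh u ^ 2) = tanh u - u / cosh u ^ 2 := by ring
  rw [h2] at this
  exact this

lemma continuous_G2 : Continuous G2 :=
  continuous_iff_continuousAt.2 fun x => (hasDerivAt_G2 x).continuousAt
end HBasicAux

theorem HH_pos (u : ℝ) : 0 < HH u := by
  unfold HH
  have h1 : |u| < log (2 * cosh u) := by
    rw [lt_log_iff_exp_lt (two_cosh_pos u), ← cosh_abs, cosh_eq]
    have := exp_pos (-|u|)
    linarith
  have h2 : u * tanh u ≤ |u| := by
    calc u * tanh u ≤ |u * tanh u| := le_abs_self _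
      _ = |u| * |tanh u| := abs_mul _ _
      _ ≤ |u| * 1 := mul_le_mul_of_nonneg_left (abs_tanh_lt_one u).le (abs_nonneg _)
      _ = |u| := mul_one _
  linarith

theorem HH_strictAntiOn : StrictAntiOn HH (Ici 0) := by
  apply santi_of_deriv continuous_HH.continuousOn (fun x _ => hasDerivAt_HH x)
  intro x hx
  have := cosh_pos x
  have : 0 < x / cosh x ^ 2 := by positivity
  linarith

theorem HH_le (u : ℝ) : HH u ≤ log 2 := by
  have key : ∀ v, 0 ≤ v → HH v ≤ log 2 := by
    intro v hv
    rw [← HH_zero]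
    exact HH_strictAntiOn.antitoneOn (mem_Ici.2 le_rfl) (mem_Ici.2 hv) hv
  rcases le_total 0 u with h | h
  · exact key u h
  · rw [← HH_neg]; exact key (-u) (by linarith)

namespace HBasicAux
lemma HH_eq_exp (u : ℝ) : HH u = log (1 + exp (-(2 * u))) +
    2 * u * exp (-(2 * u)) / (1 + exp (-(2 * u))) := by
  have h1 : 2 * cosh u = exp u * (1 + exp (-(2 * u))) := by
    rw [cosh_eq, mul_add, ← exp_add]
    ring_nf
  have h2 : (0 : ℝ) < 1 + exp (-(2 * u)) := by positivity
  have h3 : tanh u = 1 - 2 * exp (-(2 * u)) / (1 + exp (-(2 * u))) := by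
    have h4 : 1 - tanh u = 2 * exp (-(2 * u)) / (1 + exp (-(2 * u))) := by
      rw [one_sub_tanh, div_eq_div_iff (cosh_ne u) h2.ne']
      have : 2 * exp (-(2 * u)) * cosh u = exp (-(2 * u)) * (2 * cosh u) := by ring
      rw [this, h1, ← mul_assoc, ← exp_add]
      congr 2
      ring
    linarith
  unfold HH
  rw [h1, log_mul (exp_pos _).ne' h2.ne', log_exp, h3]
  ring
end HBasicAux

theorem tendsto_HH : Tendsto HH atTop (𝓝 0) := by
  have h1 : ∀ᶠ u : ℝ in atTop, 0 ≤ HH u := Eventually.of_forall fun u => (HH_pos u).le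
  have h2 : ∀ᶠ u : ℝ in atTop, HH u ≤ exp (-(2 * u)) + 2 * u * exp (-(2 * u)) := by
    filter_upwards [eventually_ge_atTop 0] with u hu
    rw [HH_eq_exp]
    have h3 : (0 : ℝ) < exp (-(2 * u)) := exp_pos _
    have h4 : log (1 + exp (-(2 * u))) ≤ exp (-(2 * u)) := by
      have := log_le_sub_one_of_pos (by positivity : (0 : ℝ) < 1 + exp (-(2 * u)))
      linarith
    have h5 : 2 * u * exp (-(2 * u)) / (1 + exp (-(2 * u))) ≤ 2 * u * exp (-(2 * u)) := by
      apply div_le_self (by positivity)
      linarith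
    linarith
  have h3 : Tendsto (fun u : ℝ => exp (-(2 * u)) + 2 * u * exp (-(2 * u))) atTop (𝓝 0) := by
    have e1 : Tendsto (fun u : ℝ => 2 * u) atTop atTop :=
      tendsto_id.const_mul_atTop (by norm_num)
    have e2 := (tendsto_pow_mul_exp_neg_atTop_nhds_zero 0).comp e1
    have e3 := (tendsto_pow_mul_exp_neg_atTop_nhds_zero 1).comp e1
    have e4 := e2.add e3
    simpa using e4
  exact tendsto_of_tendsto_of_tendsto_of_le_of_le' tendsto_const_nhds h3 h1 h2

theorem ath_tanh (u : ℝ) : ath (tanh u) = u := by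
  unfold ath
  rw [log_one_add_tanh, log_one_sub_tanh]
  ring

theorem tanh_ath {t : ℝ} (h : t ∈ Ioo (-1 : ℝ) 1) : tanh (ath t) = t := by
  have h1 : 0 < 1 + t := by linarith [h.1]
  have h2 : 0 < 1 - t := by linarith [h.2]
  set x := ath t with hx
  have h3 : exp (2 * x) = (1 + t) / (1 - t) := by
    have : 2 * x = log (1 + t) - log (1 - t) := by rw [hx]; unfold ath; ring
    rw [this, exp_sub, exp_log h1, exp_log h2]
  have h4 : tanh x = (exp (2 * x) - 1) / (exp (2 * x) + 1) := by
    rw [tanh_eq_sinh_div_cosh, sinh_eq, cosh_eq]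
    have e1 : exp (2 * x) = exp x * exp x := by rw [← exp_add]; ring_nf
    have e2 : exp (-x) = 1 / exp x := by rw [exp_neg]; simp
    have e3 := exp_pos x
    rw [e1, e2]
    field_simp
  rw [h4, h3]
  field_simp
  ring

theorem Phi_tanh (u : ℝ) : Phi (tanh u) = u * tanh u - log (cosh u) := by
  unfold Phi
  rw [log_one_add_tanh, log_one_sub_tanh]
  ring

theorem ent_tanh (u : ℝ) : ent (tanh u) = HH u := by
  unfold ent HH
  rw [Phi_tanh, log_mul (by norm_num) (cosh_ne u)]
  ring

namespace HBasicAux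
lemma le_sinh_cosh {u : ℝ} (h : 0 ≤ u) : u ≤ sinh u * cosh u := by
  have h1 := self_le_sinh_iff.2 h
  have h2 := one_le_cosh u
  nlinarith

lemma G2'_nonneg {u : ℝ} (h : 0 ≤ u) : 0 ≤ tanh u - u / cosh u ^ 2 := by
  have h1 := cosh_pos u
  rw [tanh_eq_sinh_div_cosh, sub_nonneg, div_le_div_iff₀ (by positivity) h1]
  have := le_sinh_cosh h
  nlinarith
end HBasicAux

theorem G2_nonneg (u : ℝ) : 0 ≤ G2 u := by
  have key : ∀ v, 0 ≤ v → 0 ≤ G2 v := by
    intro v hv
    have h1 : MonotoneOn G2 (Ici 0) := mono_of_deriv continuous_G2.continuousOn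
      (fun x _ => hasDerivAt_G2 x) (fun x hx => G2'_nonneg hx.le)
    have h2 : G2 0 = 0 := by simp [G2]
    rw [← h2]
    exact h1 (mem_Ici.2 le_rfl) (mem_Ici.2 hv) hv
  rcases le_total 0 u with h | h
  · exact key u h
  · rw [← G2_neg]; exact key (-u) (by linarith)

theorem eta_zero : eta 0 = 0 := by simp [eta]

namespace HBasicAux
lemma eta_of_ne {u : ℝ} (h : u ≠ 0) : eta u = sinh (2 * u) / (2 * u) - 1 := by
  unfold eta; rw [if_neg h]
end HBasicAux

theorem continuous_eta : Continuous eta := by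
  have h1 : Continuous (dslope sinh 0) := by
    rw [← continuousOn_univ, continuousOn_dslope univ_mem]
    exact ⟨continuous_sinh.continuousOn, (hasDerivAt_sinh 0).differentiableAt⟩
  have h2 : eta = fun u => dslope sinh 0 (2 * u) - 1 := by
    funext u
    by_cases h : u = 0
    · subst h
      rw [eta_zero, mul_zero, dslope_same, Real.deriv_sinh]
      simp
    · rw [eta_of_ne h, dslope_of_ne _ (by simpa using h), slope_def_field]
      simp
  rw [h2]
  exact (h1.comp (continuous_const.mul continuous_id)).sub continuous_const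

theorem hasDerivAt_eta {u : ℝ} (h : 0 < u) : HasDerivAt eta (etad u) u := by
  have h1 : eta =ᶠ[𝓝 u] fun x => sinh (2 * x) / (2 * x) - 1 := by
    filter_upwards [lt_mem_nhds h] with x hx
    exact eta_of_ne hx.ne'
  refine HasDerivAt.congr_of_eventuallyEq ?_ h1
  have h2 : HasDerivAt (fun x : ℝ => 2 * x) 2 u := by
    simpa using (hasDerivAt_id u).const_mul 2
  have h3 : HasDerivAt (fun x : ℝ => sinh (2 * x)) (cosh (2 * u) * 2) u :=
    (hasDerivAt_sinh (2 * u)).comp u h2
  have h4 := (h3.div h2 (by positivity)).sub_const 1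
  have h5 : (cosh (2 * u) * 2 * (2 * u) - sinh (2 * u) * 2) / (2 * u) ^ 2 = etad u := by
    unfold etad
    field_simp
  rw [h5] at h4
  exact h4

namespace HBasicAux
lemma sinh_lt_mul_cosh {x : ℝ} (h : 0 < x) : sinh x < x * cosh x := by
  have h1 : StrictMonoOn (fun x => x * cosh x - sinh x) (Ici 0) := by
    apply smono_of_deriv (f' := fun x => x * sinh x)
    · exact ((continuous_id.mul continuous_cosh).sub continuous_sinh).continuousOn
    · intro x _
      have := ((hasDerivAt_id x).mul (hasDerivAt_cosh x)).sub (hasDerivAt_sinh x)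
      simp only [id, one_mul] at this
      have e : cosh x + x * sinh x - cosh x = x * sinh x := by ring
      rw [e] at this
      exact this
    · intro x hx
      have := sinh_pos_iff.2 hx
      positivity
  have := h1 (mem_Ici.2 le_rfl) (mem_Ici.2 h.le) h
  simp only [zero_mul, sinh_zero, sub_zero] at this
  linarith
end HBasicAux

theorem etad_pos {u : ℝ} (h : 0 < u) : 0 < etad u := by
  unfold etad
  have := sinh_lt_mul_cosh (by linarith : 0 < 2 * u)
  apply div_pos (by linarith) (by positivity)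

theorem eta_strictMonoOn : StrictMonoOn eta (Ici 0) :=
  smono_of_deriv continuous_eta.continuousOn (fun _ hx => hasDerivAt_eta hx)
    (fun _ hx => etad_pos hx)

theorem tendsto_eta : Tendsto eta atTop atTop := by
  have h1 : ∀ᶠ u : ℝ in atTop, u / 2 - 1 / 2 ≤ eta u := by
    filter_upwards [eventually_gt_atTop 0] with u hu
    rw [eta_of_ne hu.ne', sinh_eq]
    have h2 := quadratic_le_exp_of_nonneg (by linarith : 0 ≤ 2 * u)
    have h3 : exp (-(2 * u)) ≤ 1 := exp_le_one_iff.2 (by linarith)
    rw [le_sub_iff_add_le, le_div_iff₀ (by positivity)]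
    nlinarith
  refine tendsto_atTop_mono' _ h1 ?_
  exact tendsto_atTop_add_const_right _ _ (tendsto_id.atTop_div_const (by norm_num))

theorem continuous_qq : Continuous qq := continuous_G2.add (continuous_HH.mul continuous_eta)

theorem hasDerivAt_qq {u : ℝ} (h : 0 < u) : HasDerivAt qq (etad u * HH u) u := by
  have h1 := (hasDerivAt_G2 u).add ((hasDerivAt_HH u).mul (hasDerivAt_eta h))
  have h2 : tanh u - u / cosh u ^ 2 + (-(u / cosh u ^ 2) * eta u + HH u * etad u) =
      etad u * HH u := by
    rw [eta_of_ne h.ne', tanh_eq_sinh_div_cosh, sinh_two_mul]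
    have := cosh_ne u
    field_simp
    ring
  rw [h2] at h1
  exact h1

theorem qq_zero : qq 0 = 0 := by simp [qq, G2, eta_zero]

theorem qq_nonneg {u : ℝ} (h : 0 ≤ u) : 0 ≤ qq u := by
  have h1 : MonotoneOn qq (Ici 0) := mono_of_deriv continuous_qq.continuousOn
    (fun x hx => hasDerivAt_qq hx) (fun x hx => (mul_pos (etad_pos hx) (HH_pos x)).le)
  rw [← qq_zero]
  exact h1 (mem_Ici.2 le_rfl) (mem_Ici.2 h) h

/-- Env -/
theorem qq_sub_le {u w : ℝ} (hu : 0 ≤ u) (hw : 0 ≤ w) : qq u - eta u * HH w ≤ G2 w := by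
  have hF : qq w - eta w * HH w = G2 w := by unfold qq; ring
  have hd : ∀ x, 0 < x → HasDerivAt (fun x => qq x - eta x * HH w)
      (etad x * (HH x - HH w)) x := by
    intro x hx
    have := (hasDerivAt_qq hx).sub ((hasDerivAt_eta hx).mul_const (HH w))
    have e : etad x * HH x - etad x * HH w = etad x * (HH x - HH w) := by ring
    rw [e] at this
    exact this
  have hc : Continuous (fun x => qq x - eta x * HH w) :=
    continuous_qq.sub (continuous_eta.mul continuous_const)
  rw [← hF]
  rcases le_total u w with h | h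
  · have h1 : MonotoneOn (fun x => qq x - eta x * HH w) (Icc 0 w) := by
      apply monotoneOn_of_deriv_nonneg (convex_Icc 0 w) hc.continuousOn
      · intro x hx
        rw [interior_Icc] at hx
        exact (hd x hx.1).differentiableAt.differentiableWithinAt
      · intro x hx
        rw [interior_Icc] at hx
        rw [(hd x hx.1).deriv]
        have := HH_strictAntiOn.antitoneOn (mem_Ici.2 hx.1.le) (mem_Ici.2 hw) hx.2.le
        exact mul_nonneg (etad_pos hx.1).le (by linarith)
    exact h1 ⟨hu, h⟩ ⟨hw, le_rfl⟩ h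
  · have h1 : AntitoneOn (fun x => qq x - eta x * HH w) (Ici w) := by
      apply antitoneOn_of_deriv_nonpos (convex_Ici w) hc.continuousOn
      · intro x hx
        rw [interior_Ici] at hx
        exact (hd x (lt_of_le_of_lt hw hx)).differentiableAt.differentiableWithinAt
      · intro x hx
        rw [interior_Ici] at hx
        have hx0 : 0 < x := lt_of_le_of_lt hw hx
        rw [(hd x hx0).deriv]
        have := HH_strictAntiOn.antitoneOn (mem_Ici.2 hw) (mem_Ici.2 hx0.le) hx.le
        exact mul_nonpos_of_nonneg_of_nonpos (etad_pos hx0).le (by linarith)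
    exact h1 (mem_Ici.2 le_rfl) (mem_Ici.2 h) h

namespace HBasicAux
/-- `H sinh 2u ≤ u + tanh u / 2` -/
lemma key_K {u : ℝ} (h : 0 < u) : HH u * sinh (2 * u) ≤ u + tanh u / 2 := by
  -- `Z(u) = (u + tanh u / 2)/sinh 2u - H(u)` decreases to `0`
  have hd : ∀ x, 0 < x → HasDerivAt (fun x => (x + tanh x / 2) / sinh (2 * x) - HH x)
      ((2 * tanh x - 2 * x) / sinh (2 * x) ^ 2) x := by
    intro x hx
    have hs : sinh (2 * x) ≠ 0 := (sinh_pos_iff.2 (by linarith : (0 : ℝ) < 2 * x)).ne'
    have h2 : HasDerivAt (fun x : ℝ => 2 * x) 2 x := by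
      simpa using (hasDerivAt_id x).const_mul 2
    have h3 : HasDerivAt (fun x : ℝ => sinh (2 * x)) (cosh (2 * x) * 2) x :=
      (hasDerivAt_sinh (2 * x)).comp x h2
    have h4 : HasDerivAt (fun x : ℝ => x + tanh x / 2) (1 + 1 / cosh x ^ 2 / 2) x :=
      (hasDerivAt_id x).add ((hasDerivAt_tanh' x).div_const 2)
    have h5 := (h4.div h3 hs).sub (hasDerivAt_HH x)
    have h6 : ((1 + 1 / cosh x ^ 2 / 2) * sinh (2 * x) - (x + tanh x / 2) * (cosh (2 * x) * 2)) /
        sinh (2 * x) ^ 2 - -(x / cosh x ^ 2) = (2 * tanh x - 2 * x) / sinh (2 * x) ^ 2 := by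
      have e1 : x / cosh x ^ 2 = (x / cosh x ^ 2 * sinh (2 * x) ^ 2) / sinh (2 * x) ^ 2 := by
        field_simp
      rw [sub_neg_eq_add, e1, ← add_div]
      congr 1
      rw [tanh_eq_sinh_div_cosh, sinh_two_mul, cosh_two_mul]
      have hc := cosh_ne x
      have hsq : sinh x ^ 2 = cosh x ^ 2 - 1 := by have := cosh_sq x; linarith
      field_simp
      have h7 : sinh x ^ 3 = sinh x * (cosh x ^ 2 - 1) := by rw [← hsq]; ring
      ring_nf
      rw [h7, hsq]
      ring
    rw [h6] at h5
    exact h5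
  have hanti : AntitoneOn (fun x => (x + tanh x / 2) / sinh (2 * x) - HH x) (Ioi 0) := by
    apply antitoneOn_of_deriv_nonpos (convex_Ioi 0)
    · intro x hx
      exact (hd x hx).continuousAt.continuousWithinAt
    · intro x hx
      rw [interior_Ioi] at hx
      exact (hd x hx).differentiableAt.differentiableWithinAt
    · intro x hx
      rw [interior_Ioi] at hx
      rw [(hd x hx).deriv]
      have := tanh_le_self (le_of_lt hx : (0 : ℝ) ≤ x)
      apply div_nonpos_of_nonpos_of_nonneg (by linarith) (by positivity)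
  have hlow : ∀ v, u ≤ v → -HH v ≤ (u + tanh u / 2) / sinh (2 * u) - HH u := by
    intro v hv
    have hv0 : 0 < v := lt_of_lt_of_le h hv
    have h1 := hanti (mem_Ioi.2 h) (mem_Ioi.2 hv0) hv
    simp only at h1
    have h2 : 0 ≤ (v + tanh v / 2) / sinh (2 * v) := by
      have := sinh_pos_iff.2 (by linarith : (0 : ℝ) < 2 * v)
      have := tanh_nonneg' hv0.le
      positivity
    linarith
  have hlim : (0 : ℝ) ≤ (u + tanh u / 2) / sinh (2 * u) - HH u := by
    have h1 : Tendsto (fun v => -HH v) atTop (𝓝 0) := by simpa using tendsto_HH.neg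
    exact le_of_tendsto h1 (by filter_upwards [eventually_ge_atTop u] with v hv using hlow v hv)
  have hs := sinh_pos_iff.2 (by linarith : (0 : ℝ) < 2 * u)
  rw [sub_nonneg, le_div_iff₀ hs] at hlim
  exact hlim
end HBasicAux

/-- `log 2 - 1/2` bounds : `½ ≤ H S ≤ ln 2` -/
theorem HS_le {u : ℝ} (h : 0 < u) : HH u * (sinh (2 * u) / (2 * u)) ≤ log 2 := by
  -- `f(u) = 2 u log 2 - H sinh 2u`, `f' = 2 log 2 + 2 u tanh u - 2 H cosh 2u`
  have hf2 : MonotoneOn (fun x => 2 * log 2 + 2 * (x * tanh x) - 2 * (HH x * cosh (2 * x)))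
      (Ici 0) := by
    apply mono_of_deriv (f' := fun x => 4 * (x + tanh x / 2 - HH x * sinh (2 * x)))
    · apply Continuous.continuousOn
      have e1 : Continuous (fun x : ℝ => x * tanh x) :=
        continuous_iff_continuousAt.2 fun x => (hasDerivAt_mul_tanh x).continuousAt
      have e2 : Continuous (fun x : ℝ => HH x * cosh (2 * x)) :=
        continuous_HH.mul (continuous_cosh.comp (continuous_const.mul continuous_id))
      exact (continuous_const.add (continuous_const.mul e1)).sub (continuous_const.mul e2)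
    · intro x _
      have h2 : HasDerivAt (fun x : ℝ => 2 * x) 2 x := by
        simpa using (hasDerivAt_id x).const_mul 2
      have h3 : HasDerivAt (fun x : ℝ => cosh (2 * x)) (sinh (2 * x) * 2) x :=
        (hasDerivAt_cosh (2 * x)).comp x h2
      have h4 := (((hasDerivAt_mul_tanh x).const_mul 2).const_add (2 * log 2)).sub
        (((hasDerivAt_HH x).mul h3).const_mul 2)
      have h5 : 2 * (tanh x + x / cosh x ^ 2) -
          2 * (-(x / cosh x ^ 2) * cosh (2 * x) + HH x * (sinh (2 * x) * 2)) =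
          4 * (x + tanh x / 2 - HH x * sinh (2 * x)) := by
        have e1 : cosh (2 * x) = 2 * cosh x ^ 2 - 1 := by
          rw [cosh_two_mul]; have := cosh_sq x; linarith
        have hc := cosh_ne x
        rw [e1]
        field_simp
        ring
      rw [h5] at h4
      exact h4
    · intro x hx
      have := key_K hx
      linarith
  have hf1 : MonotoneOn (fun x => 2 * x * log 2 - HH x * sinh (2 * x)) (Ici 0) := by
    apply mono_of_deriv
      (f' := fun x => 2 * log 2 + 2 * (x * tanh x) - 2 * (HH x * cosh (2 * x)))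
    · apply Continuous.continuousOn
      exact ((continuous_const.mul continuous_id).mul continuous_const).sub
        (continuous_HH.mul (continuous_sinh.comp (continuous_const.mul continuous_id)))
    · intro x _
      have h2 : HasDerivAt (fun x : ℝ => 2 * x) 2 x := by
        simpa using (hasDerivAt_id x).const_mul 2
      have h3 : HasDerivAt (fun x : ℝ => sinh (2 * x)) (cosh (2 * x) * 2) x :=
        (hasDerivAt_sinh (2 * x)).comp x h2
      have h4 := (h2.mul_const (log 2)).sub ((hasDerivAt_HH x).mul h3)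
      have h5 : 2 * log 2 - (-(x / cosh x ^ 2) * sinh (2 * x) + HH x * (cosh (2 * x) * 2)) =
          2 * log 2 + 2 * (x * tanh x) - 2 * (HH x * cosh (2 * x)) := by
        have hc := cosh_ne x
        rw [tanh_eq_sinh_div_cosh, sinh_two_mul]
        field_simp
        ring
      rw [h5] at h4
      exact h4
    · intro x hx
      have := hf2 (mem_Ici.2 le_rfl) (mem_Ici.2 hx.le) hx.le
      simp only [HH_zero, mul_zero, cosh_zero, mul_one, tanh_zero, add_zero, sub_self] at this
      exact this
  have h1 := hf1 (mem_Ici.2 le_rfl) (mem_Ici.2 h.le) h.le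
  simp only [mul_zero, zero_mul, sinh_zero, sub_self] at h1
  rw [← mul_div_assoc, div_le_iff₀ (by positivity)]
  linarith

theorem le_HS {u : ℝ} (h : 0 < u) : 1 / 2 ≤ HH u * (sinh (2 * u) / (2 * u)) := by
  rw [← mul_div_assoc, le_div_iff₀ (by positivity)]
  set E := exp (-(2 * u)) with hE
  have hE0 : 0 < E := exp_pos _
  have hE1 : E < 1 := by rw [hE, exp_lt_one_iff]; linarith
  have hsinh : sinh (2 * u) = (1 - E ^ 2) / (2 * E) := by
    rw [sinh_eq]
    have e1 : exp (2 * u) = 1 / E := by rw [hE, exp_neg]; simp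
    rw [e1, ← hE]
    field_simp
  have hH := HH_eq_exp u
  rw [← hE] at hH
  -- `log (1 + E) ≥ E - E²/2`
  have hlog : E - E ^ 2 / 2 ≤ log (1 + E) := by
    have h1 : MonotoneOn (fun x : ℝ => log (1 + x) - (x - x ^ 2 / 2)) (Ici 0) := by
      apply mono_of_deriv (f' := fun x => 1 / (1 + x) - (1 - x))
      · apply ContinuousOn.sub
        · apply ContinuousOn.log (by fun_prop)
          intro x hx
          have := mem_Ici.1 hx
          linarith
        · fun_prop
      · intro x hx
        have e1 : HasDerivAt (fun x : ℝ => log (1 + x)) (1 / (1 + x)) x := by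
          have := ((hasDerivAt_id x).const_add 1).log (by simp; linarith)
          simpa using this
        have e2 : HasDerivAt (fun x : ℝ => x - x ^ 2 / 2) (1 - x) x := by
          refine ((hasDerivAt_id' x).sub ((hasDerivAt_pow 2 x).div_const 2)).congr_deriv ?_
          norm_num
        exact e1.sub e2
      · intro x hx
        have : 1 / (1 + x) - (1 - x) = x ^ 2 / (1 + x) := by
          have : 1 + x ≠ 0 := by linarith
          field_simp
          ring
        rw [this]
        positivity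
    have := h1 (mem_Ici.2 le_rfl) (mem_Ici.2 hE0.le) hE0.le
    simp only [add_zero, log_one] at this
    linarith
  have h2u : 2 * u ≤ (1 - E ^ 2) / (2 * E) := by
    rw [← hsinh]
    exact self_le_sinh_iff.2 (by linarith)
  rw [le_div_iff₀ (by positivity)] at h2u
  rw [hH, hsinh]
  have h3 : 0 < 1 - E ^ 2 := by nlinarith
  have h4 : (E - E ^ 2 / 2 + 2 * u * E / (1 + E)) * ((1 - E ^ 2) / (2 * E)) ≤
      (log (1 + E) + 2 * u * E / (1 + E)) * ((1 - E ^ 2) / (2 * E)) := by
    apply mul_le_mul_of_nonneg_right (by linarith) (by positivity)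
  refine le_trans ?_ h4
  have h5 : (E - E ^ 2 / 2 + 2 * u * E / (1 + E)) * ((1 - E ^ 2) / (2 * E)) =
      (1 - E ^ 2) * (2 - E) / 4 + u * (1 - E) := by
    field_simp
    ring
  rw [h5]
  nlinarith

end Vale.Agent.P322
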