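import Vale.Agent.P322.HBasic

/-! (K1) the monotonicity-in-the-centre inequalities -/

open Real Set Filter Topology
namespace Vale.Agent.P322

open HBasicAux

namespace K1Aux

lemma log_two_cosh_ge (u : ℝ) : log 2 ≤ log (2 * cosh u) :=
  log_le_log (by norm_num) (by linarith [one_le_cosh u])

lemma half_lt_log_two : 1 / 2 < log 2 := by linarith [Real.log_two_gt_d9]

lemma log_two_cosh_gt (u : ℝ) : 1 / 2 < log (2 * cosh u) :=
  lt_of_lt_of_le half_lt_log_two (log_two_cosh_ge u)

lemma log_two_cosh_pos (u : ℝ) : 0 < log (2 * cosh u) := by linarith [log_two_cosh_gt u]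

lemma hasDerivAt_kap (u : ℝ) : HasDerivAt kap
    (tanh u * (2 * cosh u ^ 2 * log (2 * cosh u) - sinh u ^ 2) / log (2 * cosh u) ^ 2) u := by
  have h1 : HasDerivAt (fun x => sinh x ^ 2) (2 * sinh u * cosh u) u := by
    refine ((hasDerivAt_sinh u).pow 2).congr_deriv ?_
    norm_num
  refine (h1.div (hasDerivAt_logtwocosh u) (log_two_cosh_pos u).ne').congr_deriv ?_
  have h2 := log_two_cosh_pos u
  congr 1
  have h3 : sinh u = tanh u * cosh u := by
    rw [tanh_eq_sinh_div_cosh, div_mul_cancel₀ _ (cosh_ne u)]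
  rw [h3]
  ring

lemma continuous_kap : Continuous kap :=
  continuous_iff_continuousAt.2 fun x => (hasDerivAt_kap x).continuousAt

lemma kap_pos {u : ℝ} (h : 0 < u) : 0 < kap u := by
  have h1 := log_two_cosh_pos u
  have h2 := sinh_pos_iff.2 h
  unfold kap
  positivity

lemma hasDerivAt_theta {u : ℝ} (h : 0 < u) : HasDerivAt theta (-(1 / kap u)) u := by
  have ht := tanh_pos' h
  refine ((hasDerivAt_HH u).div (hasDerivAt_tanh' u) ht.ne').congr_deriv ?_
  have h1 := log_two_cosh_pos u
  have h2 := sinh_pos_iff.2 h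
  have h3 := cosh_pos u
  unfold kap HH
  rw [tanh_eq_sinh_div_cosh]
  field_simp
  ring

lemma HH_add (u : ℝ) : HH u + u * tanh u = log (2 * cosh u) := by
  unfold HH; ring

lemma key1 {a b : ℝ} (ha : 0 ≤ a) (hab : a ≤ b) :
    a / cosh a ^ 2 + b / cosh b ^ 2 ≤ (HH a + HH b) * (tanh a + tanh b) := by
  have key0 : ∀ x : ℝ, 0 ≤ x → x / cosh x ^ 2 ≤ 2 * tanh x * HH x := by
    intro x hx
    rcases hx.eq_or_lt with rfl | hx
    · simp
    have h1 := le_HS hx
    rw [← mul_div_assoc, le_div_iff₀ (by positivity), sinh_two_mul] at h1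
    rw [tanh_eq_sinh_div_cosh, div_le_iff₀ (by have := cosh_pos x; positivity)]
    have hc := cosh_pos x
    have : 2 * (sinh x / cosh x) * HH x * cosh x ^ 2 = HH x * (2 * sinh x * cosh x) := by
      field_simp
    rw [this]
    linarith
  have h1 := key0 a ha
  have h2 := key0 b (ha.trans hab)
  have h3 : tanh a ≤ tanh b := by
    have : MonotoneOn tanh (Ici (0:ℝ)) := by
      apply mono_of_deriv (f' := fun x => 1 / cosh x ^ 2)
      · exact (continuous_iff_continuousAt.2
          fun x => (hasDerivAt_tanh' x).continuousAt).continuousOn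
      · intro x _
        exact hasDerivAt_tanh' x
      · intro x _
        have := cosh_pos x
        positivity
    exact this (mem_Ici.2 ha) (mem_Ici.2 (ha.trans hab)) hab
  have h4 : HH b ≤ HH a := HH_strictAntiOn.antitoneOn (mem_Ici.2 ha) (mem_Ici.2 (ha.trans hab)) hab
  nlinarith [mul_nonneg (sub_nonneg.2 h3) (sub_nonneg.2 h4)]

lemma key2 {a b : ℝ} (ha : 0 ≤ a) (hab : a ≤ b) :
    b / cosh b ^ 2 - a / cosh a ^ 2 ≤ (HH a + HH b) * (tanh b - tanh a) := by
  have hd : ∀ x : ℝ, HasDerivAt
      (fun x => (HH a + HH x) * (tanh x - tanh a) + a / cosh a ^ 2 - x / cosh x ^ 2)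
      (1 / cosh x ^ 2 * (log (2 * cosh x) + x * tanh a + HH a - 1)) x := by
    intro x
    have h1 := ((hasDerivAt_HH x).const_add (HH a)).mul ((hasDerivAt_tanh' x).sub_const (tanh a))
    have h2 : HasDerivAt (fun x => cosh x ^ 2) (2 * cosh x * sinh x) x := by
      refine ((hasDerivAt_cosh x).pow 2).congr_deriv ?_
      norm_num
    have hc := cosh_pos x
    have h3 := (hasDerivAt_id' x).div h2 (by positivity)
    refine ((h1.add_const (a / cosh a ^ 2)).sub h3).congr_deriv ?_
    rw [← HH_add x]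
    have h4 : tanh x * cosh x = sinh x := by
      rw [tanh_eq_sinh_div_cosh, div_mul_cancel₀ _ (cosh_ne x)]
    rw [← h4]
    field_simp
    ring
  have h1 : MonotoneOn
      (fun x => (HH a + HH x) * (tanh x - tanh a) + a / cosh a ^ 2 - x / cosh x ^ 2) (Ici a) := by
    apply mono_of_deriv (f' := fun x =>
      1 / cosh x ^ 2 * (log (2 * cosh x) + x * tanh a + HH a - 1))
    · exact (continuous_iff_continuousAt.2 fun x => (hd x).continuousAt).continuousOn
    · intro x _
      exact hd x
    · intro x hx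
      have hc := cosh_pos x
      have h2 := log_two_cosh_gt x
      have h3 := log_two_cosh_gt a
      rw [← HH_add a] at h3
      have h4 := tanh_nonneg' ha
      have h5 : a * tanh a ≤ x * tanh a := mul_le_mul_of_nonneg_right hx.le h4
      have h6 : 0 ≤ log (2 * cosh x) + x * tanh a + HH a - 1 := by linarith
      positivity
  have h2 := h1 (mem_Ici.2 le_rfl) (mem_Ici.2 hab) hab
  simp only [sub_self, mul_zero, zero_add] at h2
  linarith

lemma key {a b : ℝ} (h : |a| ≤ b) :
    a / cosh a ^ 2 + b / cosh b ^ 2 ≤ (HH a + HH b) * (tanh a + tanh b) := by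
  rcases le_total 0 a with ha | ha
  · rw [abs_of_nonneg ha] at h
    exact key1 ha h
  · rw [abs_of_nonpos ha] at h
    have := key2 (neg_nonneg.2 ha) h
    rw [cosh_neg, HH_neg, tanh_neg] at this
    have e : -a / cosh a ^ 2 = -(a / cosh a ^ 2) := neg_div _ _
    rw [e] at this
    linarith

lemma cosh_add_cosh (c v : ℝ) :
    cosh (2 * c) + cosh (2 * v) = 2 * cosh (c - v) * cosh (c + v) := by
  rw [cosh_two_mul, cosh_two_mul, cosh_sub, cosh_add]
  have h1 := cosh_sq c
  have h2 := cosh_sq v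
  nlinarith

lemma sinh_two_c (c v : ℝ) :
    sinh (2 * c) = cosh (c - v) * cosh (c + v) * (tanh (c - v) + tanh (c + v)) := by
  have e : 2 * c = (c - v) + (c + v) := by ring
  rw [e, sinh_add, tanh_eq_sinh_div_cosh, tanh_eq_sinh_div_cosh]
  have h1 := cosh_pos (c - v)
  have h2 := cosh_pos (c + v)
  field_simp

lemma R_ge_aux {v c : ℝ} (hv : 0 ≤ v) (hc : 0 ≤ c) :
    4 * HH v * cosh v ^ 2 ≤ (HH (c - v) + HH (c + v)) * (cosh (2 * c) + cosh (2 * v)) := by
  have hd : ∀ x : ℝ, HasDerivAt
      (fun x => (HH (x - v) + HH (x + v)) * (cosh (2 * x) + cosh (2 * v)))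
      ((-((x - v) / cosh (x - v) ^ 2) + -((x + v) / cosh (x + v) ^ 2)) *
        (cosh (2 * x) + cosh (2 * v)) + (HH (x - v) + HH (x + v)) * (2 * sinh (2 * x))) x := by
    intro x
    have h1 : HasDerivAt (fun x => HH (x - v)) (-((x - v) / cosh (x - v) ^ 2)) x :=
      (hasDerivAt_HH (x - v)).comp_sub_const x v
    have h2 : HasDerivAt (fun x => HH (x + v)) (-((x + v) / cosh (x + v) ^ 2)) x :=
      (hasDerivAt_HH (x + v)).comp_add_const x v
    have h3 : HasDerivAt (fun x : ℝ => 2 * x) 2 x := by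
      simpa using (hasDerivAt_id x).const_mul 2
    have h4 : HasDerivAt (fun x : ℝ => cosh (2 * x)) (2 * sinh (2 * x)) x := by
      refine ((hasDerivAt_cosh (2 * x)).comp x h3).congr_deriv ?_
      ring
    exact (h1.add h2).mul (h4.add_const _)
  have h1 : MonotoneOn
      (fun x => (HH (x - v) + HH (x + v)) * (cosh (2 * x) + cosh (2 * v))) (Ici 0) := by
    apply mono_of_deriv (f' := fun x =>
      (-((x - v) / cosh (x - v) ^ 2) + -((x + v) / cosh (x + v) ^ 2)) *
        (cosh (2 * x) + cosh (2 * v)) + (HH (x - v) + HH (x + v)) * (2 * sinh (2 * x)))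
    · exact (continuous_iff_continuousAt.2 fun x => (hd x).continuousAt).continuousOn
    · intro x _
      exact hd x
    · intro x hx
      have hk : |x - v| ≤ x + v := by rw [abs_le]; constructor <;> linarith
      have h2 := key hk
      rw [cosh_add_cosh, sinh_two_c x v]
      have h3 := cosh_pos (x - v)
      have h4 := cosh_pos (x + v)
      have h5 : (-((x - v) / cosh (x - v) ^ 2) + -((x + v) / cosh (x + v) ^ 2)) *
        (2 * cosh (x - v) * cosh (x + v)) + (HH (x - v) + HH (x + v)) *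
          (2 * (cosh (x - v) * cosh (x + v) * (tanh (x - v) + tanh (x + v)))) =
        2 * cosh (x - v) * cosh (x + v) * ((HH (x - v) + HH (x + v)) *
          (tanh (x - v) + tanh (x + v)) -
          ((x - v) / cosh (x - v) ^ 2 + (x + v) / cosh (x + v) ^ 2)) := by ring
      rw [h5]
      have h6 := sub_nonneg.2 h2
      positivity
  have h2 := h1 (mem_Ici.2 le_rfl) (mem_Ici.2 hc) hc
  simp only [zero_sub, zero_add, mul_zero, cosh_zero, HH_neg] at h2
  have h3 : (HH v + HH v) * (1 + cosh (2 * v)) = 4 * HH v * cosh v ^ 2 := by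
    rw [cosh_two_mul]
    have := cosh_sq v
    have e : sinh v ^ 2 = cosh v ^ 2 - 1 := by linarith
    rw [e]
    ring
  rw [h3] at h2
  exact h2

lemma R_ge {v : ℝ} (hv : 0 ≤ v) (c : ℝ) :
    4 * HH v * cosh v ^ 2 ≤ (HH (c - v) + HH (c + v)) * (cosh (2 * c) + cosh (2 * v)) := by
  rcases le_total 0 c with hc | hc
  · exact R_ge_aux hv hc
  · have h := R_ge_aux hv (neg_nonneg.2 hc)
    have e1 : HH (-c - v) = HH (c + v) := by rw [← HH_neg (c + v)]; congr 1; ring
    have e2 : HH (-c + v) = HH (c - v) := by rw [← HH_neg (c - v)]; congr 1; ring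
    have e3 : cosh (2 * -c) = cosh (2 * c) := by rw [← cosh_neg (2 * c)]; congr 1; ring
    rw [e1, e2, e3] at h
    linarith

lemma ath_lt {s t : ℝ} (hs : s ∈ Ioo (-1 : ℝ) 1) (ht : t ∈ Ioo (-1 : ℝ) 1) (hst : s < t) :
    ath s < ath t := by
  unfold ath
  have h1 : log (1 + s) < log (1 + t) := log_lt_log (by linarith [hs.1]) (by linarith)
  have h2 : log (1 - t) < log (1 - s) := log_lt_log (by linarith [ht.2]) (by linarith)
  linarith

end K1Aux

open K1Aux

theorem kap_strictMonoOn : StrictMonoOn kap (Ici 0) := by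
  refine smono_of_deriv continuous_kap.continuousOn (fun x _ => hasDerivAt_kap x) ?_
  intro x hx
  have h1 := tanh_pos' hx
  have h2 := log_two_cosh_gt x
  have h3 := cosh_sq x
  have h4 := sinh_pos_iff.2 hx
  have h5 : 0 < 2 * cosh x ^ 2 * log (2 * cosh x) - sinh x ^ 2 := by
    nlinarith [cosh_pos x, mul_pos (pow_pos (cosh_pos x) 2) (sub_pos.2 h2)]
  have h6 := log_two_cosh_pos x
  positivity

namespace K1Aux

/-- `x + κ(x) ϑ(x) ≤ v + κ(x) ϑ(v)` -/
lemma gam_le {x v : ℝ} (hx : 0 < x) (hv : 0 < v) :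
    x + kap x * theta x ≤ v + kap x * theta v := by
  have hd : ∀ y : ℝ, 0 < y → HasDerivAt (fun y => y + kap x * theta y) (1 - kap x / kap y) y := by
    intro y hy
    refine ((hasDerivAt_id' y).add ((hasDerivAt_theta hy).const_mul (kap x))).congr_deriv ?_
    ring
  have hkx := kap_pos hx
  rcases le_total x v with h | h
  · have h1 : MonotoneOn (fun y => y + kap x * theta y) (Ici x) := by
      refine mono_of_deriv (f' := fun y => 1 - kap x / kap y) ?_ ?_ ?_
      · intro y hy
        exact (hd y (hx.trans_le hy)).continuousAt.continuousWithinAt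
      · intro y hy
        exact hd y (hx.trans hy)
      · intro y hy
        have := kap_strictMonoOn (mem_Ici.2 hx.le) (mem_Ici.2 (hx.trans hy).le) hy
        rw [sub_nonneg, div_le_one (kap_pos (hx.trans hy))]
        exact this.le
    exact h1 (mem_Ici.2 le_rfl) (mem_Ici.2 h) h
  · have h1 : AntitoneOn (fun y => y + kap x * theta y) (Icc v x) := by
      apply antitoneOn_of_deriv_nonpos (convex_Icc v x)
      · intro y hy
        exact (hd y (hv.trans_le hy.1)).continuousAt.continuousWithinAt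
      · intro y hy
        rw [interior_Icc] at hy
        exact (hd y (hv.trans hy.1)).differentiableAt.differentiableWithinAt
      · intro y hy
        rw [interior_Icc] at hy
        rw [(hd y (hv.trans hy.1)).deriv]
        have := kap_strictMonoOn (mem_Ici.2 (hv.trans hy.1).le) (mem_Ici.2 hx.le) hy.2
        rw [sub_nonpos, one_le_div (kap_pos (hv.trans hy.1))]
        exact this.le
    exact h1 (left_mem_Icc.2 h) (right_mem_Icc.2 h) h

end K1Aux

/-- (K1') : `½(h(s)+h(t)) ≥ d ϑ(v)` -/
theorem ent_add_ge {s t : ℝ} (hs : s ∈ Ioo (-1 : ℝ) 1) (ht : t ∈ Ioo (-1 : ℝ) 1) (hst : s < t) :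
    (t - s) / 2 * theta ((ath t - ath s) / 2) ≤ (ent s + ent t) / 2 := by
  have hab := ath_lt hs ht hst
  set a := ath s with ha
  set b := ath t with hb
  have es : s = tanh a := (tanh_ath hs).symm
  have et : t = tanh b := (tanh_ath ht).symm
  rw [es, et, ent_tanh, ent_tanh]
  obtain ⟨v, hv⟩ : ∃ v, v = (b - a) / 2 := ⟨_, rfl⟩
  obtain ⟨c, hc⟩ : ∃ c, c = (a + b) / 2 := ⟨_, rfl⟩
  have hv0 : 0 < v := by rw [hv]; linarith
  have ea : a = c - v := by rw [hv, hc]; ring
  have eb : b = c + v := by rw [hv, hc]; ring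
  rw [← hv, ea, eb]
  have h1 := R_ge hv0.le c
  have h2 := cosh_pos (c - v)
  have h3 := cosh_pos (c + v)
  have h4 := cosh_pos v
  have h5 := sinh_pos_iff.2 hv0
  rw [cosh_add_cosh] at h1
  have h6 : (tanh (c + v) - tanh (c - v)) / 2 =
      sinh v * cosh v / (cosh (c - v) * cosh (c + v)) := by
    rw [tanh_eq_sinh_div_cosh, tanh_eq_sinh_div_cosh, div_sub_div _ _ h3.ne' h2.ne']
    have e : sinh (c + v) * cosh (c - v) - cosh (c + v) * sinh (c - v) = 2 * sinh v * cosh v := by
      rw [← sinh_sub, ← sinh_two_mul]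
      congr 1
      ring
    rw [e]
    field_simp
  rw [h6]
  have h7 : sinh v * cosh v / (cosh (c - v) * cosh (c + v)) * theta v =
      4 * HH v * cosh v ^ 2 / (4 * (cosh (c - v) * cosh (c + v))) := by
    unfold theta
    rw [tanh_eq_sinh_div_cosh]
    field_simp
  rw [h7, div_le_iff₀ (by positivity)]
  nlinarith

/-- (K1) -/
theorem JJ_ge {s t x : ℝ} (hs : s ∈ Ioo (-1 : ℝ) 1) (ht : t ∈ Ioo (-1 : ℝ) 1) (hx : 0 < x) :
    gam x * ((t - s) / 2) - kap x * ((ent s + ent t) / 2) ≤ JJ s t := by
  rcases lt_trichotomy s t with hst | hst | hst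
  · have h1 := ent_add_ge hs ht hst
    have hab := ath_lt hs ht hst
    obtain ⟨v, hv⟩ : ∃ v, v = (ath t - ath s) / 2 := ⟨_, rfl⟩
    have hv0 : 0 < v := by rw [hv]; linarith
    rw [← hv] at h1
    have e1 : JJ s t = v * ((t - s) / 2) := by unfold JJ; rw [hv]; ring
    have e2 : gam x = x + kap x * theta x := by
      unfold gam kap theta
      rw [tanh_eq_sinh_div_cosh, sinh_two_mul]
      have h2 := sinh_pos_iff.2 hx
      have h3 := cosh_pos x
      have h4 := log_two_cosh_pos x
      field_simp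
    have h2 := gam_le hx hv0
    have h3 := kap_pos hx
    rw [e1, e2]
    nlinarith [mul_le_mul_of_nonneg_left h1 h3.le]
  · subst hst
    have h3 := kap_pos hx
    have h4 : 0 < ent s := by
      rw [← tanh_ath hs, ent_tanh]
      exact HH_pos _
    have e1 : JJ s s = 0 := by unfold JJ; ring
    rw [e1]
    nlinarith [mul_pos h3 h4]
  · have h3 := kap_pos hx
    have h4 : 0 < ent s := by
      rw [← tanh_ath hs, ent_tanh]
      exact HH_pos _
    have h5 : 0 < ent t := by
      rw [← tanh_ath ht, ent_tanh]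
      exact HH_pos _
    have hab := ath_lt ht hs hst
    have e1 : 0 ≤ JJ s t := by
      unfold JJ
      have := mul_pos (sub_pos.2 hab) (sub_pos.2 hst)
      linarith
    have h6 : 0 < gam x := by
      unfold gam
      have h2 : 0 < sinh (2 * x) := sinh_pos_iff.2 (by linarith)
      have h4 := log_two_cosh_pos x
      have := HH_pos x
      positivity
    nlinarith [mul_pos h3 h4, mul_pos h3 h5, mul_pos h6 (sub_pos.2 hst)]

end Vale.Agent.P322
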