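import Vale.Agent.P322.HBasic

/-!
# (M2): the one-variable inequality `η(x) + (H(x)/ln 2 - a(tanh x)) c(x)/H(x) ≤ κ(x)`

With `P = H S ≤ ln 2`, `L = ln (2 cosh x)`: `κ - η = 1 - P/L` and
`(H/ln2 - a) c/H = c (1/ln2 - (T/x)(1-T²/5)/P)`.
-/

namespace Vale.Agent.P322

open Real Set

namespace M2Aux

theorem sinh_le_mul_cosh {x : ℝ} (hx : 0 ≤ x) : sinh x ≤ x * cosh x := by
  have hmono : MonotoneOn (fun y : ℝ => y * cosh y - sinh y) (Ici 0) := by
    apply monotoneOn_of_deriv_nonneg (convex_Ici 0)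
    · fun_prop
    · intro y _
      apply DifferentiableAt.differentiableWithinAt
      fun_prop
    · intro y hy
      simp only [interior_Ici, mem_Ioi] at hy
      have h : HasDerivAt (fun y : ℝ => y * cosh y - sinh y)
          (1 * cosh y + y * sinh y - cosh y) y :=
        ((hasDerivAt_id y).mul (Real.hasDerivAt_cosh y)).sub (Real.hasDerivAt_sinh y)
      rw [h.deriv]
      have := mul_nonneg hy.le (sinh_nonneg_iff.mpr hy.le)
      linarith
  have := hmono (mem_Ici.mpr le_rfl) (mem_Ici.mpr hx) hx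
  simp at this
  linarith

theorem tanh_le_self {x : ℝ} (hx : 0 ≤ x) : tanh x ≤ x := by
  rw [tanh_eq_sinh_div_cosh, div_le_iff₀ (cosh_pos x)]
  exact sinh_le_mul_cosh hx

theorem tanh_lower {x : ℝ} (hx : 0 ≤ x) : 3 * x / (3 + x ^ 2) ≤ tanh x := by
  have hmono : MonotoneOn (fun y : ℝ => (3 + y ^ 2) * sinh y - 3 * y * cosh y) (Ici 0) := by
    apply monotoneOn_of_deriv_nonneg (convex_Ici 0)
    · fun_prop
    · intro y _
      apply DifferentiableAt.differentiableWithinAt
      fun_prop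
    · intro y hy
      simp only [interior_Ici, mem_Ioi] at hy
      have h1 : HasDerivAt (fun y : ℝ => 3 + y ^ 2) (2 * y) y := by
        simpa using ((hasDerivAt_pow 2 y).const_add 3)
      have h2 : HasDerivAt (fun y : ℝ => 3 * y) 3 y := by
        simpa using (hasDerivAt_id y).const_mul (3 : ℝ)
      have h : HasDerivAt (fun y : ℝ => (3 + y ^ 2) * sinh y - 3 * y * cosh y)
          ((2 * y * sinh y + (3 + y ^ 2) * cosh y) - (3 * cosh y + 3 * y * sinh y)) y :=
        (h1.mul (Real.hasDerivAt_sinh y)).sub (h2.mul (Real.hasDerivAt_cosh y))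
      rw [h.deriv]
      have h3 := sinh_le_mul_cosh hy.le
      have h4 : (2 * y * sinh y + (3 + y ^ 2) * cosh y) - (3 * cosh y + 3 * y * sinh y)
          = y * (y * cosh y - sinh y) := by ring
      rw [h4]
      exact mul_nonneg hy.le (by linarith)
  have h := hmono (mem_Ici.mpr le_rfl) (mem_Ici.mpr hx) hx
  simp at h
  rw [tanh_eq_sinh_div_cosh, div_le_div_iff₀ (by positivity) (cosh_pos x)]
  linarith

theorem log_cosh_lower {x : ℝ} (hx : 0 ≤ x) : x ^ 2 / 2 - x ^ 4 / 12 ≤ log (cosh x) := by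
  have hmono : MonotoneOn (fun y : ℝ => log (cosh y) - (y ^ 2 / 2 - y ^ 4 / 12)) (Ici 0) := by
    have hd : ∀ y : ℝ, HasDerivAt (fun y : ℝ => log (cosh y) - (y ^ 2 / 2 - y ^ 4 / 12))
        (sinh y / cosh y - (2 * y / 2 - 4 * y ^ 3 / 12)) y := by
      intro y
      have h1 := (Real.hasDerivAt_cosh y).log (cosh_pos y).ne'
      have h2 := ((hasDerivAt_pow 2 y).div_const 2).sub ((hasDerivAt_pow 4 y).div_const 12)
      exact (h1.sub h2).congr_deriv (by norm_num)
    apply monotoneOn_of_deriv_nonneg (convex_Ici 0)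
    · exact fun y _ => (hd y).continuousAt.continuousWithinAt
    · exact fun y _ => (hd y).differentiableAt.differentiableWithinAt
    · intro y hy
      simp only [interior_Ici, mem_Ioi] at hy
      rw [(hd y).deriv, ← tanh_eq_sinh_div_cosh]
      have h3 := tanh_lower hy.le
      have h4 : 2 * y / 2 - 4 * y ^ 3 / 12 ≤ 3 * y / (3 + y ^ 2) := by
        rw [le_div_iff₀ (by positivity)]
        have : 0 ≤ y ^ 5 := by positivity
        nlinarith
      linarith
  have := hmono (mem_Ici.mpr le_rfl) (mem_Ici.mpr hx) hx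
  simp at this
  linarith

theorem tanh_mono {a x : ℝ} (h : a ≤ x) : tanh a ≤ tanh x := by
  have h1 : 0 ≤ sinh (x - a) := sinh_nonneg_iff.mpr (by linarith)
  rw [sinh_sub] at h1
  rw [tanh_eq_sinh_div_cosh, tanh_eq_sinh_div_cosh, div_le_div_iff₀ (cosh_pos a) (cosh_pos x)]
  linarith

theorem le_log_two_cosh (x : ℝ) : x ≤ log (2 * cosh x) := by
  rw [le_log_iff_exp_le (by positivity), cosh_eq]
  have := exp_pos (-x)
  linarith

/-- the elementary inequality in `x`, `T = tanh x`, `L` -/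
theorem elem {x : ℝ} (hx : 0 < x) :
    4 / 3 * log 2 * (1 - tanh x / x * (1 - tanh x ^ 2 / 5)) ≤ 1 - log 2 / log (2 * cosh x) := by
  have hl1 : 0.6931471803 < log 2 := log_two_gt_d9
  have hl2 : log 2 < 0.6931471808 := log_two_lt_d9
  have hT1 := tanh_lower hx.le
  have hT0 : 0 < tanh x := by
    rw [tanh_eq_sinh_div_cosh]
    exact div_pos (sinh_pos_iff.mpr hx) (cosh_pos x)
  have hT2 : tanh x < 1 := tanh_lt_one x
  have hf : ∀ t, t ≤ tanh x → 0 ≤ t → t * (1 - t ^ 2 / 5) ≤ tanh x * (1 - tanh x ^ 2 / 5) := by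
    intro t ht ht0
    nlinarith [mul_nonneg ht0 hT0.le, mul_nonneg (sub_nonneg.mpr ht) (sub_nonneg.mpr hT2.le),
      mul_nonneg (sub_nonneg.mpr ht) ht0, mul_nonneg (sub_nonneg.mpr ht) hT0.le,
      mul_nonneg (mul_nonneg (sub_nonneg.mpr ht) hT0.le) hT0.le,
      mul_nonneg (mul_nonneg (sub_nonneg.mpr ht) ht0) hT0.le]
  have hLpos : 0 < log (2 * cosh x) := log_pos (by have := one_le_cosh x; linarith)
  rw [le_sub_iff_add_le, ← le_sub_iff_add_le', div_le_iff₀ hLpos]
  have hA : tanh x / x * (1 - tanh x ^ 2 / 5) = tanh x * (1 - tanh x ^ 2 / 5) / x := by ring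
  rw [hA]
  set l := log 2 with hl
  rcases le_total x (6 / 5) with hx1 | hx1
  · -- small x
    have hL : l + (x ^ 2 / 2 - x ^ 4 / 12) ≤ log (2 * cosh x) := by
      rw [log_mul (by norm_num) (cosh_pos x).ne']
      linarith [log_cosh_lower hx.le]
    have h1 := hf _ hT1 (by positivity)
    have h2 : 3 / (3 + x ^ 2) * (1 - 9 * x ^ 2 / (3 + x ^ 2) ^ 2 / 5)
        ≤ tanh x * (1 - tanh x ^ 2 / 5) / x := by
      rw [le_div_iff₀ hx]
      refine le_trans (le_of_eq ?_) h1
      field_simp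
      ring
    have h3 : 3 / (3 + x ^ 2) * (1 - 9 * x ^ 2 / (3 + x ^ 2) ^ 2 / 5)
        = 1 - x ^ 2 * (5 * (3 + x ^ 2) ^ 2 + 27) / (5 * (3 + x ^ 2) ^ 3) := by
      field_simp
      ring
    rw [h3] at h2
    set B := tanh x * (1 - tanh x ^ 2 / 5) / x with hB
    have hy0 : 0 < x ^ 2 := by positivity
    have hy1 : x ^ 2 ≤ 36 / 25 := by nlinarith
    have hx4 : x ^ 4 = (x ^ 2) ^ 2 := by ring
    rw [hx4] at hL
    generalize x ^ 2 = y at *
    have h4 : 1 - B ≤ y * (5 * (3 + y) ^ 2 + 27) / (5 * (3 + y) ^ 3) := by linarith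
    have h5 : 4 / 3 * l * (y * (5 * (3 + y) ^ 2 + 27) / (5 * (3 + y) ^ 3)) * (l + (y / 2 - y ^ 2 / 12))
        ≤ y / 2 - y ^ 2 / 12 := by
      have e : 4 / 3 * l * (y * (5 * (3 + y) ^ 2 + 27) / (5 * (3 + y) ^ 3)) * (l + (y / 2 - y ^ 2 / 12))
          = (4 / 3 * l * (y * (5 * (3 + y) ^ 2 + 27)) * (l + (y / 2 - y ^ 2 / 12))) / (5 * (3 + y) ^ 3) := by
        ring
      rw [e, div_le_iff₀ (by positivity)]
      have hg0 : 0 ≤ y / 2 - y ^ 2 / 12 := by nlinarith
      have h6 : 4 / 3 * l * (y * (5 * (3 + y) ^ 2 + 27)) * (l + (y / 2 - y ^ 2 / 12))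
          ≤ 4 / 3 * (1733 / 2500) * (y * (5 * (3 + y) ^ 2 + 27)) * (1733 / 2500 + (y / 2 - y ^ 2 / 12)) := by
        have hlu : l ≤ 1733 / 2500 := by linarith
        gcongr
      refine h6.trans ?_
      have h7 : 0 ≤ (6 - y) * (5 * (3 + y) ^ 3) - 16 * (1733 / 2500) * (5 * (3 + y) ^ 2 + 27) *
          (1733 / 2500 + (y / 2 - y ^ 2 / 12)) := by
        nlinarith [mul_nonneg hy0.le (sub_nonneg.mpr hy1), mul_nonneg (mul_nonneg hy0.le hy0.le) (sub_nonneg.mpr hy1),
          mul_nonneg (mul_nonneg (mul_nonneg hy0.le hy0.le) hy0.le) (sub_nonneg.mpr hy1)]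
      have h8 := mul_nonneg hy0.le h7
      linarith
    set g := y / 2 - y ^ 2 / 12 with hg
    set R := y * (5 * (3 + y) ^ 2 + 27) / (5 * (3 + y) ^ 3) with hR
    have hg0 : 0 ≤ g := by rw [hg]; nlinarith
    have hlg : 0 < l + g := by linarith
    have h9 : 0 ≤ 1 - 4 / 3 * l * R := by
      by_contra hcon
      push Not at hcon
      have : 1 * (l + g) < 4 / 3 * l * R * (l + g) := by
        apply mul_lt_mul_of_pos_right _ hlg
        linarith
      linarith
    have h10 : 1 - 4 / 3 * l * R ≤ 1 - 4 / 3 * l * (1 - B) := by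
      have : 4 / 3 * l * (1 - B) ≤ 4 / 3 * l * R := by
        apply mul_le_mul_of_nonneg_left h4
        linarith
      linarith
    calc l ≤ (1 - 4 / 3 * l * R) * (l + g) := by nlinarith
      _ ≤ (1 - 4 / 3 * l * R) * log (2 * cosh x) := mul_le_mul_of_nonneg_left hL h9
      _ ≤ _ := by
        have := mul_le_mul_of_nonneg_right h10 hLpos.le
        linarith
  · -- large x
    have hT : 30 / 37 ≤ tanh x := by
      have h1 := tanh_lower (x := 6 / 5) (by norm_num)
      have h2 : tanh (6 / 5) ≤ tanh x := tanh_mono hx1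
      norm_num at h1
      linarith
    have h1 := hf _ hT (by norm_num)
    have hB : 704 / 1000 / x ≤ tanh x * (1 - tanh x ^ 2 / 5) / x := by
      apply div_le_div_of_nonneg_right _ hx.le
      refine le_trans ?_ h1
      norm_num
    set B := tanh x * (1 - tanh x ^ 2 / 5) / x
    have hLx := le_log_two_cosh x
    have h2 : 0 ≤ 1 - 4 / 3 * l * (1 - 704 / 1000 / x) := by
      have : 0 ≤ 704 / 1000 / x := by positivity
      nlinarith
    have h3 : 1 - 4 / 3 * l * (1 - 704 / 1000 / x) ≤ 1 - 4 / 3 * l * (1 - B) := by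
      have : 4 / 3 * l * (1 - B) ≤ 4 / 3 * l * (1 - 704 / 1000 / x) := by
        apply mul_le_mul_of_nonneg_left (by linarith)
        linarith
      linarith
    calc l ≤ (1 - 4 / 3 * l * (1 - 704 / 1000 / x)) * x := by
            have e : (1 - 4 / 3 * l * (1 - 704 / 1000 / x)) * x
                = x * (1 - 4 / 3 * l) + 4 / 3 * l * (704 / 1000) := by
              field_simp
              ring
            rw [e]
            nlinarith
      _ ≤ (1 - 4 / 3 * l * (1 - 704 / 1000 / x)) * log (2 * cosh x) :=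
          mul_le_mul_of_nonneg_left hLx h2
      _ ≤ _ := by
        have := mul_le_mul_of_nonneg_right h3 hLpos.le
        linarith

/-- `κ - η = 1 - HS/L` -/
theorem kap_sub_eta {x : ℝ} (hx : 0 < x) :
    kap x - eta x = 1 - HH x * (sinh (2 * x) / (2 * x)) / log (2 * cosh x) := by
  have hLpos : 0 < log (2 * cosh x) := log_pos (by have := one_le_cosh x; linarith)
  have hc := cosh_pos x
  rw [kap, eta, if_neg hx.ne', HH, sinh_two_mul, tanh_eq_sinh_div_cosh]
  field_simp
  ring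

/-- (M2) from its ingredients -/
theorem of {x : ℝ} (hx : 0 < x) (hHS0 : 0 < HH x) (hHS : HH x * (sinh (2 * x) / (2 * x)) ≤ log 2)
    (hc0 : 0 ≤ cc x) (hc : cc x ≤ c0) :
    eta x + (HH x / log 2 - aa (tanh x)) * (cc x / HH x) ≤ kap x := by
  have hl : 0 < log 2 := log_pos (by norm_num)
  have hLpos : 0 < log (2 * cosh x) := log_pos (by have := one_le_cosh x; linarith)
  have hS : 0 < sinh (2 * x) / (2 * x) := by
    have : 0 < sinh (2 * x) := sinh_pos_iff.mpr (by linarith)
    positivity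
  set P := HH x * (sinh (2 * x) / (2 * x)) with hP
  have hPpos : 0 < P := mul_pos hHS0 hS
  have hT0 : 0 < tanh x := by
    rw [tanh_eq_sinh_div_cosh]
    exact div_pos (sinh_pos_iff.mpr hx) (cosh_pos x)
  have hT2 : tanh x < 1 := tanh_lt_one x
  set A := tanh x / x * (1 - tanh x ^ 2 / 5) with hA
  have hA0 : 0 ≤ A := by
    have : 0 ≤ 1 - tanh x ^ 2 / 5 := by nlinarith
    positivity
  have hA1 : A ≤ 1 := by
    have h1 : tanh x / x ≤ 1 := by
      rw [div_le_one hx]
      exact tanh_le_self hx.le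
    have h2 : 1 - tanh x ^ 2 / 5 ≤ 1 := by nlinarith
    have h3 : 0 ≤ 1 - tanh x ^ 2 / 5 := by nlinarith
    have h4 : 0 ≤ tanh x / x := by positivity
    calc A ≤ 1 * 1 := mul_le_mul h1 h2 h3 zero_le_one
      _ = 1 := one_mul 1
  have e1 : aa (tanh x) = A * HH x / P := by
    have hch : cosh x ^ 2 = sinh x ^ 2 + 1 := cosh_sq x
    have hch0 := cosh_pos x
    have hsh0 := sinh_pos_iff.mpr hx
    have h1 : 1 - tanh x ^ 2 = 1 / cosh x ^ 2 := by
      rw [tanh_eq_sinh_div_cosh]
      field_simp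
      linarith
    rw [aa, h1, hA, hP, sinh_two_mul]
    rw [tanh_eq_sinh_div_cosh]
    field_simp
  have e2 : (HH x / log 2 - aa (tanh x)) * (cc x / HH x) = cc x * (1 / log 2 - A / P) := by
    rw [e1]
    field_simp
  have h1 : A / log 2 ≤ A / P := div_le_div_of_nonneg_left hA0 hPpos hHS
  have h2 : cc x * (1 / log 2 - A / P) ≤ c0 * ((1 - A) / log 2) := by
    calc cc x * (1 / log 2 - A / P) ≤ cc x * ((1 - A) / log 2) := by
          apply mul_le_mul_of_nonneg_left _ hc0
          rw [sub_div]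
          linarith
      _ ≤ _ := by
          apply mul_le_mul_of_nonneg_right hc
          exact div_nonneg (by linarith) hl.le
  have h3 : c0 * ((1 - A) / log 2) = 4 / 3 * log 2 * (1 - A) := by
    rw [c0]
    field_simp
  have h4 := elem hx
  have h5 := kap_sub_eta hx
  have h6 : P / log (2 * cosh x) ≤ log 2 / log (2 * cosh x) :=
    div_le_div_of_nonneg_right hHS hLpos.le
  rw [← hA] at h4
  rw [← hP] at h5
  rw [e2]
  linarith

end M2Aux

/-- (M2) from `c ≤ c(0+)` (the theorem `cc_le` of part (C)). -/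
theorem M2_of {x : ℝ} (hx : 0 < x) (hc : cc x ≤ c0) :
    eta x + (HH x / log 2 - aa (tanh x)) * (cc x / HH x) ≤ kap x := by
  refine M2Aux.of hx (HH_pos x) (HS_le hx) ?_ hc
  have := etad_pos hx
  rw [cc]
  positivity

end Vale.Agent.P322
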