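import Vale.Agent.P322.HInv
import Vale.Agent.P322.Cdec
import Vale.Agent.P322.M2

/-!
# P322 (M): the window inequality
-/

open Real Set Filter Topology

namespace Vale.Agent.P322

namespace Maux

/-- `Θ(b) = η(H⁻¹(h/b))` -/
noncomputable def Th (h b : ℝ) : ℝ := eta (Hinv (h / b))

lemma log2_pos : 0 < log 2 := log_pos one_lt_two

lemma Th_of_le {h b : ℝ} (hb : 0 < b) (hbb : b ≤ h / log 2) : Th h b = 0 := by
  have : log 2 ≤ h / b := by
    rw [le_div_iff₀ hb]
    rw [le_div_iff₀ log2_pos] at hbb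
    linarith
  unfold Th
  rw [Hinv_of_ge this, eta_zero]

lemma arg_lt {h b : ℝ} (hh : 0 < h) (hbb : h / log 2 < b) : h / b < log 2 := by
  have hb : 0 < b := lt_trans (div_pos hh log2_pos) hbb
  rw [div_lt_iff₀ hb]
  rw [div_lt_iff₀ log2_pos] at hbb
  linarith

lemma hasDerivAt_Th {h b : ℝ} (hh : 0 < h) (hbb : h / log 2 < b) :
    HasDerivAt (Th h) (cc (Hinv (h / b)) / h) b := by
  have hb : 0 < b := lt_trans (div_pos hh log2_pos) hbb
  have hs0 : 0 < h / b := div_pos hh hb
  have hs1 : h / b < log 2 := arg_lt hh hbb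
  have hu : 0 < Hinv (h / b) := Hinv_pos hs0 hs1
  have e1 : HasDerivAt (fun b : ℝ => h / b) (-(h / b ^ 2)) b := by
    have := (hasDerivAt_inv hb.ne').const_mul h
    refine HasDerivAt.congr_deriv (f' := _) (this.congr_of_eventuallyEq ?_) ?_
    · exact Eventually.of_forall fun y => by simp [div_eq_mul_inv]
    · field_simp
  have e2 := HasDerivAt.comp b (hasDerivAt_Hinv hs0 hs1) e1
  have e3 := HasDerivAt.comp b (hasDerivAt_eta hu) e2
  refine HasDerivAt.congr_deriv (f' := _) e3 ?_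
  have hH : HH (Hinv (h / b)) = h / b := HH_Hinv hs0 hs1.le
  unfold cc
  rw [hH]
  simp only [Function.comp]
  field_simp

lemma continuousOn_Th {h : ℝ} (hh : 0 < h) : ContinuousOn (Th h) (Ici (h / log 2)) := by
  unfold Th
  refine continuous_eta.comp_continuousOn ?_
  refine continuousOn_Hinv.comp ?_ ?_
  · refine continuousOn_const.div continuousOn_id ?_
    intro x hx
    exact (lt_of_lt_of_le (div_pos hh log2_pos) hx).ne'
  · intro x hx
    exact div_pos hh (lt_of_lt_of_le (div_pos hh log2_pos) hx)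

lemma concaveOn_Th {h : ℝ} (hh : 0 < h) : ConcaveOn ℝ (Ici (h / log 2)) (Th h) := by
  apply AntitoneOn.concaveOn_of_deriv (convex_Ici _) (continuousOn_Th hh)
  · intro x hx
    rw [interior_Ici] at hx
    exact (hasDerivAt_Th hh hx).differentiableAt.differentiableWithinAt
  · intro x hx y hy hxy
    rw [interior_Ici] at hx hy
    rw [(hasDerivAt_Th hh hx).deriv, (hasDerivAt_Th hh hy).deriv]
    have hx0 : 0 < x := lt_trans (div_pos hh log2_pos) hx
    have hy0 : 0 < y := lt_trans (div_pos hh log2_pos) hy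
    have hux : 0 < Hinv (h / x) := Hinv_pos (div_pos hh hx0) (arg_lt hh hx)
    have huy : 0 < Hinv (h / y) := Hinv_pos (div_pos hh hy0) (arg_lt hh hy)
    have hle : Hinv (h / x) ≤ Hinv (h / y) :=
      Hinv_antitoneOn (div_pos hh hy0) (div_pos hh hx0)
        (div_le_div_of_nonneg_left hh.le hx0 hxy)
    exact div_le_div_of_nonneg_right (cc_antitoneOn hux huy hle) hh.le

lemma Th_mono {h : ℝ} (hh : 0 < h) {x y : ℝ} (hx : 0 < x) (hxy : x ≤ y) : Th h x ≤ Th h y := by
  have hy : 0 < y := lt_of_lt_of_le hx hxy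
  unfold Th
  apply eta_strictMonoOn.monotoneOn (Hinv_nonneg _) (Hinv_nonneg _)
  exact Hinv_antitoneOn (div_pos hh hy) (div_pos hh hx)
    (div_le_div_of_nonneg_left hh.le hx hxy)

/-- windows starting at `b0` are the worst -/
lemma window_le {h : ℝ} (hh : 0 < h) {b' W : ℝ} (hb' : 0 < b') (hW : 0 ≤ W) :
    Th h (b' + W) - Th h b' ≤ Th h (h / log 2 + W) := by
  set b0 := h / log 2 with hb0
  have hb0pos : 0 < b0 := div_pos hh log2_pos
  have h00 : Th h b0 = 0 := Th_of_le hb0pos le_rfl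
  rcases le_or_gt b' b0 with hle | hgt
  · rw [Th_of_le hb' hle, sub_zero]
    exact Th_mono hh (by linarith) (by linarith)
  · have hc := concaveOn_Th hh
    rcases eq_or_lt_of_le hW with h0 | hWp
    · rw [← h0]; simp [h00]
    have hden : 0 < b' + W - b0 := by linarith
    set θ := (b' - b0) / (b' + W - b0) with hθ
    have hθ0 : 0 ≤ θ := div_nonneg (by linarith) hden.le
    have hθ1 : 0 ≤ 1 - θ := by
      rw [hθ, sub_nonneg, div_le_one hden]; linarith
    have m0 : b0 ∈ Ici b0 := by simp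
    have m1 : b' + W ∈ Ici b0 := by simp only [mem_Ici]; linarith
    have c1 := hc.2 m0 m1 hθ1 hθ0 (by ring)
    have c2 := hc.2 m0 m1 hθ0 hθ1 (by ring)
    have e : θ * (b' + W - b0) = b' - b0 := by rw [hθ]; field_simp
    have e1 : (1 - θ) • b0 + θ • (b' + W) = b' := by
      simp only [smul_eq_mul]; linear_combination e
    have e2 : θ • b0 + (1 - θ) • (b' + W) = b0 + W := by
      simp only [smul_eq_mul]; linear_combination -e
    rw [e1] at c1
    rw [e2] at c2
    simp only [smul_eq_mul] at c1 c2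
    rw [h00] at c1 c2
    linarith

lemma tangent {h : ℝ} (hh : 0 < h) (h1 : h / log 2 < 1) {y : ℝ} (hy : h / log 2 ≤ y) :
    Th h y ≤ Th h 1 + cc (Hinv h) / h * (y - 1) := by
  have hc := concaveOn_Th hh
  have hd : HasDerivAt (Th h) (cc (Hinv h) / h) 1 := by
    have := hasDerivAt_Th hh h1
    rwa [div_one] at this
  rcases lt_trichotomy y 1 with hlt | heq | hgt
  · have := hc.le_slope_of_hasDerivAt hy h1.le hlt hd
    rw [slope_def_field, le_div_iff₀ (by linarith)] at this
    linarith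
  · subst heq; simp
  · have := hc.slope_le_of_hasDerivAt h1.le hy hgt hd
    rw [slope_def_field, div_le_iff₀ (by linarith)] at this
    linarith

lemma tanh_mono : StrictMono tanh := by
  apply strictMono_of_deriv_pos
  intro x
  rw [(HBasicAux.hasDerivAt_tanh' x).deriv]
  have := cosh_pos x
  positivity

/-- `δ ≤ tanh x` -/
lemma delta_le {m δ x : ℝ} (hδ : 0 < δ) (h1 : -1 < m - δ) (h2 : m + δ < 1)
    (hv : (ath (m + δ) - ath (m - δ)) / 2 ≤ x) : δ ≤ tanh x := by
  have hδ1 : δ < 1 := by linarith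
  have p1 : 0 < 1 + (m + δ) := by linarith
  have p2 : 0 < 1 - (m + δ) := by linarith
  have p3 : 0 < 1 + (m - δ) := by linarith
  have p4 : 0 < 1 - (m - δ) := by linarith
  have q1 : 0 < 1 + δ := by linarith
  have q2 : 0 < 1 - δ := by linarith
  have key : ath δ ≤ (ath (m + δ) - ath (m - δ)) / 2 := by
    unfold ath
    have e1 : log (1 + (m + δ)) - log (1 - (m + δ)) - (log (1 + (m - δ)) - log (1 - (m - δ)))
        = log (((1 + (m + δ)) * (1 - (m - δ))) / ((1 - (m + δ)) * (1 + (m - δ)))) := by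
      rw [log_div (mul_pos p1 p4).ne' (mul_pos p2 p3).ne', log_mul p1.ne' p4.ne',
        log_mul p2.ne' p3.ne']
      ring
    have e2 : 2 * (log (1 + δ) - log (1 - δ)) = log ((1 + δ) ^ 2 / (1 - δ) ^ 2) := by
      rw [log_div (by positivity) (by positivity), log_pow, log_pow]
      push_cast; ring
    have e3 : (1 + δ) ^ 2 / (1 - δ) ^ 2
        ≤ ((1 + (m + δ)) * (1 - (m - δ))) / ((1 - (m + δ)) * (1 + (m - δ))) := by
      rw [div_le_div_iff₀ (by positivity) (mul_pos p2 p3)]
      nlinarith [mul_nonneg hδ.le (sq_nonneg m)]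
    have e4 := log_le_log (by positivity) e3
    rw [← e1, ← e2] at e4
    linarith
  have hle : ath δ ≤ x := le_trans key hv
  have := tanh_mono.monotone hle
  rwa [tanh_ath ⟨by linarith, hδ1⟩] at this

end Maux

open Maux in
/-- (M) window -/
theorem window {m δ x : ℝ} (hδ : 0 < δ) (hx : 0 < x) (h1 : -1 < m - δ) (h2 : m + δ < 1)
    (hv : (ath (m + δ) - ath (m - δ)) / 2 ≤ x) :
    eta (Hinv (δ * theta x / aa m)) - eta (Hinv (δ * theta x / ((aa (m - δ) + aa (m + δ)) / 2)))
      ≤ kap x := by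
  have hT : 0 < tanh x := HBasicAux.tanh_pos' hx
  have hT1 : tanh x < 1 := tanh_lt_one x
  have hh : 0 < HH x := HH_pos x
  have hδT : δ ≤ tanh x := delta_le hδ h1 h2 hv
  have haa : ∀ y, -1 < y → y < 1 → 0 < aa y := by
    intro y hy1 hy2
    unfold aa
    have : 0 < 1 - y ^ 2 := by nlinarith
    have : 0 < 1 - y ^ 2 / 5 := by nlinarith
    positivity
  have ham : 0 < aa m := haa m (by linarith) (by linarith)
  have ham' : 0 < (aa (m - δ) + aa (m + δ)) / 2 := by
    have := haa (m - δ) h1 (by linarith)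
    have := haa (m + δ) (by linarith) h2
    positivity
  set a' := (aa (m - δ) + aa (m + δ)) / 2 with ha'
  set b := aa m * tanh x / δ with hb
  set b' := a' * tanh x / δ with hb'
  have hbpos : 0 < b := by positivity
  have hb'pos : 0 < b' := by positivity
  have e1 : δ * theta x / aa m = HH x / b := by
    rw [hb]; unfold theta; field_simp
  have e2 : δ * theta x / a' = HH x / b' := by
    rw [hb']; unfold theta; field_simp
  rw [e1, e2]
  set W := δ * tanh x * (6 / 5 - 6 / 5 * m ^ 2 - δ ^ 2 / 5) with hW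
  have eW : b = b' + W := by
    rw [hb, hb', ha', hW]; unfold aa; field_simp; ring
  have hδ1 : δ < 1 := by linarith
  have hm2 : m ^ 2 ≤ (1 - δ) ^ 2 := by
    apply sq_le_sq'
    · linarith
    · linarith
  have hW0 : 0 ≤ W := by
    have : 0 ≤ 6 / 5 - 6 / 5 * m ^ 2 - δ ^ 2 / 5 := by nlinarith
    positivity
  have hWle : W ≤ 1 - aa (tanh x) := by
    have k1 : δ * (6 / 5 - 6 / 5 * m ^ 2 - δ ^ 2 / 5) ≤ tanh x * (6 / 5 - (tanh x) ^ 2 / 5) := by
      have k2 : δ * (6 / 5 - 6 / 5 * m ^ 2 - δ ^ 2 / 5) ≤ δ * (6 / 5 - δ ^ 2 / 5) := by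
        apply mul_le_mul_of_nonneg_left _ hδ.le
        nlinarith [sq_nonneg m]
      have k3 : δ * (6 / 5 - δ ^ 2 / 5) ≤ tanh x * (6 / 5 - (tanh x) ^ 2 / 5) := by
        have : tanh x * (6 / 5 - (tanh x) ^ 2 / 5) - δ * (6 / 5 - δ ^ 2 / 5)
            = (tanh x - δ) * (6 / 5 - ((tanh x) ^ 2 + tanh x * δ + δ ^ 2) / 5) := by ring
        have h3 : 0 ≤ (tanh x - δ) * (6 / 5 - ((tanh x) ^ 2 + tanh x * δ + δ ^ 2) / 5) := by
          apply mul_nonneg (by linarith)
          nlinarith
        linarith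
      linarith
    have : W = tanh x * (δ * (6 / 5 - 6 / 5 * m ^ 2 - δ ^ 2 / 5)) := by rw [hW]; ring
    rw [this]
    have k4 := mul_le_mul_of_nonneg_left k1 hT.le
    have : 1 - aa (tanh x) = tanh x * (tanh x * (6 / 5 - (tanh x) ^ 2 / 5)) := by
      unfold aa; ring
    rw [this]
    exact k4
  have hb01 : HH x / log 2 < 1 := by
    rw [div_lt_one log2_pos, ← HH_zero]
    exact HH_strictAntiOn (by simp) hx.le hx
  have hb0 : 0 < HH x / log 2 := div_pos hh log2_pos
  have w1 := window_le hh hb'pos hW0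
  rw [← eW] at w1
  have w2 : Th (HH x) (HH x / log 2 + W) ≤ Th (HH x) (HH x / log 2 + (1 - aa (tanh x))) :=
    Th_mono hh (by linarith) (by linarith)
  have w3 := tangent hh hb01 (y := HH x / log 2 + (1 - aa (tanh x))) (by linarith)
  have w4 : Th (HH x) 1 = eta x := by
    unfold Th; rw [div_one, Hinv_HH hx.le]
  rw [w4, Hinv_HH hx.le] at w3
  have w5 := M2_of hx (cc_le hx)
  have w6 : cc x / HH x * (HH x / log 2 + (1 - aa (tanh x)) - 1)
      = (HH x / log 2 - aa (tanh x)) * (cc x / HH x) := by ring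
  rw [w6] at w3
  have : eta (Hinv (HH x / b)) - eta (Hinv (HH x / b')) = Th (HH x) b - Th (HH x) b' := rfl
  rw [this]
  linarith

end Vale.Agent.P322
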