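import Vale.Agent.P322.HInv
import Vale.Agent.P322.JB
import Vale.Agent.P322.JConv
import Vale.Agent.P322.ExpPoly

/-!
# P322 (TF): the deterministic inequality behind the second two-half inequality
-/

open Real Set Filter Topology

namespace Vale.Agent.P322

namespace TFAux

open HBasicAux

/-- `x(u) = Φ(tanh u)` -/
noncomputable def xx (u : ℝ) : ℝ := Phi (tanh u)

/-- `W(u) = (η(u)+2) x(u) - u tanh u`; one has `W' = η' x` -/
noncomputable def WW (u : ℝ) : ℝ := (eta u + 2) * xx u - u * tanh u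

lemma xx_eq (u : ℝ) : xx u = log 2 - HH u := by
  unfold xx HH
  rw [Phi_tanh, Real.log_mul (by norm_num) (cosh_ne u)]
  ring

lemma hasDerivAt_xx (u : ℝ) : HasDerivAt xx (u / cosh u ^ 2) u := by
  have h := (hasDerivAt_HH u).const_sub (log 2)
  have e : xx = fun u => log 2 - HH u := funext xx_eq
  rw [e]
  simpa using h

lemma continuous_xx : Continuous xx :=
  continuous_iff_continuousAt.2 fun u => (hasDerivAt_xx u).continuousAt

lemma xx_zero : xx 0 = 0 := by rw [xx_eq, HH_zero]; ring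

lemma xx_mono {u v : ℝ} (hu : 0 ≤ u) (huv : u ≤ v) : xx u ≤ xx v := by
  rw [xx_eq, xx_eq]
  have := HH_strictAntiOn.antitoneOn (mem_Ici.2 hu) (mem_Ici.2 (hu.trans huv)) huv
  linarith

lemma continuous_tanh' : Continuous tanh :=
  continuous_iff_continuousAt.2 fun u => (hasDerivAt_tanh' u).continuousAt

lemma continuous_WW : Continuous WW :=
  ((continuous_eta.add continuous_const).mul continuous_xx).sub
    (continuous_id.mul continuous_tanh')

lemma WW_zero : WW 0 = 0 := by unfold WW; rw [xx_zero]; simp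

lemma hasDerivAt_WW {u : ℝ} (hu : 0 < u) : HasDerivAt WW (etad u * xx u) u := by
  have h1 := ((hasDerivAt_eta hu).add_const 2).mul (hasDerivAt_xx u)
  have h2 := hasDerivAt_mul_tanh u
  have h := h1.sub h2
  refine HasDerivAt.congr_deriv (f' := _) h ?_
  have e1 : eta u = sinh (2 * u) / (2 * u) - 1 := eta_of_ne hu.ne'
  have hc := cosh_ne u
  rw [e1, Real.sinh_two_mul, tanh_eq_sinh_div_cosh]
  field_simp
  ring

/-- `(η(u)+2) x(v) - W(u) ≤ v tanh v` -/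
lemma env {u v : ℝ} (hu : 0 ≤ u) (hv : 0 ≤ v) : (eta u + 2) * xx v - WW u ≤ v * tanh v := by
  have hd : ∀ x, 0 < x → HasDerivAt (fun x => (eta x + 2) * xx v - WW x)
      (etad x * (xx v - xx x)) x := by
    intro x hx
    have h1 := (((hasDerivAt_eta hx).add_const 2).mul_const (xx v)).sub (hasDerivAt_WW hx)
    refine HasDerivAt.congr_deriv (f' := _) h1 ?_
    ring
  have hc : Continuous (fun x => (eta x + 2) * xx v - WW x) :=
    ((continuous_eta.add continuous_const).mul continuous_const).sub continuous_WW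
  have hv' : (eta v + 2) * xx v - WW v = v * tanh v := by unfold WW; ring
  rw [← hv']
  rcases le_total u v with h | h
  · have hm : MonotoneOn (fun x => (eta x + 2) * xx v - WW x) (Icc 0 v) := by
      apply monotoneOn_of_deriv_nonneg (convex_Icc 0 v) hc.continuousOn
      · intro x hx
        rw [interior_Icc] at hx
        exact (hd x hx.1).differentiableAt.differentiableWithinAt
      · intro x hx
        rw [interior_Icc] at hx
        rw [(hd x hx.1).deriv]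
        exact mul_nonneg (etad_pos hx.1).le (sub_nonneg.2 (xx_mono hx.1.le hx.2.le))
    exact hm ⟨hu, h⟩ ⟨hv, le_rfl⟩ h
  · have hm : AntitoneOn (fun x => (eta x + 2) * xx v - WW x) (Ici v) := by
      apply antitoneOn_of_deriv_nonpos (convex_Ici v) hc.continuousOn
      · intro x hx
        rw [interior_Ici] at hx
        exact (hd x (hv.trans_lt hx)).differentiableAt.differentiableWithinAt
      · intro x hx
        rw [interior_Ici] at hx
        rw [(hd x (hv.trans_lt hx)).deriv]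
        exact mul_nonpos_of_nonneg_of_nonpos (etad_pos (hv.trans_lt hx)).le
          (sub_nonpos.2 (xx_mono hv (le_of_lt hx)))
    exact hm (mem_Ici.2 le_rfl) (mem_Ici.2 h) h

lemma WW_nonneg {u : ℝ} (hu : 0 ≤ u) : 0 ≤ WW u := by
  have h := env hu le_rfl
  rw [xx_zero] at h
  linarith

/-! ### Elementary bounds on `[0, 2/3]` -/

lemma cosh_le_nine {z : ℝ} (h0 : 0 ≤ z) (h1 : z ≤ 2 / 3) : cosh z ≤ 9 / 7 := by
  have h := CS.nonneg_of_check 2 [⟨0, [2], []⟩, ⟨1, [-2, 0, 1], []⟩] (by decide) h0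
  simp only [CS.val, CS.Blk.val, CS.pv, Nat.cast_zero, Nat.cast_one, one_mul, zero_mul,
    cosh_zero, sinh_zero] at h
  push_cast at h
  have h2 : z ^ 2 ≤ 4 / 9 := by nlinarith
  have h3 := cosh_pos z
  nlinarith

lemma cosh_le {z : ℝ} (h0 : 0 ≤ z) (h1 : z ≤ 2 / 3) :
    cosh z ≤ 1 + z ^ 2 / 2 + z ^ 4 / 24 + z ^ 6 / 300 := by
  have h := CS.nonneg_of_check 6 [⟨0, [720, 0, 360, 0, 30], []⟩, ⟨1, [-720, 0, 0, 0, 0, 0, 1], []⟩]
    (by decide) h0
  simp only [CS.val, CS.Blk.val, CS.pv, Nat.cast_zero, Nat.cast_one, one_mul, zero_mul,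
    cosh_zero, sinh_zero] at h
  push_cast at h
  have h3 := cosh_le_nine h0 h1
  have h4 : 0 ≤ z ^ 6 := by positivity
  nlinarith [mul_le_mul_of_nonneg_left h3 h4]

lemma zC_sub_S_le {z : ℝ} (h0 : 0 ≤ z) (h1 : z ≤ 2 / 3) :
    z * cosh z - sinh z ≤ z ^ 3 / 3 + z ^ 5 / 30 + z ^ 7 / 400 := by
  have h := CS.nonneg_of_check 8 [⟨0, [0, 0, 0, 280, 0, 28], []⟩,
    ⟨1, [0, -840, 0, 0, 0, 0, 0, 1], [840]⟩] (by decide) h0
  simp only [CS.val, CS.Blk.val, CS.pv, Nat.cast_zero, Nat.cast_one, one_mul, zero_mul,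
    cosh_zero, sinh_zero] at h
  push_cast at h
  have h3 := cosh_le_nine h0 h1
  have h4 : 0 ≤ z ^ 7 := by positivity
  nlinarith [mul_le_mul_of_nonneg_left h3 h4]

lemma le_sinh' {z : ℝ} (h0 : 0 ≤ z) : z + z ^ 3 / 6 + z ^ 5 / 120 ≤ sinh z := by
  have h := CS.nonneg_of_check 6 [⟨0, [0, -120, 0, -20, 0, -1], []⟩, ⟨1, [], [120]⟩]
    (by decide) h0
  simp only [CS.val, CS.Blk.val, CS.pv, Nat.cast_zero, Nat.cast_one, one_mul, zero_mul,
    cosh_zero, sinh_zero] at h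
  push_cast at h
  nlinarith

lemma sinh_le' {z : ℝ} (h0 : 0 ≤ z) (h1 : z ≤ 2 / 3) :
    sinh z ≤ z + z ^ 3 / 6 + z ^ 5 / 120 + z ^ 7 / 3920 := by
  have h := CS.nonneg_of_check 8 [⟨0, [0, 5040, 0, 840, 0, 42], []⟩,
    ⟨1, [0, 0, 0, 0, 0, 0, 0, 1], [-5040]⟩] (by decide) h0
  simp only [CS.val, CS.Blk.val, CS.pv, Nat.cast_zero, Nat.cast_one, one_mul, zero_mul,
    cosh_zero, sinh_zero] at h
  push_cast at h
  have h3 := cosh_le_nine h0 h1
  have h4 : 0 ≤ z ^ 7 := by positivity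
  nlinarith [mul_le_mul_of_nonneg_left h3 h4]

lemma eta_third_le : eta (1 / 3) ≤ 303 / 4000 := by
  rw [eta_of_ne (by norm_num)]
  have h := sinh_le' (z := 2 / 3) (by norm_num) le_rfl
  norm_num at h ⊢
  rw [div_le_iff₀ (by norm_num)]
  linarith

lemma F1_key {z : ℝ} (h0 : 0 ≤ z) (h1 : z ≤ 2 / 3) :
    (1 + cosh z) * (z * cosh z - sinh z) * (93 * z - 63 * sinh z) ≤ 20 * z ^ 4 := by
  have hC := cosh_le h0 h1
  have hA := zC_sub_S_le h0 h1
  have hS := le_sinh' h0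
  have hA0 : 0 ≤ z * cosh z - sinh z := by
    rcases h0.eq_or_lt with h | h
    · rw [← h]; simp
    · linarith [sinh_lt_mul_cosh h]
  have hC0 := cosh_pos z
  have hw : z ^ 2 ≤ 4 / 9 := by nlinarith
  have hw0 : 0 ≤ z ^ 2 := by positivity
  have hS' : 93 * z - 63 * sinh z ≤ z * (30 - 21 / 2 * z ^ 2 - 21 / 40 * z ^ 4) := by nlinarith
  have hp : 0 ≤ z * (30 - 21 / 2 * z ^ 2 - 21 / 40 * z ^ 4) := by
    apply mul_nonneg h0
    nlinarith
  have hcz : 0 ≤ 1 + z ^ 2 / 2 + z ^ 4 / 24 + z ^ 6 / 300 := by positivity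
  have hA1 : 0 ≤ z ^ 3 / 3 + z ^ 5 / 30 + z ^ 7 / 400 := by positivity
  calc (1 + cosh z) * (z * cosh z - sinh z) * (93 * z - 63 * sinh z)
      ≤ (1 + cosh z) * (z * cosh z - sinh z) *
        (z * (30 - 21 / 2 * z ^ 2 - 21 / 40 * z ^ 4)) :=
        mul_le_mul_of_nonneg_left hS' (by positivity)
    _ ≤ (1 + (1 + z ^ 2 / 2 + z ^ 4 / 24 + z ^ 6 / 300)) *
        (z ^ 3 / 3 + z ^ 5 / 30 + z ^ 7 / 400) *
        (z * (30 - 21 / 2 * z ^ 2 - 21 / 40 * z ^ 4)) := by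
        apply mul_le_mul_of_nonneg_right _ hp
        exact mul_le_mul (by linarith) hA hA0 (by linarith)
    _ ≤ 20 * z ^ 4 := by
        have e : 20 * z ^ 4 - (1 + (1 + z ^ 2 / 2 + z ^ 4 / 24 + z ^ 6 / 300)) *
          (z ^ 3 / 3 + z ^ 5 / 30 + z ^ 7 / 400) *
          (z * (30 - 21 / 2 * z ^ 2 - 21 / 40 * z ^ 4)) =
          z ^ 4 * (z ^ 4 * (26 / 15 + 23 / 60 * z ^ 2 + 619 / 12000 * z ^ 4
            + 191 / 48000 * z ^ 6 + 77 / 384000 * z ^ 8 + 7 / 1600000 * z ^ 10)) := by ring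
        have : 0 ≤ z ^ 4 * (z ^ 4 * (26 / 15 + 23 / 60 * z ^ 2 + 619 / 12000 * z ^ 4
            + 191 / 48000 * z ^ 6 + 77 / 384000 * z ^ 8 + 7 / 1600000 * z ^ 10)) := by
          positivity
        linarith

/-- `x'(u) ≥ (3/4 - (63/40) η(u)) η'(u)` on `(0, 1/3]` -/
lemma F1_deriv {u : ℝ} (h0 : 0 < u) (h1 : u ≤ 1 / 3) :
    (3 / 4 - 63 / 40 * eta u) * etad u ≤ u / cosh u ^ 2 := by
  have h := F1_key (z := 2 * u) (by linarith) (by linarith)
  have e1 : cosh u ^ 2 = (1 + cosh (2 * u)) / 2 := by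
    rw [CS.cosh_two]; ring
  have hc : 0 < 1 + cosh (2 * u) := by have := cosh_pos (2 * u); linarith
  rw [e1, eta_of_ne h0.ne', etad]
  have hu : u ≠ 0 := h0.ne'
  have hc' := hc.ne'
  have hc'' : cosh (2 * u) + 1 ≠ 0 := by rw [add_comm]; exact hc'
  rw [← sub_nonneg]
  have e : u / ((1 + cosh (2 * u)) / 2) - (3 / 4 - 63 / 40 * (sinh (2 * u) / (2 * u) - 1)) *
      ((2 * u * cosh (2 * u) - sinh (2 * u)) / (2 * u ^ 2)) =
      (20 * (2 * u) ^ 4 - (1 + cosh (2 * u)) * (2 * u * cosh (2 * u) - sinh (2 * u)) *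
        (93 * (2 * u) - 63 * sinh (2 * u))) / (160 * u ^ 3 * (1 + cosh (2 * u))) := by
    field_simp
    ring
  rw [e]
  apply div_nonneg (by linarith) (by positivity)

/-- `x(u) ≥ (3/4) η - (63/80) η²` on `[0, 1/3]` -/
lemma F1 {u : ℝ} (h0 : 0 ≤ u) (h1 : u ≤ 1 / 3) :
    3 / 4 * eta u - 63 / 80 * eta u ^ 2 ≤ xx u := by
  have hd : ∀ x, 0 < x → HasDerivAt (fun x => xx x - (3 / 4 * eta x - 63 / 80 * eta x ^ 2))
      (x / cosh x ^ 2 - (3 / 4 - 63 / 40 * eta x) * etad x) x := by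
    intro x hx
    have h2 := (hasDerivAt_xx x).sub (((hasDerivAt_eta hx).const_mul (3 / 4)).sub
      (((hasDerivAt_eta hx).pow 2).const_mul (63 / 80)))
    refine HasDerivAt.congr_deriv (f' := _) h2 ?_
    push_cast
    ring
  have hm : MonotoneOn (fun x => xx x - (3 / 4 * eta x - 63 / 80 * eta x ^ 2))
      (Icc 0 (1 / 3)) := by
    apply monotoneOn_of_deriv_nonneg (convex_Icc _ _)
    · exact (continuous_xx.sub ((continuous_const.mul continuous_eta).sub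
        (continuous_const.mul (continuous_eta.pow 2)))).continuousOn
    · intro x hx
      rw [interior_Icc] at hx
      exact (hd x hx.1).differentiableAt.differentiableWithinAt
    · intro x hx
      rw [interior_Icc] at hx
      rw [(hd x hx.1).deriv]
      linarith [F1_deriv hx.1 hx.2.le]
  have h := hm ⟨le_rfl, by norm_num⟩ ⟨h0, h1⟩ h0
  simp only [xx_zero, eta_zero] at h
  linarith

/-- lower bound for the increments of `W` -/
lemma WW_diff {u w : ℝ} (hw : 0 ≤ w) (hwu : w ≤ u) (h1 : u ≤ 1 / 3) :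
    (3 / 8 * eta u ^ 2 - 21 / 80 * eta u ^ 3) - (3 / 8 * eta w ^ 2 - 21 / 80 * eta w ^ 3)
      ≤ WW u - WW w := by
  have hd : ∀ x, 0 < x → HasDerivAt (fun x => WW x - (3 / 8 * eta x ^ 2 - 21 / 80 * eta x ^ 3))
      (etad x * (xx x - (3 / 4 * eta x - 63 / 80 * eta x ^ 2))) x := by
    intro x hx
    have h2 := (hasDerivAt_WW hx).sub ((((hasDerivAt_eta hx).pow 2).const_mul (3 / 8)).sub
      (((hasDerivAt_eta hx).pow 3).const_mul (21 / 80)))
    refine HasDerivAt.congr_deriv (f' := _) h2 ?_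
    push_cast
    ring
  have hm : MonotoneOn (fun x => WW x - (3 / 8 * eta x ^ 2 - 21 / 80 * eta x ^ 3))
      (Icc 0 (1 / 3)) := by
    apply monotoneOn_of_deriv_nonneg (convex_Icc _ _)
    · exact (continuous_WW.sub ((continuous_const.mul (continuous_eta.pow 2)).sub
        (continuous_const.mul (continuous_eta.pow 3)))).continuousOn
    · intro x hx
      rw [interior_Icc] at hx
      exact (hd x hx.1).differentiableAt.differentiableWithinAt
    · intro x hx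
      rw [interior_Icc] at hx
      rw [(hd x hx.1).deriv]
      exact mul_nonneg (etad_pos hx.1).le (by linarith [F1 hx.1.le hx.2.le])
  have h := hm ⟨hw, hwu.trans h1⟩ ⟨hw.trans hwu, h1⟩ hwu
  simp only at h
  linarith

/-! ### The entropy bound in `D` -/

lemma hasDerivAt_pol (a b c x : ℝ) : HasDerivAt (fun x : ℝ => a * x ^ 2 + b * x ^ 4 + c * x ^ 6)
    (2 * a * x + 4 * b * x ^ 3 + 6 * c * x ^ 5) x := by
  have h := (((hasDerivAt_pow 2 x).const_mul a).add ((hasDerivAt_pow 4 x).const_mul b)).add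
    ((hasDerivAt_pow 6 x).const_mul c)
  refine HasDerivAt.congr_deriv (f' := _) h ?_
  push_cast
  ring

lemma hasDerivAt_pol' (a b c x : ℝ) : HasDerivAt (fun x : ℝ => a * x + b * x ^ 3 + c * x ^ 5)
    (a + 3 * b * x ^ 2 + 5 * c * x ^ 4) x := by
  have h := (((hasDerivAt_id x).const_mul a).add ((hasDerivAt_pow 3 x).const_mul b)).add
    ((hasDerivAt_pow 5 x).const_mul c)
  refine HasDerivAt.congr_deriv (f' := _) h ?_
  push_cast
  ring

/-- `Θ(e,s)` -/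
noncomputable def Th (e s : ℝ) : ℝ := e / 2 - (1 / 6 - e / 12) * s - (2 / 15 - e / 30) * s ^ 2

lemma ath_zero : ath 0 = 0 := by simp [ath]
lemma Phi_zero : Phi 0 = 0 := by simp [Phi]

lemma mem_of {x : ℝ} (h0 : 0 ≤ x) (h1 : x < 1) : x ∈ Ioo (-1 : ℝ) 1 := ⟨by linarith, h1⟩

lemma hlem {e D : ℝ} (he1 : e ≤ 1) (hD0 : 0 ≤ D) (hD1 : D < 1) :
    (2 + e) * Phi D - D * ath D ≤ D ^ 2 * Th e (D ^ 2) := by
  -- first derivative
  have hd1 : ∀ x ∈ Ico (0 : ℝ) 1, HasDerivAt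
      (fun x => (e * x + (-(2 / 3 - e / 3)) * x ^ 3 + (-(4 / 5 - e / 5)) * x ^ 5)
        - (1 + e) * ath x + x / (1 - x ^ 2))
      ((e + 3 * (-(2 / 3 - e / 3)) * x ^ 2 + 5 * (-(4 / 5 - e / 5)) * x ^ 4)
        - (1 + e) * (1 / (1 - x ^ 2)) + (1 + x ^ 2) / (1 - x ^ 2) ^ 2) x := by
    intro x hx
    have hm := mem_of hx.1 hx.2
    have hp : (1 : ℝ) - x ^ 2 ≠ 0 := (JBaux.one_sub_sq_pos hm).ne'
    have h1 := hasDerivAt_pol' e (-(2 / 3 - e / 3)) (-(4 / 5 - e / 5)) x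
    have h2 := (JBaux.hasDerivAt_ath hm).const_mul (1 + e)
    have h3 : HasDerivAt (fun x : ℝ => x / (1 - x ^ 2)) ((1 + x ^ 2) / (1 - x ^ 2) ^ 2) x := by
      have h := (hasDerivAt_id x).div ((hasDerivAt_pow 2 x).const_sub 1) hp
      refine HasDerivAt.congr_deriv (f' := _) h ?_
      simp only [id]
      push_cast
      congr 1
      ring
    exact (h1.sub h2).add h3
  have hmono1 : MonotoneOn
      (fun x => (e * x + (-(2 / 3 - e / 3)) * x ^ 3 + (-(4 / 5 - e / 5)) * x ^ 5)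
        - (1 + e) * ath x + x / (1 - x ^ 2)) (Ico (0 : ℝ) 1) := by
    apply monotoneOn_of_deriv_nonneg (convex_Ico _ _)
    · exact fun x hx => (hd1 x hx).continuousAt.continuousWithinAt
    · intro x hx
      rw [interior_Ico] at hx
      exact (hd1 x ⟨hx.1.le, hx.2⟩).differentiableAt.differentiableWithinAt
    · intro x hx
      rw [interior_Ico] at hx
      rw [(hd1 x ⟨hx.1.le, hx.2⟩).deriv]
      have hp : (0 : ℝ) < 1 - x ^ 2 := JBaux.one_sub_sq_pos (mem_of hx.1.le hx.2)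
      have e1 : (e + 3 * (-(2 / 3 - e / 3)) * x ^ 2 + 5 * (-(4 / 5 - e / 5)) * x ^ 4)
        - (1 + e) * (1 / (1 - x ^ 2)) + (1 + x ^ 2) / (1 - x ^ 2) ^ 2 =
        x ^ 6 * (6 - e - (4 - e) * x ^ 2) / (1 - x ^ 2) ^ 2 := by
        have hp' := hp.ne'
        field_simp
        ring
      rw [e1]
      apply div_nonneg _ (by positivity)
      apply mul_nonneg (by positivity)
      have : x ^ 2 ≤ 1 := by linarith
      nlinarith [mul_nonneg (sub_nonneg.2 this) (by linarith : (0:ℝ) ≤ 4 - e)]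
  have hd0 : ∀ x ∈ Ico (0 : ℝ) 1, HasDerivAt
      (fun x => (e / 2 * x ^ 2 + (-(1 / 6 - e / 12)) * x ^ 4 + (-(2 / 15 - e / 30)) * x ^ 6)
        - ((2 + e) * Phi x - x * ath x))
      ((e * x + (-(2 / 3 - e / 3)) * x ^ 3 + (-(4 / 5 - e / 5)) * x ^ 5)
        - (1 + e) * ath x + x / (1 - x ^ 2)) x := by
    intro x hx
    have hm := mem_of hx.1 hx.2
    have hp : (1 : ℝ) - x ^ 2 ≠ 0 := (JBaux.one_sub_sq_pos hm).ne'
    have h1 := hasDerivAt_pol (e / 2) (-(1 / 6 - e / 12)) (-(2 / 15 - e / 30)) x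
    have h2 := ((JBaux.hasDerivAt_Phi hm).const_mul (2 + e)).sub
      ((hasDerivAt_id x).mul (JBaux.hasDerivAt_ath hm))
    refine HasDerivAt.congr_deriv (f' := _) (h1.sub h2) ?_
    simp only [id]
    field_simp
    ring
  have hmono0 : MonotoneOn
      (fun x => (e / 2 * x ^ 2 + (-(1 / 6 - e / 12)) * x ^ 4 + (-(2 / 15 - e / 30)) * x ^ 6)
        - ((2 + e) * Phi x - x * ath x)) (Ico (0 : ℝ) 1) := by
    apply monotoneOn_of_deriv_nonneg (convex_Ico _ _)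
    · exact fun x hx => (hd0 x hx).continuousAt.continuousWithinAt
    · intro x hx
      rw [interior_Ico] at hx
      exact (hd0 x ⟨hx.1.le, hx.2⟩).differentiableAt.differentiableWithinAt
    · intro x hx
      rw [interior_Ico] at hx
      rw [(hd0 x ⟨hx.1.le, hx.2⟩).deriv]
      have h := hmono1 (a := 0) (b := x) ⟨le_rfl, by norm_num⟩ ⟨hx.1.le, hx.2⟩ hx.1.le
      simp only [ath_zero] at h
      norm_num at h
      linarith
  have h := hmono0 (a := 0) (b := D) ⟨le_rfl, by norm_num⟩ ⟨hD0, hD1⟩ hD0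
  simp only [Phi_zero] at h
  norm_num at h
  unfold Th
  linarith

/-! ### Bernstein certificates -/

lemma P1_nonneg {D : ℝ} (h0 : 0 ≤ D) (h1 : D ≤ 3 / 4) :
    0 ≤ 5229 / 100000 * (1 - 7 / 5 * D) - 3415 / 10000 * D ^ 2 * (1 - 7 / 5 * D) ^ 3
      - 37875 / 1000000 + 16035 / 100000 * D ^ 2 + 1308 / 10000 * D ^ 4 := by
  rcases le_total D (3 / 16) with hc0 | hc0
  · have ht : 0 ≤ D - 0 := by linarith
    have hw : 0 ≤ 3 / 16 - D := by linarith
    have key : 5229 / 100000 * (1 - 7 / 5 * D) - 3415 / 10000 * D ^ 2 * (1 - 7 / 5 * D) ^ 3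
      - 37875 / 1000000 + 16035 / 100000 * D ^ 2 + 1308 / 10000 * D ^ 4 =
        15745024 / 253125 * ((D - 0) ^ 0 * (3 / 16 - D) ^ 5)
        + 318662656 / 1265625 * ((D - 0) ^ 1 * (3 / 16 - D) ^ 4)
        + 452618624 / 1265625 * ((D - 0) ^ 2 * (3 / 16 - D) ^ 3)
        + 284765936 / 1265625 * ((D - 0) ^ 3 * (3 / 16 - D) ^ 2)
        + 80029789 / 1265625 * ((D - 0) ^ 4 * (3 / 16 - D) ^ 1)
        + 29218969 / 4050000 * ((D - 0) ^ 5 * (3 / 16 - D) ^ 0) := by ring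
    rw [key]
    revert ht hw
    generalize D - 0 = t
    generalize 3 / 16 - D = w
    intro ht hw
    positivity
  · rcases le_total D (3 / 8) with hc1 | hc1
    · have ht : 0 ≤ D - 3 / 16 := by linarith
      have hw : 0 ≤ 3 / 8 - D := by linarith
      have key : 5229 / 100000 * (1 - 7 / 5 * D) - 3415 / 10000 * D ^ 2 * (1 - 7 / 5 * D) ^ 3
      - 37875 / 1000000 + 16035 / 100000 * D ^ 2 + 1308 / 10000 * D ^ 4 =
          29218969 / 4050000 * ((D - 3 / 16) ^ 0 * (3 / 8 - D) ^ 5)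
          + 90235913 / 10125000 * ((D - 3 / 16) ^ 1 * (3 / 8 - D) ^ 4)
          + 19529473 / 2531250 * ((D - 3 / 16) ^ 2 * (3 / 8 - D) ^ 3)
          + 65736281 / 1265625 * ((D - 3 / 16) ^ 3 * (3 / 8 - D) ^ 2)
          + 94900369 / 1265625 * ((D - 3 / 16) ^ 4 * (3 / 8 - D) ^ 1)
          + 60746 / 2025 * ((D - 3 / 16) ^ 5 * (3 / 8 - D) ^ 0) := by ring
      rw [key]
      revert ht hw
      generalize D - 3 / 16 = t
      generalize 3 / 8 - D = w
      intro ht hw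
      positivity
    · have ht : 0 ≤ D - 3 / 8 := by linarith
      have hw : 0 ≤ 3 / 4 - D := by linarith
      have key : 5229 / 100000 * (1 - 7 / 5 * D) - 3415 / 10000 * D ^ 2 * (1 - 7 / 5 * D) ^ 3
      - 37875 / 1000000 + 16035 / 100000 * D ^ 2 + 1308 / 10000 * D ^ 4 =
          30373 / 32400 * ((D - 3 / 8) ^ 0 * (3 / 4 - D) ^ 5)
          + 94923253 / 10125000 * ((D - 3 / 8) ^ 1 * (3 / 4 - D) ^ 4)
          + 87643673 / 2531250 * ((D - 3 / 8) ^ 2 * (3 / 4 - D) ^ 3)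
          + 71563621 / 1265625 * ((D - 3 / 8) ^ 3 * (3 / 4 - D) ^ 2)
          + 52785449 / 1265625 * ((D - 3 / 8) ^ 4 * (3 / 4 - D) ^ 1)
          + 3110138 / 253125 * ((D - 3 / 8) ^ 5 * (3 / 4 - D) ^ 0) := by ring
      rw [key]
      revert ht hw
      generalize D - 3 / 8 = t
      generalize 3 / 4 - D = w
      intro ht hw
      positivity

lemma P2_nonneg {D : ℝ} (h0 : 0 ≤ D) (h1 : D ≤ 3 / 4) :
    0 ≤ 5229 / 100000 * (1 + D) ^ 2 - (31535 / 100000 + 97125 / 10000000) * (D ^ 2 * (1 - 7 / 5 * D))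
      - (1 + D) ^ 4 * (37875 / 1000000 - 16035 / 100000 * D ^ 2 - 1308 / 10000 * D ^ 4) := by
  rcases le_total D (3 / 16) with hc0 | hc0
  · have ht : 0 ≤ D - 0 := by linarith
    have hw : 0 ≤ 3 / 16 - D := by linarith
    have key : 5229 / 100000 * (1 + D) ^ 2 - (31535 / 100000 + 97125 / 10000000) * (D ^ 2 * (1 - 7 / 5 * D))
      - (1 + D) ^ 4 * (37875 / 1000000 - 16035 / 100000 * D ^ 2 - 1308 / 10000 * D ^ 4) =
        64491618304 / 6834375 * ((D - 0) ^ 0 * (3 / 16 - D) ^ 8)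
        + 476573597696 / 6834375 * ((D - 0) ^ 1 * (3 / 16 - D) ^ 7)
        + 1476824006656 / 6834375 * ((D - 0) ^ 2 * (3 / 16 - D) ^ 6)
        + 2492297928704 / 6834375 * ((D - 0) ^ 3 * (3 / 16 - D) ^ 5)
        + 19845008384 / 54675 * ((D - 0) ^ 4 * (3 / 16 - D) ^ 4)
        + 1468667201024 / 6834375 * ((D - 0) ^ 5 * (3 / 16 - D) ^ 3)
        + 495328478536 / 6834375 * ((D - 0) ^ 6 * (3 / 16 - D) ^ 2)
        + 86550775616 / 6834375 * ((D - 0) ^ 7 * (3 / 16 - D) ^ 1)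
        + 27280981921 / 27337500 * ((D - 0) ^ 8 * (3 / 16 - D) ^ 0) := by ring
    rw [key]
    revert ht hw
    generalize D - 0 = t
    generalize 3 / 16 - D = w
    intro ht hw
    positivity
  · rcases le_total D (3 / 8) with hc1 | hc1
    · have ht : 0 ≤ D - 3 / 16 := by linarith
      have hw : 0 ≤ 3 / 8 - D := by linarith
      have key : 5229 / 100000 * (1 + D) ^ 2 - (31535 / 100000 + 97125 / 10000000) * (D ^ 2 * (1 - 7 / 5 * D))
      - (1 + D) ^ 4 * (37875 / 1000000 - 16035 / 100000 * D ^ 2 - 1308 / 10000 * D ^ 4) =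
          27280981921 / 27337500 * ((D - 3 / 16) ^ 0 * (3 / 8 - D) ^ 8)
          + 22573152068 / 6834375 * ((D - 3 / 16) ^ 1 * (3 / 8 - D) ^ 7)
          + 1899404548 / 273375 * ((D - 3 / 16) ^ 2 * (3 / 8 - D) ^ 6)
          + 260479364816 / 6834375 * ((D - 3 / 16) ^ 3 * (3 / 8 - D) ^ 5)
          + 183624103064 / 1366875 * ((D - 3 / 16) ^ 4 * (3 / 8 - D) ^ 4)
          + 1612024535744 / 6834375 * ((D - 3 / 16) ^ 5 * (3 / 8 - D) ^ 3)
          + 1503279039808 / 6834375 * ((D - 3 / 16) ^ 6 * (3 / 8 - D) ^ 2)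
          + 144411302656 / 1366875 * ((D - 3 / 16) ^ 7 * (3 / 8 - D) ^ 1)
          + 141429545536 / 6834375 * ((D - 3 / 16) ^ 8 * (3 / 8 - D) ^ 0) := by ring
      rw [key]
      revert ht hw
      generalize D - 3 / 16 = t
      generalize 3 / 8 - D = w
      intro ht hw
      positivity
    · have ht : 0 ≤ D - 3 / 8 := by linarith
      have hw : 0 ≤ 3 / 4 - D := by linarith
      have key : 5229 / 100000 * (1 + D) ^ 2 - (31535 / 100000 + 97125 / 10000000) * (D ^ 2 * (1 - 7 / 5 * D))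
      - (1 + D) ^ 4 * (37875 / 1000000 - 16035 / 100000 * D ^ 2 - 1308 / 10000 * D ^ 4) =
          2209836649 / 27337500 * ((D - 3 / 8) ^ 0 * (3 / 4 - D) ^ 8)
          + 7617953384 / 6834375 * ((D - 3 / 8) ^ 1 * (3 / 4 - D) ^ 7)
          + 44246047174 / 6834375 * ((D - 3 / 8) ^ 2 * (3 / 4 - D) ^ 6)
          + 141578146136 / 6834375 * ((D - 3 / 8) ^ 3 * (3 / 4 - D) ^ 5)
          + 54872170736 / 1366875 * ((D - 3 / 8) ^ 4 * (3 / 4 - D) ^ 4)
          + 331569081536 / 6834375 * ((D - 3 / 8) ^ 5 * (3 / 4 - D) ^ 3)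
          + 245278752544 / 6834375 * ((D - 3 / 8) ^ 6 * (3 / 4 - D) ^ 2)
          + 101989913984 / 6834375 * ((D - 3 / 8) ^ 7 * (3 / 4 - D) ^ 1)
          + 18317876416 / 6834375 * ((D - 3 / 8) ^ 8 * (3 / 4 - D) ^ 0) := by ring
      rw [key]
      revert ht hw
      generalize D - 3 / 8 = t
      generalize 3 / 4 - D = w
      intro ht hw
      positivity

lemma P3_nonneg {D : ℝ} (h0 : 0 ≤ D) (h1 : D ≤ 3 / 4) :
    0 ≤ 37 / 1000 * (1 + D) ^ 2 - D ^ 2 * (1 - 7 / 5 * D) := by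
  rcases le_total D (3 / 8) with hc0 | hc0
  · have ht : 0 ≤ D - 0 := by linarith
    have hw : 0 ≤ 3 / 8 - D := by linarith
    have key : 37 / 1000 * (1 + D) ^ 2 - D ^ 2 * (1 - 7 / 5 * D) =
        2368 / 3375 * ((D - 0) ^ 0 * (3 / 8 - D) ^ 3)
        + 592 / 225 * ((D - 0) ^ 1 * (3 / 8 - D) ^ 2)
        + 221 / 375 * ((D - 0) ^ 2 * (3 / 8 - D) ^ 1)
        + 202 / 3375 * ((D - 0) ^ 3 * (3 / 8 - D) ^ 0) := by ring
    rw [key]
    revert ht hw
    generalize D - 0 = t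
    generalize 3 / 8 - D = w
    intro ht hw
    positivity
  · rcases le_total D (15 / 32) with hc1 | hc1
    · have ht : 0 ≤ D - 3 / 8 := by linarith
      have hw : 0 ≤ 15 / 32 - D := by linarith
      have key : 37 / 1000 * (1 + D) ^ 2 - D ^ 2 * (1 - 7 / 5 * D) =
          12928 / 3375 * ((D - 3 / 8) ^ 0 * (15 / 32 - D) ^ 3)
          + 5552 / 1125 * ((D - 3 / 8) ^ 1 * (15 / 32 - D) ^ 2)
          + 368 / 75 * ((D - 3 / 8) ^ 2 * (15 / 32 - D) ^ 1)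
          + 17557 / 3375 * ((D - 3 / 8) ^ 3 * (15 / 32 - D) ^ 0) := by ring
      rw [key]
      revert ht hw
      generalize D - 3 / 8 = t
      generalize 15 / 32 - D = w
      intro ht hw
      positivity
    · rcases le_total D (9 / 16) with hc2 | hc2
      · have ht : 0 ≤ D - 15 / 32 := by linarith
        have hw : 0 ≤ 9 / 16 - D := by linarith
        have key : 37 / 1000 * (1 + D) ^ 2 - D ^ 2 * (1 - 7 / 5 * D) =
            17557 / 3375 * ((D - 15 / 32) ^ 0 * (9 / 16 - D) ^ 3)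
            + 29594 / 1125 * ((D - 15 / 32) ^ 1 * (9 / 16 - D) ^ 2)
            + 716 / 15 * ((D - 15 / 32) ^ 2 * (9 / 16 - D) ^ 1)
            + 3784 / 135 * ((D - 15 / 32) ^ 3 * (9 / 16 - D) ^ 0) := by ring
        rw [key]
        revert ht hw
        generalize D - 15 / 32 = t
        generalize 9 / 16 - D = w
        intro ht hw
        positivity
      · have ht : 0 ≤ D - 9 / 16 := by linarith
        have hw : 0 ≤ 3 / 4 - D := by linarith
        have key : 37 / 1000 * (1 + D) ^ 2 - D ^ 2 * (1 - 7 / 5 * D) =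
            473 / 135 * ((D - 9 / 16) ^ 0 * (3 / 4 - D) ^ 3)
            + 98 / 5 * ((D - 9 / 16) ^ 1 * (3 / 4 - D) ^ 2)
            + 40672 / 1125 * ((D - 9 / 16) ^ 2 * (3 / 4 - D) ^ 1)
            + 72416 / 3375 * ((D - 9 / 16) ^ 3 * (3 / 4 - D) ^ 0) := by ring
        rw [key]
        revert ht hw
        generalize D - 9 / 16 = t
        generalize 3 / 4 - D = w
        intro ht hw
        positivity

lemma P4_nonneg {D : ℝ} (h0 : 0 ≤ D) (h1 : D ≤ 1) :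
    0 ≤ 71 / 10000 - 37875 / 1000000 * D + 16035 / 100000 * D ^ 3 + 1308 / 10000 * D ^ 5 := by
  rcases le_total D (1 / 4) with hc0 | hc0
  · have ht : 0 ≤ D - 0 := by linarith
    have hw : 0 ≤ 1 / 4 - D := by linarith
    have key : 71 / 10000 - 37875 / 1000000 * D + 16035 / 100000 * D ^ 3 + 1308 / 10000 * D ^ 5 =
        4544 / 625 * ((D - 0) ^ 0 * (1 / 4 - D) ^ 5)
        + 3332 / 125 * ((D - 0) ^ 1 * (1 / 4 - D) ^ 4)
        + 848 / 25 * ((D - 0) ^ 2 * (1 / 4 - D) ^ 3)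
        + 21367 / 1250 * ((D - 0) ^ 3 * (1 / 4 - D) ^ 2)
        + 1687 / 625 * ((D - 0) ^ 4 * (1 / 4 - D) ^ 1)
        + 677 / 2500 * ((D - 0) ^ 5 * (1 / 4 - D) ^ 0) := by ring
    rw [key]
    revert ht hw
    generalize D - 0 = t
    generalize 1 / 4 - D = w
    intro ht hw
    positivity
  · rcases le_total D (1 / 2) with hc1 | hc1
    · have ht : 0 ≤ D - 1 / 4 := by linarith
      have hw : 0 ≤ 1 / 2 - D := by linarith
      have key : 71 / 10000 - 37875 / 1000000 * D + 16035 / 100000 * D ^ 3 + 1308 / 10000 * D ^ 5 =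
          677 / 2500 * ((D - 1 / 4) ^ 0 * (1 / 2 - D) ^ 5)
          + 11 / 1250 * ((D - 1 / 4) ^ 1 * (1 / 2 - D) ^ 4)
          + 1583 / 250 * ((D - 1 / 4) ^ 2 * (1 / 2 - D) ^ 3)
          + 15953 / 625 * ((D - 1 / 4) ^ 3 * (1 / 2 - D) ^ 2)
          + 19618 / 625 * ((D - 1 / 4) ^ 4 * (1 / 2 - D) ^ 1)
          + 7868 / 625 * ((D - 1 / 4) ^ 5 * (1 / 2 - D) ^ 0) := by ring
      rw [key]
      revert ht hw
      generalize D - 1 / 4 = t
      generalize 1 / 2 - D = w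
      intro ht hw
      positivity
    · have ht : 0 ≤ D - 1 / 2 := by linarith
      have hw : 0 ≤ 1 - D := by linarith
      have key : 71 / 10000 - 37875 / 1000000 * D + 16035 / 100000 * D ^ 3 + 1308 / 10000 * D ^ 5 =
          1967 / 5000 * ((D - 1 / 2) ^ 0 * (1 - D) ^ 5)
          + 2462 / 625 * ((D - 1 / 2) ^ 1 * (1 - D) ^ 4)
          + 3011 / 200 * ((D - 1 / 2) ^ 2 * (1 - D) ^ 3)
          + 68533 / 2500 * ((D - 1 / 2) ^ 3 * (1 - D) ^ 2)
          + 60263 / 2500 * ((D - 1 / 2) ^ 4 * (1 - D) ^ 1)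
          + 2083 / 250 * ((D - 1 / 2) ^ 5 * (1 - D) ^ 0) := by ring
      rw [key]
      revert ht hw
      generalize D - 1 / 2 = t
      generalize 1 - D = w
      intro ht hw
      positivity

lemma P5_nonneg {D : ℝ} (h0 : 0 ≤ D) (h1 : D ≤ 3 / 4) :
    0 ≤ 355 / 1000 - (1 + D) ^ 2 * (1 / 2 - 16035 / 100000 * ((1 + D) ^ 2 * (1 + 7 / 5 * D))) := by
  rcases le_total D (1 / 4) with hc0 | hc0
  · have ht : 0 ≤ D - 0 := by linarith
    have hw : 0 ≤ 1 / 4 - D := by linarith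
    have key : 355 / 1000 - (1 + D) ^ 2 * (1 / 2 - 16035 / 100000 * ((1 + D) ^ 2 * (1 + 7 / 5 * D))) =
        9824 / 625 * ((D - 0) ^ 0 * (1 / 4 - D) ^ 5)
        + 138312 / 3125 * ((D - 0) ^ 1 * (1 / 4 - D) ^ 4)
        + 66812 / 625 * ((D - 0) ^ 2 * (1 / 4 - D) ^ 3)
        + 30517 / 125 * ((D - 0) ^ 3 * (1 / 4 - D) ^ 2)
        + 54051 / 200 * ((D - 0) ^ 4 * (1 / 4 - D) ^ 1)
        + 83761 / 800 * ((D - 0) ^ 5 * (1 / 4 - D) ^ 0) := by ring
    rw [key]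
    revert ht hw
    generalize D - 0 = t
    generalize 1 / 4 - D = w
    intro ht hw
    positivity
  · have ht : 0 ≤ D - 1 / 4 := by linarith
    have hw : 0 ≤ 3 / 4 - D := by linarith
    have key : 355 / 1000 - (1 + D) ^ 2 * (1 / 2 - 16035 / 100000 * ((1 + D) ^ 2 * (1 + 7 / 5 * D))) =
        83761 / 25600 * ((D - 1 / 4) ^ 0 * (3 / 4 - D) ^ 5)
        + 824007 / 25600 * ((D - 1 / 4) ^ 1 * (3 / 4 - D) ^ 4)
        + 7827073 / 64000 * ((D - 1 / 4) ^ 2 * (3 / 4 - D) ^ 3)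
        + 70154999 / 320000 * ((D - 1 / 4) ^ 3 * (3 / 4 - D) ^ 2)
        + 597261009 / 3200000 * ((D - 1 / 4) ^ 4 * (3 / 4 - D) ^ 1)
        + 195252287 / 3200000 * ((D - 1 / 4) ^ 5 * (3 / 4 - D) ^ 0) := by ring
    rw [key]
    revert ht hw
    generalize D - 1 / 4 = t
    generalize 3 / 4 - D = w
    intro ht hw
    positivity

/-! ### The polynomial inequalities -/

lemma Th_eb_le {s : ℝ} (hs : 0 ≤ s) :
    Th (303 / 4000) s ≤ 37875 / 1000000 - 16035 / 100000 * s - 1308 / 10000 * s ^ 2 := by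
  unfold Th
  nlinarith [sq_nonneg s]

lemma mu_ge {t : ℝ} (h0 : 0 ≤ t) (h1 : t ≤ 789 / 10000) :
    t * (5229 / 100000 - 3415 / 10000 * t) ≤
      (3 / 4 * (303 / 4000) - 63 / 80 * (303 / 4000) ^ 2) * (t - t ^ 2 / 2)
      - (3 / 8 - 63 / 80 * (303 / 4000)) * (t - t ^ 2 / 2) ^ 2
      - 21 / 80 * (t - t ^ 2 / 2) ^ 3 := by
  have h2 : 0 ≤ (1 - t / 2) := by linarith
  have h3 : (1 - t / 2) ^ 3 ≤ 1 := pow_le_one₀ h2 (by linarith)
  have h4 : 21 / 80 * t ^ 2 * (1 - t / 2) ^ 3 ≤ 21 / 80 * t ^ 2 := by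
    have : 0 ≤ 21 / 80 * t ^ 2 := by positivity
    nlinarith
  have h5 : 5229 / 100000 - 3415 / 10000 * t ≤
      (3 / 4 * (303 / 4000) - 63 / 80 * (303 / 4000) ^ 2) * (1 - t / 2)
      - (3 / 8 - 63 / 80 * (303 / 4000)) * t * (1 - t / 2) ^ 2
      - 21 / 80 * t ^ 2 * (1 - t / 2) ^ 3 := by
    have h6 : t ^ 3 ≤ 789 / 10000 * t ^ 2 := by nlinarith [sq_nonneg t]
    nlinarith [sq_nonneg t]
  have h7 := mul_le_mul_of_nonneg_left h5 h0
  refine h7.trans (le_of_eq ?_)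
  ring

lemma gt_mono {a b : ℝ} (ha : 0 ≤ a) (hab : a ≤ b) (hb : b ≤ 11 / 50) :
    a * (5229 / 100000 - 3415 / 10000 * a ^ 2) ≤ b * (5229 / 100000 - 3415 / 10000 * b ^ 2) := by
  have h1 : 0 ≤ b := ha.trans hab
  have h2 : a ^ 2 ≤ 121 / 2500 := by nlinarith
  have h3 : b ^ 2 ≤ 121 / 2500 := by nlinarith
  have h4 : a * b ≤ 121 / 2500 := by nlinarith
  have h5 : 0 ≤ (b - a) * (5229 / 100000 - 3415 / 10000 * (a ^ 2 + a * b + b ^ 2)) :=
    mul_nonneg (by linarith) (by linarith)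
  nlinarith

lemma DTh_le {d D : ℝ} (hd : 0 < d) (hdD : d ≤ D) (hD : D < 1) (h : D * (1 - 7 / 5 * D) ≤ d)
    (hd2 : d ≤ 281 / 1000) :
    D * (37875 / 1000000 - 16035 / 100000 * D ^ 2 - 1308 / 10000 * (D ^ 2) ^ 2) ≤
      d * (5229 / 100000 - 3415 / 10000 * d ^ 2) := by
  have hD0 : 0 < D := hd.trans_le hdD
  rcases le_total d (11 / 50) with h1 | h1
  · rcases le_total D (5 / 7) with h2 | h2
    · have h3 : 0 ≤ D * (1 - 7 / 5 * D) := mul_nonneg hD0.le (by linarith)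
      have h4 := gt_mono h3 h h1
      have h5 := P1_nonneg hD0.le (by linarith)
      have h6 := mul_nonneg hD0.le h5
      nlinarith
    · have h3 : 0 ≤ d * (5229 / 100000 - 3415 / 10000 * d ^ 2) := by
        apply mul_nonneg hd.le
        nlinarith
      refine le_trans ?_ h3
      apply mul_nonpos_of_nonneg_of_nonpos hD0.le
      have : 1 / 2 ≤ D ^ 2 := by nlinarith
      nlinarith [sq_nonneg (D ^ 2)]
  · have h4 := P4_nonneg hD0.le hD.le
    have h5 : 71 / 10000 ≤ d * (5229 / 100000 - 3415 / 10000 * d ^ 2) := by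
      nlinarith [mul_nonneg (sub_nonneg.2 h1) (sub_nonneg.2 hd2),
        mul_nonneg hd.le (mul_nonneg (sub_nonneg.2 h1) (sub_nonneg.2 hd2))]
    nlinarith

lemma E1a {d D : ℝ} (hd : 0 < d) (hdD : d ≤ D) (hD : D < 1) (h : D * (1 - 7 / 5 * D) ≤ d)
    (hd2 : d ^ 2 ≤ 789 / 10000) :
    d * D * Th (303 / 4000) (D ^ 2) ≤
      (3 / 4 * (303 / 4000) - 63 / 80 * (303 / 4000) ^ 2) * (d ^ 2 - (d ^ 2) ^ 2 / 2)
      - (3 / 8 - 63 / 80 * (303 / 4000)) * (d ^ 2 - (d ^ 2) ^ 2 / 2) ^ 2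
      - 21 / 80 * (d ^ 2 - (d ^ 2) ^ 2 / 2) ^ 3 := by
  have hD0 : 0 < D := hd.trans_le hdD
  have hd3 : d ≤ 281 / 1000 := by
    by_contra hc
    push Not at hc
    nlinarith
  have h1 := mul_le_mul_of_nonneg_left (Th_eb_le (sq_nonneg D)) (mul_pos hd hD0).le
  have h2 := mul_le_mul_of_nonneg_left (DTh_le hd hdD hD h hd3) hd.le
  have h3 := mu_ge (sq_nonneg d) hd2
  calc d * D * Th (303 / 4000) (D ^ 2)
      ≤ d * D * (37875 / 1000000 - 16035 / 100000 * D ^ 2 - 1308 / 10000 * (D ^ 2) ^ 2) := h1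
    _ = d * (D * (37875 / 1000000 - 16035 / 100000 * D ^ 2 - 1308 / 10000 * (D ^ 2) ^ 2)) := by
        ring
    _ ≤ d * (d * (5229 / 100000 - 3415 / 10000 * d ^ 2)) := h2
    _ = d ^ 2 * (5229 / 100000 - 3415 / 10000 * d ^ 2) := by ring
    _ ≤ _ := h3

lemma EKa {d D : ℝ} (hd : 0 < d) (hdD : d ≤ D) (hd2 : d ^ 2 ≤ 789 / 10000) :
    d * D * Th (d ^ 2 - (d ^ 2) ^ 2 / 2) (D ^ 2) ≤
      3 / 8 * (d ^ 2 - (d ^ 2) ^ 2 / 2) ^ 2 - 21 / 80 * (d ^ 2 - (d ^ 2) ^ 2 / 2) ^ 3 := by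
  have hD0 : 0 < D := hd.trans_le hdD
  set t := d ^ 2 with ht
  have ht0 : 0 < t := by positivity
  have hK0 : 0 ≤ t - t ^ 2 / 2 := by nlinarith
  have hK1 : t - t ^ 2 / 2 ≤ t := by nlinarith
  set K := t - t ^ 2 / 2 with hK
  have h1 : Th K (D ^ 2) ≤ K / 2 - (1 / 6 - K / 12) * D ^ 2 := by
    unfold Th
    have : 0 ≤ (2 / 15 - K / 30) * (D ^ 2) ^ 2 := by
      apply mul_nonneg (by linarith) (by positivity)
    linarith
  have h2 : 3 * t * D - 2 * t * d ≤ D ^ 3 := by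
    have : 0 ≤ (D - d) ^ 2 * (D + 2 * d) := by positivity
    nlinarith
  have h3 := mul_le_mul_of_nonneg_left h1 (mul_pos hd hD0).le
  have hb : 0 ≤ d * (1 / 6 - K / 12) := mul_nonneg hd.le (by linarith)
  have h4 := mul_le_mul_of_nonneg_left h2 hb
  -- `K/2 ≤ 3 β t`
  have h5 : K / 2 ≤ 3 * (1 / 6 - K / 12) * t := by nlinarith
  have h6 := mul_le_mul_of_nonneg_left h5 (mul_pos hd hD0).le
  have h7 : d * D * Th K (D ^ 2) ≤ t ^ 2 * (1 / 3 - K / 6) := by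
    have e1 : d * D * (K / 2 - (1 / 6 - K / 12) * D ^ 2) =
        d * D * (K / 2) - d * (1 / 6 - K / 12) * D ^ 3 := by ring
    have e2 : d * (1 / 6 - K / 12) * (3 * t * D - 2 * t * d) =
        d * D * (3 * (1 / 6 - K / 12) * t) - t ^ 2 * (1 / 3 - K / 6) := by
      rw [ht]; ring
    linarith
  have h8 : (1 / 3 - K / 6) ≤ (1 - t / 2) ^ 2 * (3 / 8 - 21 / 80 * K) := by
    have a1 : 1 - t ≤ (1 - t / 2) ^ 2 := by nlinarith
    have a2 : (1 - t) * (3 / 8 - 21 / 80 * K) ≤ (1 - t / 2) ^ 2 * (3 / 8 - 21 / 80 * K) :=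
      mul_le_mul_of_nonneg_right a1 (by linarith)
    nlinarith
  have h9 := mul_le_mul_of_nonneg_left h8 (by positivity : 0 ≤ t ^ 2)
  have e3 : t ^ 2 * ((1 - t / 2) ^ 2 * (3 / 8 - 21 / 80 * K)) =
      3 / 8 * K ^ 2 - 21 / 80 * K ^ 3 := by
    rw [hK]; ring
  linarith

/-! case (b) -/

lemma E1b {D K : ℝ} (hD0 : 0 < D) (hD : D ≤ 5 / 7) (hK0 : 0 ≤ K)
    (hK : K * (1 + D) ^ 2 ≤ D ^ 2 * (1 - 7 / 5 * D)) :
    K * (1 + D) ^ 2 * Th (303 / 4000) (D ^ 2) ≤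
      (3 / 4 * (303 / 4000) - 63 / 80 * (303 / 4000) ^ 2) * K
      - (3 / 8 - 63 / 80 * (303 / 4000)) * K ^ 2 - 21 / 80 * K ^ 3 := by
  have hq : 0 < (1 + D) ^ 2 := by positivity
  have h3 := P3_nonneg hD0.le (by linarith)
  have hK1 : K ≤ 37 / 1000 := by
    have : K * (1 + D) ^ 2 ≤ 37 / 1000 * (1 + D) ^ 2 := by linarith
    exact le_of_mul_le_mul_right this hq
  have h2 := P2_nonneg hD0.le (by linarith)
  have hT := mul_le_mul_of_nonneg_left (Th_eb_le (sq_nonneg D)) hq.le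
  have h4 : (1 + D) ^ 2 * Th (303 / 4000) (D ^ 2) ≤
      5229 / 100000 - (31535 / 100000 + 97125 / 10000000) * K := by
    have h5 : (1 + D) ^ 2 * (37875 / 1000000 - 16035 / 100000 * D ^ 2 -
        1308 / 10000 * (D ^ 2) ^ 2) * (1 + D) ^ 2 ≤
        (5229 / 100000 - (31535 / 100000 + 97125 / 10000000) * K) * (1 + D) ^ 2 := by
      nlinarith
    have h6 := le_of_mul_le_mul_right h5 hq
    linarith
  have h5 := mul_le_mul_of_nonneg_left h4 hK0
  have h6 : K ^ 3 ≤ 37 / 1000 * K ^ 2 := by nlinarith [sq_nonneg K]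
  nlinarith [sq_nonneg K]

lemma EKb {D K : ℝ} (hD0 : 0 < D) (hD : D ≤ 5 / 7) (hK0 : 0 ≤ K) (hK1 : K ≤ 303 / 4000)
    (hK : K * (1 + D) ^ 2 ≤ D ^ 2 * (1 - 7 / 5 * D)) :
    K * (1 + D) ^ 2 * Th K (D ^ 2) ≤ 3 / 8 * K ^ 2 - 21 / 80 * K ^ 3 := by
  have hq : 0 < (1 + D) ^ 2 := by positivity
  have hs : K * (1 + D) ^ 2 * (1 + 7 / 5 * D) ≤ D ^ 2 := by
    have h1 := mul_le_mul_of_nonneg_right hK (by positivity : 0 ≤ 1 + 7 / 5 * D)
    have h2 : D ^ 2 * (1 - 7 / 5 * D) * (1 + 7 / 5 * D) ≤ D ^ 2 := by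
      have : D ^ 2 * (1 - 7 / 5 * D) * (1 + 7 / 5 * D) = D ^ 2 - D ^ 2 * (7 / 5 * D) ^ 2 := by
        ring
      rw [this]
      have : 0 ≤ D ^ 2 * (7 / 5 * D) ^ 2 := by positivity
      linarith
    linarith
  have h1 : Th K (D ^ 2) ≤ K / 2 - 16035 / 100000 * D ^ 2 := by
    unfold Th
    have a1 : 0 ≤ (2 / 15 - K / 30) * (D ^ 2) ^ 2 := by
      apply mul_nonneg (by linarith) (by positivity)
    have a2 : 16035 / 100000 * D ^ 2 ≤ (1 / 6 - K / 12) * D ^ 2 :=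
      mul_le_mul_of_nonneg_right (by linarith) (by positivity)
    linarith
  have h2 : Th K (D ^ 2) ≤ K * (1 / 2 - 16035 / 100000 * ((1 + D) ^ 2 * (1 + 7 / 5 * D))) := by
    nlinarith
  have h3 : (1 + D) ^ 2 * (1 / 2 - 16035 / 100000 * ((1 + D) ^ 2 * (1 + 7 / 5 * D))) ≤
      355 / 1000 := by
    have := P5_nonneg hD0.le (by linarith)
    linarith
  have h4 := mul_le_mul_of_nonneg_left h2 (mul_nonneg hK0 hq.le)
  have h5 := mul_le_mul_of_nonneg_left h3 (sq_nonneg K)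
  have h6 : K ^ 3 ≤ 303 / 4000 * K ^ 2 := by nlinarith [sq_nonneg K]
  nlinarith [sq_nonneg K]

/-! ### Assembly -/

lemma core {d D K u v y : ℝ} (hv : 0 < v) (hDv : D = tanh v) (hd : 0 < d) (hdD : d ≤ D)
    (hD1 : D < 1) (hK0 : 0 ≤ K) (hu : 0 ≤ u) (hu1 : u ≤ 1 / 3)
    (hy : y ≤ d * (Phi D / D))
    (hE : K ≤ 303 / 4000 →
      d * D * Th (303 / 4000) (D ^ 2) ≤
        (3 / 4 * (303 / 4000) - 63 / 80 * (303 / 4000) ^ 2) * K
        - (3 / 8 - 63 / 80 * (303 / 4000)) * K ^ 2 - 21 / 80 * K ^ 3 ∧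
      d * D * Th K (D ^ 2) ≤ 3 / 8 * K ^ 2 - 21 / 80 * K ^ 3) :
    ∃ u', 0 ≤ u' ∧ u' ≤ 1 / 3 ∧ eta u - eta u' ≤ K ∧
      (eta u + 2) * y - WW u + WW u' ≤ v * d := by
  have hD0 : 0 < D := hd.trans_le hdD
  have heta := HInvAux.eta_nonneg hu
  have heta1 : eta u ≤ 303 / 4000 :=
    (eta_strictMonoOn.monotoneOn (mem_Ici.2 hu) (mem_Ici.2 (by norm_num)) hu1).trans eta_third_le
  have hxx : xx v = Phi D := by rw [hDv]; rfl
  have hath : ath D = v := by rw [hDv]; exact ath_tanh v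
  have hr0 : 0 ≤ d / D := by positivity
  have hr1 : d / D ≤ 1 := (div_le_one hD0).2 hdD
  have hy' : y ≤ d / D * Phi D := by
    refine hy.trans (le_of_eq ?_); ring
  rcases le_or_gt (eta u) K with hc | hc
  · refine ⟨0, le_rfl, by norm_num, by rw [eta_zero]; linarith, ?_⟩
    have h1 := env hu hv.le
    have h2 := WW_nonneg hu
    have h3 := mul_le_mul_of_nonneg_left hy' (by linarith : 0 ≤ eta u + 2)
    have h4 := mul_le_mul_of_nonneg_left h1 hr0
    have h5 : 0 ≤ (1 - d / D) * WW u := mul_nonneg (by linarith) h2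
    rw [hxx, ← hDv] at h4
    have h6 : d / D * (v * D) = v * d := by field_simp
    rw [h6] at h4
    rw [WW_zero]
    nlinarith
  · -- find `u'` with `eta u' = eta u - K`
    have hiv : ∃ w ∈ Icc 0 u, eta w = eta u - K := by
      have h1 : eta u - K ∈ Icc (eta 0) (eta u) := by
        rw [eta_zero]; exact ⟨by linarith, by linarith⟩
      exact intermediate_value_Icc hu continuous_eta.continuousOn h1
    obtain ⟨w, hw, hwe⟩ := hiv
    refine ⟨w, hw.1, hw.2.trans hu1, by linarith, ?_⟩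
    obtain ⟨hE1, hEK⟩ := hE (by linarith)
    have h1 := WW_diff hw.1 hw.2 hu1
    have h2 := hlem (e := eta u) (D := D) (by linarith) hD0.le hD1
    rw [hath] at h2
    have h3 := mul_le_mul_of_nonneg_left hy' (by linarith : 0 ≤ eta u + 2)
    have h4 := mul_le_mul_of_nonneg_left h2 hr0
    have h6 : d / D * (D ^ 2 * Th (eta u) (D ^ 2)) = d * D * Th (eta u) (D ^ 2) := by
      field_simp
    rw [h6] at h4
    have h7 : d / D * (D * v) = v * d := by field_simp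
    rw [hwe] at h1
    -- concavity in `e = eta u`
    set e := eta u with he
    have hkey : d * D * Th e (D ^ 2) ≤
        (3 / 8 * e ^ 2 - 21 / 80 * e ^ 3) - (3 / 8 * (e - K) ^ 2 - 21 / 80 * (e - K) ^ 3) := by
      have hb : 0 < 303 / 4000 - K := by linarith
      -- weights
      have c1 := mul_le_mul_of_nonneg_left hE1 (by linarith : 0 ≤ e - K)
      have c2 := mul_le_mul_of_nonneg_left hEK (by linarith : 0 ≤ 303 / 4000 - e)
      have c3 : (303 / 4000 - K) * (d * D * Th e (D ^ 2)) =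
          (e - K) * (d * D * Th (303 / 4000) (D ^ 2)) +
            (303 / 4000 - e) * (d * D * Th K (D ^ 2)) := by
        unfold Th; ring
      have c4 : (303 / 4000 - K) * ((3 / 8 * e ^ 2 - 21 / 80 * e ^ 3)
            - (3 / 8 * (e - K) ^ 2 - 21 / 80 * (e - K) ^ 3)) -
          ((e - K) * ((3 / 4 * (303 / 4000) - 63 / 80 * (303 / 4000) ^ 2) * K
            - (3 / 8 - 63 / 80 * (303 / 4000)) * K ^ 2 - 21 / 80 * K ^ 3) +
            (303 / 4000 - e) * (3 / 8 * K ^ 2 - 21 / 80 * K ^ 3)) =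
          63 / 80 * K * (303 / 4000 - K) * (e - K) * (303 / 4000 - e) := by ring
      have c5 : 0 ≤ 63 / 80 * K * (303 / 4000 - K) * (e - K) * (303 / 4000 - e) := by
        have a1 : 0 ≤ e - K := by linarith
        have a2 : 0 ≤ 303 / 4000 - e := by linarith
        positivity
      have c6 : (303 / 4000 - K) * (d * D * Th e (D ^ 2)) ≤ (303 / 4000 - K) *
          ((3 / 8 * e ^ 2 - 21 / 80 * e ^ 3)
            - (3 / 8 * (e - K) ^ 2 - 21 / 80 * (e - K) ^ 3)) := by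
        rw [c3]; linarith
      exact le_of_mul_le_mul_left c6 hb
    nlinarith

lemma ath_lt {a b : ℝ} (ha : a ∈ Ioo (-1 : ℝ) 1) (hb : b ∈ Ioo (-1 : ℝ) 1) (h : a < b) :
    ath a < ath b := by
  unfold ath
  have h1 := Real.log_lt_log (by linarith [ha.1] : 0 < 1 + a) (by linarith : 1 + a < 1 + b)
  have h2 := Real.log_lt_log (by linarith [hb.2] : 0 < 1 - b) (by linarith : 1 - b < 1 - a)
  linarith

lemma rel_D {m₀ m₁ : ℝ} (h0 : m₀ ∈ Ioo (-1 : ℝ) 1) (h1 : m₁ ∈ Ioo (-1 : ℝ) 1) :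
    (m₁ - m₀) * (1 + tanh ((ath m₁ - ath m₀) / 2) ^ 2) =
      (1 - m₀ * m₁) * (2 * tanh ((ath m₁ - ath m₀) / 2)) := by
  have e0 : m₀ = tanh ((ath m₁ + ath m₀) / 2 - (ath m₁ - ath m₀) / 2) := by
    rw [show (ath m₁ + ath m₀) / 2 - (ath m₁ - ath m₀) / 2 = ath m₀ by ring, tanh_ath h0]
  have e1 : m₁ = tanh ((ath m₁ + ath m₀) / 2 + (ath m₁ - ath m₀) / 2) := by
    rw [show (ath m₁ + ath m₀) / 2 + (ath m₁ - ath m₀) / 2 = ath m₁ by ring, tanh_ath h1]
  generalize (ath m₁ + ath m₀) / 2 = c at e0 e1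
  generalize (ath m₁ - ath m₀) / 2 = v at e0 e1 ⊢
  rw [e0, e1]
  have hc1 := cosh_ne (c - v)
  have hc2 := cosh_ne (c + v)
  have hc3 := cosh_ne v
  simp only [tanh_eq_sinh_div_cosh]
  field_simp
  rw [Real.sinh_sub, Real.sinh_add, Real.cosh_sub, Real.cosh_add]
  ring

lemma valid_a {c d : ℝ} (hd0 : 0 < d) (hd1 : d < 1) {m : ℝ} :
    (1 - d ^ 2 / 2) / 2 * (2 * (1 - m ^ 2) + ((c + d) - m) * (m - (c - d))) ≤ 1 := by
  have h2 : 2 * (1 - m ^ 2) + ((c + d) - m) * (m - (c - d)) ≤ 2 + d ^ 2 := by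
    nlinarith [sq_nonneg m, sq_nonneg (m - c)]
  have h1 : d ^ 2 < 1 := by nlinarith
  have h3 := mul_le_mul_of_nonneg_left h2 (by linarith : 0 ≤ (1 - d ^ 2 / 2) / 2)
  have h4 : (1 - d ^ 2 / 2) / 2 * (2 + d ^ 2) = 1 - (d ^ 2) ^ 2 / 4 := by ring
  have h5 := sq_nonneg (d ^ 2)
  linarith

lemma valid_b {c d D : ℝ} (hd0 : 0 < d) (hDpos : 0 < D) (hD57 : D ≤ 5 / 7)
    (hcase : d < D * (1 - 7 / 5 * D)) (hc0 : -1 < c) (hc1 : c < 1)
    (hrel' : (D - d) * (1 - d * D) = D * c ^ 2) {m : ℝ} (hm : m ∈ Icc (c - d) (c + d)) :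
    D / (2 * d * (1 + D) ^ 2) * (2 * (1 - m ^ 2) + ((c + d) - m) * (m - (c - d))) ≤ 1 := by
  have hr : d * (1 + D ^ 2) ≤ D := by
    have a1 : D * (1 - 7 / 5 * D) * (1 + D ^ 2) ≤ D := by
      have : (1 - 7 / 5 * D) * (1 + D ^ 2) ≤ 1 := by
        have e : 1 - (1 - 7 / 5 * D) * (1 + D ^ 2) = D * (7 / 5 - D + 7 / 5 * D ^ 2) := by ring
        have : 0 ≤ D * (7 / 5 - D + 7 / 5 * D ^ 2) := by
          apply mul_nonneg hDpos.le
          have : 0 ≤ D ^ 2 := by positivity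
          linarith
        linarith
      have := mul_le_mul_of_nonneg_left this hDpos.le
      linarith
    have a2 := mul_le_mul_of_nonneg_right hcase.le (by positivity : 0 ≤ 1 + D ^ 2)
    linarith
  have hcd : d ^ 2 ≤ c ^ 2 := by
    have a1 : D * d ^ 2 ≤ D * c ^ 2 := by
      rw [← hrel']
      have e : (D - d) * (1 - d * D) - D * d ^ 2 = D - d * (1 + D ^ 2) := by ring
      linarith
    exact le_of_mul_le_mul_left a1 hDpos
  have b2 : ((c + d) - m) * (m - (c - d)) ≤ d ^ 2 := by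
    have : ((c + d) - m) * (m - (c - d)) = d ^ 2 - (m - c) ^ 2 := by ring
    rw [this]; linarith [sq_nonneg (m - c)]
  rw [div_mul_eq_mul_div, div_le_one (by positivity)]
  rcases le_total 0 c with hcs | hcs
  · have hcd' : d ≤ c := by
      by_contra hcon
      push Not at hcon
      nlinarith
    have b1 : (c - d) ^ 2 ≤ m ^ 2 := by nlinarith [hm.1]
    have b3 : 2 * (1 - m ^ 2) + ((c + d) - m) * (m - (c - d)) ≤
        2 * (1 - (c - d) ^ 2) + d ^ 2 := by linarith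
    have b4 := mul_le_mul_of_nonneg_left b3 hDpos.le
    refine b4.trans ?_
    have e : 2 * d * (1 + D) ^ 2 - D * (2 * (1 - (c - d) ^ 2) + d ^ 2) =
      4 * (d * D) * (1 - c) + 3 * (D * d ^ 2) +
        2 * (D * c ^ 2 - (D - d) * (1 - d * D)) := by ring
    have : 0 ≤ 4 * (d * D) * (1 - c) := by
      apply mul_nonneg (by positivity) (by linarith)
    have : 0 ≤ D * d ^ 2 := by positivity
    linarith
  · have hcd' : c ≤ -d := by
      by_contra hcon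
      push Not at hcon
      nlinarith
    have b1 : (c + d) ^ 2 ≤ m ^ 2 := by nlinarith [hm.2]
    have b3 : 2 * (1 - m ^ 2) + ((c + d) - m) * (m - (c - d)) ≤
        2 * (1 - (c + d) ^ 2) + d ^ 2 := by linarith
    have b4 := mul_le_mul_of_nonneg_left b3 hDpos.le
    refine b4.trans ?_
    have e : 2 * d * (1 + D) ^ 2 - D * (2 * (1 - (c + d) ^ 2) + d ^ 2) =
      4 * (d * D) * (1 + c) + 3 * (D * d ^ 2) +
        2 * (D * c ^ 2 - (D - d) * (1 - d * D)) := by ring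
    have : 0 ≤ 4 * (d * D) * (1 + c) := by
      apply mul_nonneg (by positivity) (by linarith)
    have : 0 ≤ D * d ^ 2 := by positivity
    linarith

lemma red {c d D X u v y A : ℝ} (hv : 0 < v) (hDv : D = tanh v) (hd0 : 0 < d) (hdD : d ≤ D)
    (hD1 : D < 1) (hX : 0 ≤ X) (hu : 0 ≤ u) (hu1 : u ≤ 1 / 3)
    (hy : y ≤ d * (Phi D / D)) (hA : 0 ≤ A)
    (hval : ∀ m ∈ Icc (c - d) (c + d),
      A * (2 * (1 - m ^ 2) + ((c + d) - m) * (m - (c - d))) ≤ 1)
    (hE : 2 * d ^ 2 * A ≤ 303 / 4000 →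
        d * D * Th (303 / 4000) (D ^ 2) ≤
          (3 / 4 * (303 / 4000) - 63 / 80 * (303 / 4000) ^ 2) * (2 * d ^ 2 * A)
          - (3 / 8 - 63 / 80 * (303 / 4000)) * (2 * d ^ 2 * A) ^ 2
          - 21 / 80 * (2 * d ^ 2 * A) ^ 3 ∧
        d * D * Th (2 * d ^ 2 * A) (D ^ 2) ≤
          3 / 8 * (2 * d ^ 2 * A) ^ 2 - 21 / 80 * (2 * d ^ 2 * A) ^ 3) :
    ∃ A u', 0 ≤ A ∧
      (∀ m ∈ Icc (c - d) (c + d), A * (2 * (1 - m ^ 2) + ((c + d) - m) * (m - (c - d))) ≤ 1) ∧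
      0 ≤ u' ∧ u' ≤ 1 / 3 ∧
      ((eta u + 2) * (X + y - Phi (tanh u)) + u * tanh u)
        - ((eta u' + 2) * (X - Phi (tanh u')) + u' * tanh u')
      ≤ v * d + 2 * d ^ 2 * A * X := by
  obtain ⟨u', hu'0, hu'1, he, hfin⟩ := core (K := 2 * d ^ 2 * A) hv hDv hd0 hdD hD1
    (by positivity) hu hu1 hy hE
  refine ⟨A, u', hA, hval, hu'0, hu'1, ?_⟩
  have h2 := mul_le_mul_of_nonneg_right he hX
  unfold WW xx at hfin
  linarith

lemma red2 {c d D X u v y : ℝ} (hv : 0 < v) (hDv : D = tanh v) (hd0 : 0 < d) (hd1 : d < 1)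
    (hc0 : -1 < c) (hc1 : c < 1) (hrel' : (D - d) * (1 - d * D) = D * c ^ 2)
    (hX : 0 ≤ X) (hu : 0 ≤ u) (hu1 : u ≤ 1 / 3)
    (hy : y ≤ d * (Phi D / D)) :
    ∃ A u', 0 ≤ A ∧
      (∀ m ∈ Icc (c - d) (c + d), A * (2 * (1 - m ^ 2) + ((c + d) - m) * (m - (c - d))) ≤ 1) ∧
      0 ≤ u' ∧ u' ≤ 1 / 3 ∧
      ((eta u + 2) * (X + y - Phi (tanh u)) + u * tanh u)
        - ((eta u' + 2) * (X - Phi (tanh u')) + u' * tanh u')
      ≤ v * d + 2 * d ^ 2 * A * X := by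
  have hDpos : 0 < D := by rw [hDv]; exact tanh_pos' hv
  have hD1 : D < 1 := by rw [hDv]; exact Real.tanh_lt_one _
  have hdD1 : d * D < 1 := by nlinarith
  have hdD : d ≤ D := by
    by_contra hcon
    push Not at hcon
    have h1 : 0 ≤ D * c ^ 2 := by positivity
    have h2 := mul_pos (sub_pos.2 hcon) (sub_pos.2 hdD1)
    linarith
  rcases le_or_gt (D * (1 - 7 / 5 * D)) d with hcase | hcase
  · -- case (a)
    have hdsq : d ^ 2 < 1 := by nlinarith
    apply red (A := (1 - d ^ 2 / 2) / 2) hv hDv hd0 hdD hD1 hX hu hu1 hy (by linarith)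
    · intro m _
      exact valid_a hd0 hd1
    · intro hK
      have eK : 2 * d ^ 2 * ((1 - d ^ 2 / 2) / 2) = d ^ 2 - (d ^ 2) ^ 2 / 2 := by ring
      rw [eK] at hK ⊢
      have hd2 : d ^ 2 ≤ 789 / 10000 := by
        by_contra hcon
        push Not at hcon
        nlinarith
      exact ⟨E1a hd0 hdD hD1 hcase hd2, EKa hd0 hdD hd2⟩
  · -- case (b)
    have hD57 : D ≤ 5 / 7 := by
      by_contra hcon
      push Not at hcon
      have : D * (1 - 7 / 5 * D) ≤ 0 :=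
        mul_nonpos_of_nonneg_of_nonpos hDpos.le (by linarith)
      linarith
    have hA0 : 0 < D / (2 * d * (1 + D) ^ 2) := by positivity
    apply red (A := D / (2 * d * (1 + D) ^ 2)) hv hDv hd0 hdD hD1 hX hu hu1 hy hA0.le
    · intro m hm
      exact valid_b hd0 hDpos hD57 hcase hc0 hc1 hrel' hm
    · intro hK
      have eK : 2 * d ^ 2 * (D / (2 * d * (1 + D) ^ 2)) * (1 + D) ^ 2 = d * D := by
        field_simp
      have hK0 : 0 ≤ 2 * d ^ 2 * (D / (2 * d * (1 + D) ^ 2)) := by positivity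
      have hK2 : 2 * d ^ 2 * (D / (2 * d * (1 + D) ^ 2)) * (1 + D) ^ 2 ≤
          D ^ 2 * (1 - 7 / 5 * D) := by
        rw [eK]
        have := mul_le_mul_of_nonneg_right hcase.le hDpos.le
        linarith
      constructor
      · have := E1b hDpos hD57 hK0 hK2
        rwa [eK] at this
      · have := EKb hDpos hD57 hK0 hK hK2
        rwa [eK] at this

end TFAux

theorem tf {m₀ m₁ X u : ℝ} (h0 : m₀ ∈ Ioo (-1 : ℝ) 1) (h1 : m₁ ∈ Ioo (-1 : ℝ) 1) (h : m₀ < m₁)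
    (hX : 0 ≤ X) (hu : 0 ≤ u) (hu1 : u ≤ 1 / 3) :
    ∃ A u', 0 ≤ A ∧ (∀ m ∈ Icc m₀ m₁, A * (2 * (1 - m ^ 2) + (m₁ - m) * (m - m₀)) ≤ 1) ∧
      0 ≤ u' ∧ u' ≤ 1 / 3 ∧
      ((eta u + 2) * (X + ((Phi m₀ + Phi m₁) / 2 - Phi ((m₀ + m₁) / 2)) - Phi (tanh u))
          + u * tanh u)
        - ((eta u' + 2) * (X - Phi (tanh u')) + u' * tanh u')
      ≤ JJ m₀ m₁ + (m₁ - m₀) ^ 2 / 2 * A * X := by
  have hy := Y_le h0 h1 h
  have hrel := TFAux.rel_D h0 h1
  have hath := TFAux.ath_lt h0 h1 h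
  have hJ : JJ m₀ m₁ = (ath m₁ - ath m₀) / 2 * ((m₁ - m₀) / 2) := by unfold JJ; ring
  have hv : 0 < (ath m₁ - ath m₀) / 2 := by linarith
  obtain ⟨d, hd⟩ : ∃ d, d = (m₁ - m₀) / 2 := ⟨_, rfl⟩
  obtain ⟨c, hc⟩ : ∃ c, c = (m₀ + m₁) / 2 := ⟨_, rfl⟩
  have em0 : m₀ = c - d := by rw [hd, hc]; ring
  have em1 : m₁ = c + d := by rw [hd, hc]; ring
  have hd0 : 0 < d := by rw [hd]; linarith
  have hc1 : c < 1 := by rw [hc]; linarith [h0.2, h1.2]
  have hc0 : -1 < c := by rw [hc]; linarith [h0.1, h1.1]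
  have hd1 : d < 1 := by rw [hd]; linarith [h0.1, h1.2]
  rw [← hd] at hy
  have hrel' : (tanh ((ath m₁ - ath m₀) / 2) - d) * (1 - d * tanh ((ath m₁ - ath m₀) / 2)) =
      tanh ((ath m₁ - ath m₀) / 2) * c ^ 2 := by
    have h2 : (2 * d) * (1 + tanh ((ath m₁ - ath m₀) / 2) ^ 2) =
        (1 - (c - d) * (c + d)) * (2 * tanh ((ath m₁ - ath m₀) / 2)) := by
      rw [← em0, ← em1, ← hrel]
      congr 1
      rw [hd]; ring
    linear_combination (-1 / 2) * h2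
  obtain ⟨A, u', hA, hval, hu'0, hu'1, hfin⟩ :=
    TFAux.red2 hv rfl hd0 hd1 hc0 hc1 hrel' hX hu hu1 hy
  rw [← em0, ← em1] at hval
  refine ⟨A, u', hA, hval, hu'0, hu'1, ?_⟩
  rw [hJ, ← hd]
  have e1 : (m₁ - m₀) ^ 2 / 2 * A * X = 2 * d ^ 2 * A * X := by rw [hd]; ring
  rw [e1]
  exact hfin

end Vale.Agent.P322
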