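import Vale.Agent.P322.HInv
import Vale.Agent.P322.K1
import Vale.Agent.P322.JConv
import Vale.Agent.P322.JB

/-! (T) the two-half inequality, from (BD) and (M) -/

open Real Set Filter Topology
namespace Vale.Agent.P322

open HBasicAux HInvAux K1Aux JBaux

namespace TwoHalfAux

lemma aa_pos {m : ℝ} (h : m ∈ Ioo (-1 : ℝ) 1) : 0 < aa m := by
  unfold aa
  have h1 : m ^ 2 < 1 := by
    have := h.1
    have := h.2
    nlinarith
  have h2 : 0 < 1 - m ^ 2 := by linarith
  have h3 : 0 < 1 - m ^ 2 / 5 := by linarith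
  positivity

lemma aa_concave {s t : ℝ} (hs : s ∈ Ioo (-1 : ℝ) 1) (ht : t ∈ Ioo (-1 : ℝ) 1) :
    (aa s + aa t) / 2 ≤ aa ((s + t) / 2) := by
  have h1 : s ^ 2 < 1 := by
    have := hs.1
    have := hs.2
    nlinarith
  have h2 : t ^ 2 < 1 := by
    have := ht.1
    have := ht.2
    nlinarith
  have h3 : aa ((s + t) / 2) - (aa s + aa t) / 2 =
      ((t - s) / 2) ^ 2 * (6 / 5 - 6 / 5 * ((s + t) / 2) ^ 2 - 1 / 5 * ((t - s) / 2) ^ 2) := by
    unfold aa
    ring
  have h4 : 0 ≤ 6 / 5 - 6 / 5 * ((s + t) / 2) ^ 2 - 1 / 5 * ((t - s) / 2) ^ 2 := by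
    nlinarith [sq_nonneg ((t - s) / 2)]
  have h5 : 0 ≤ aa ((s + t) / 2) - (aa s + aa t) / 2 := by
    rw [h3]
    positivity
  linarith

lemma theta_pos {u : ℝ} (h : 0 < u) : 0 < theta u := div_pos (HH_pos u) (tanh_pos' h)

lemma tanh_mono {a b : ℝ} (h : a ≤ b) : tanh a ≤ tanh b := by
  rcases h.eq_or_lt with rfl | h
  · exact le_rfl
  have : StrictMono tanh := by
    apply strictMono_of_deriv_pos
    intro x
    rw [(hasDerivAt_tanh' x).deriv]
    have := cosh_pos x
    positivity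
  exact (this h).le

lemma exists_theta {v c : ℝ} (hv : 0 < v) (hc0 : 0 < c) (hc : c < theta v) :
    ∃ x, v < x ∧ theta x = c := by
  have htv := tanh_pos' hv
  have h1 : ∀ᶠ x in atTop, HH x < c * tanh v :=
    tendsto_HH (Iio_mem_nhds (by positivity))
  obtain ⟨X, hX1, hX2⟩ := (h1.and (eventually_ge_atTop v)).exists
  have h2 : theta X ≤ c := by
    unfold theta
    rw [div_le_iff₀ (tanh_pos' (hv.trans_le hX2))]
    have := mul_le_mul_of_nonneg_left (tanh_mono hX2) hc0.le
    linarith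
  have h3 : ContinuousOn theta (Icc v X) := fun y hy =>
    (hasDerivAt_theta (hv.trans_le hy.1)).continuousAt.continuousWithinAt
  obtain ⟨x, hx, hxc⟩ := intermediate_value_Icc' hX2 h3 ⟨h2, hc.le⟩
  refine ⟨x, lt_of_le_of_ne hx.1 ?_, hxc⟩
  rintro rfl
  exact absurd hxc hc.ne'

lemma R_anti {a a' : ℝ} (ha' : 0 < a') (h : a' ≤ a) :
    AntitoneOn (fun τ => QQ a τ - QQ a' τ) (Ioi 0) := by
  have ha := ha'.trans_le h
  have hd : ∀ τ : ℝ, 0 < τ → HasDerivAt (fun τ => QQ a τ - QQ a' τ)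
      (-eta (Hinv (τ / a)) - -eta (Hinv (τ / a'))) τ := fun τ hτ =>
    (hasDerivAt_QQ ha hτ).sub (hasDerivAt_QQ ha' hτ)
  apply antitoneOn_of_deriv_nonpos (convex_Ioi 0)
  · intro τ hτ
    exact (hd τ hτ).continuousAt.continuousWithinAt
  · intro τ hτ
    rw [interior_Ioi] at hτ
    exact (hd τ hτ).differentiableAt.differentiableWithinAt
  · intro τ hτ
    rw [interior_Ioi] at hτ
    have hτ' : 0 < τ := hτ
    rw [(hd τ hτ).deriv]
    have h1 : τ / a ≤ τ / a' := div_le_div_of_nonneg_left hτ'.le ha' h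
    have h2 := Hinv_antitoneOn (mem_Ioi.2 (div_pos hτ' ha)) (mem_Ioi.2 (div_pos hτ' ha')) h1
    have h3 := eta_strictMonoOn.monotoneOn (mem_Ici.2 (Hinv_nonneg (τ / a')))
      (mem_Ici.2 (Hinv_nonneg (τ / a))) h2
    linarith

/-- statement of (BD) -/
def BdStmt : Prop := ∀ s t : ℝ, s ∈ Ioo (-1 : ℝ) 1 → t ∈ Ioo (-1 : ℝ) 1 → s < t →
    QQ (aa ((s + t) / 2)) ((t - s) / 2 * theta ((ath t - ath s) / 2))
      - QQ ((aa s + aa t) / 2) ((t - s) / 2 * theta ((ath t - ath s) / 2))
    ≤ JJ s t - (Phi s + Phi t - 2 * Phi ((s + t) / 2))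

/-- statement of (M) -/
def WindowStmt : Prop := ∀ m δ x : ℝ, 0 < δ → 0 < x → -1 < m - δ → m + δ < 1 →
    (ath (m + δ) - ath (m - δ)) / 2 ≤ x →
    eta (Hinv (δ * theta x / aa m)) - eta (Hinv (δ * theta x / ((aa (m - δ) + aa (m + δ)) / 2)))
      ≤ kap x

lemma core (hBd : BdStmt) (hW : WindowStmt) {s t τ E : ℝ} (hs : s ∈ Ioo (-1 : ℝ) 1)
    (ht : t ∈ Ioo (-1 : ℝ) 1) (hst : s < t) (hτ : 0 < τ) (hE1 : JJ s t ≤ E)
    (hE2 : ∀ x, 0 < x → gam x * ((t - s) / 2) - kap x * τ ≤ E) :
    QQ (aa ((s + t) / 2)) τ - QQ ((aa s + aa t) / 2) τ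
      ≤ E - (Phi s + Phi t - 2 * Phi ((s + t) / 2)) := by
  have hm : (s + t) / 2 ∈ Ioo (-1 : ℝ) 1 :=
    ⟨by linarith [hs.1, ht.1], by linarith [hs.2, ht.2]⟩
  have hA' : 0 < (aa s + aa t) / 2 := by linarith [aa_pos hs, aa_pos ht]
  have hAA := aa_concave hs ht
  have hab := ath_lt hs ht hst
  have hbd := hBd s t hs ht hst
  have hR := R_anti hA' hAA
  have hJ : JJ s t = (t - s) / 2 * ((ath t - ath s) / 2) := by unfold JJ; ring
  have hw : ∀ x, 0 < x → (ath t - ath s) / 2 ≤ x →
      eta (Hinv ((t - s) / 2 * theta x / aa ((s + t) / 2))) -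
        eta (Hinv ((t - s) / 2 * theta x / ((aa s + aa t) / 2))) ≤ kap x := by
    intro x hx hvx
    have e1 : (s + t) / 2 - (t - s) / 2 = s := by ring
    have e2 : (s + t) / 2 + (t - s) / 2 = t := by ring
    have := hW ((s + t) / 2) ((t - s) / 2) x (by linarith) hx (by rw [e1]; exact hs.1)
      (by rw [e2]; exact ht.2) (by rw [e1, e2]; exact hvx)
    rwa [e1, e2] at this
  set v := (ath t - ath s) / 2 with hv
  set d := (t - s) / 2 with hd
  set A := aa ((s + t) / 2) with hAdef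
  set A' := (aa s + aa t) / 2 with hA'def
  set Y := Phi s + Phi t - 2 * Phi ((s + t) / 2) with hY
  have hv0 : 0 < v := by rw [hv]; linarith
  have hd0 : 0 < d := by rw [hd]; linarith
  have hA : 0 < A := hA'.trans_le hAA
  rcases le_or_gt (d * theta v) τ with h | h
  · have h1 := hR (mem_Ioi.2 (mul_pos hd0 (theta_pos hv0))) (mem_Ioi.2 hτ) h
    simp only at h1
    linarith
  · obtain ⟨x, hvx, hx⟩ := exists_theta hv0 (div_pos hτ hd0)
      (by rw [div_lt_iff₀ hd0]; linarith)
    have hx0 : 0 < x := hv0.trans hvx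
    have hτx : d * theta x = τ := by rw [hx]; field_simp
    have h1 := hE2 x hx0
    have e2 : gam x = x + kap x * theta x := by
      unfold gam kap theta
      rw [tanh_eq_sinh_div_cosh, sinh_two_mul]
      have h2 := sinh_pos_iff.2 hx0
      have h3 := cosh_pos x
      have h4 := log_two_cosh_pos x
      field_simp
    have h2 : d * x ≤ E := by
      rw [e2, ← hτx] at h1
      linarith
    have hΨ : MonotoneOn (fun y => d * y - (QQ A (d * theta y) - QQ A' (d * theta y))) (Ici v) := by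
      have hdd : ∀ y, 0 < y → HasDerivAt
          (fun y => d * y - (QQ A (d * theta y) - QQ A' (d * theta y)))
          (d * (1 - (eta (Hinv (d * theta y / A)) - eta (Hinv (d * theta y / A'))) / kap y)) y := by
        intro y hy
        have ha : HasDerivAt (fun y => d * theta y) (d * -(1 / kap y)) y :=
          (hasDerivAt_theta hy).const_mul d
        have hpos : 0 < d * theta y := mul_pos hd0 (theta_pos hy)
        have hb := (hasDerivAt_QQ hA hpos).comp y ha
        have hc := (hasDerivAt_QQ hA' hpos).comp y ha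
        refine (((hasDerivAt_id' y).const_mul d).sub (hb.sub hc)).congr_deriv ?_
        have hk := kap_pos hy
        field_simp
      refine mono_of_deriv (f' := fun y => d * (1 - (eta (Hinv (d * theta y / A)) -
        eta (Hinv (d * theta y / A'))) / kap y)) ?_ ?_ ?_
      · intro y hy
        exact (hdd y (hv0.trans_le hy)).continuousAt.continuousWithinAt
      · intro y hy
        exact hdd y (hv0.trans hy)
      · intro y hy
        have hk := kap_pos (hv0.trans hy)
        have := hw y (hv0.trans hy) hy.le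
        have h3 : (eta (Hinv (d * theta y / A)) - eta (Hinv (d * theta y / A'))) / kap y ≤ 1 := by
          rw [div_le_one hk]
          exact this
        have h4 := sub_nonneg.2 h3
        positivity
    have h3 := hΨ (mem_Ici.2 le_rfl) (mem_Ici.2 hvx.le) hvx.le
    simp only at h3
    rw [hτx] at h3
    linarith

lemma JJ_symm (s t : ℝ) : JJ s t = JJ t s := by unfold JJ; ring

lemma JJ_self (s : ℝ) : JJ s s = 0 := by unfold JJ; ring

lemma ent_pos {s : ℝ} (hs : s ∈ Ioo (-1 : ℝ) 1) : 0 < ent s := by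
  rw [← tanh_ath hs, ent_tanh]
  exact HH_pos _

lemma avg_pos {ι : Type*} [Fintype ι] [Nonempty ι] {f : ι → ℝ} (h : ∀ i, 0 < f i) :
    0 < avg f := by
  unfold avg
  have hc : (0 : ℝ) < Fintype.card ι := by exact_mod_cast Fintype.card_pos
  have : 0 < ∑ i, f i := Finset.sum_pos (fun i _ => h i) Finset.univ_nonempty
  positivity

lemma twoHalf_lt (hBd : BdStmt) (hW : WindowStmt) {ι : Type*} [Fintype ι] [Nonempty ι]
    (s t : ι → ℝ) (hs : ∀ i, s i ∈ Ioo (-1 : ℝ) 1) (ht : ∀ i, t i ∈ Ioo (-1 : ℝ) 1)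
    (hst : avg s < avg t) {u : ℝ} (hu : 0 ≤ u) :
    ∃ u', 0 ≤ u' ∧
      Phi (avg s) + Phi (avg t) - 2 * Phi ((avg s + avg t) / 2)
        + qq u * aa ((avg s + avg t) / 2) - qq u' * ((aa (avg s) + aa (avg t)) / 2)
        - (eta u - eta u') * ((avg (fun i => ent (s i)) + avg (fun i => ent (t i))) / 2)
      ≤ avg fun i => JJ (s i) (t i) := by
  have hs' := avg_mem hs
  have ht' := avg_mem ht
  have hA' : 0 < (aa (avg s) + aa (avg t)) / 2 := by linarith [aa_pos hs', aa_pos ht']
  have hAA := aa_concave hs' ht'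
  set A := aa ((avg s + avg t) / 2) with hAdef
  set A' := (aa (avg s) + aa (avg t)) / 2 with hA'def
  have hA : 0 < A := hA'.trans_le hAA
  set τ := (avg (fun i => ent (s i)) + avg (fun i => ent (t i))) / 2 with hτdef
  have hτ : 0 < τ := by
    have h1 := avg_pos fun i => ent_pos (hs i)
    have h2 := avg_pos fun i => ent_pos (ht i)
    rw [hτdef]
    linarith
  have hE1 := JJ_jensen s t hs ht
  have hE2 : ∀ x, 0 < x → gam x * ((avg t - avg s) / 2) - kap x * τ ≤
      avg fun i => JJ (s i) (t i) := by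
    intro x hx
    have h1 := avg_mono fun i => JJ_ge (hs i) (ht i) hx
    have h2 : avg (fun i => gam x * ((t i - s i) / 2) - kap x * ((ent (s i) + ent (t i)) / 2)) =
        gam x * ((avg t - avg s) / 2) - kap x * τ := by
      have e1 : (fun i => gam x * ((t i - s i) / 2) - kap x * ((ent (s i) + ent (t i)) / 2)) =
          fun i => (gam x / 2) * (t i - s i) - (kap x / 2) * (ent (s i) + ent (t i)) := by
        funext i; ring
      rw [e1, avg_sub, avg_mul_left, avg_mul_left, avg_sub, avg_add, hτdef]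
      ring
    rw [h2] at h1
    exact h1
  have h1 := core hBd hW hs' ht' hst hτ hE1 hE2
  refine ⟨Hinv (τ / A'), Hinv_nonneg _, ?_⟩
  have h2 : QQ A' τ = qq (Hinv (τ / A')) * A' - eta (Hinv (τ / A')) * τ := by
    unfold QQ
    rw [NN_eq' (div_pos hτ hA')]
    field_simp
  have h3 : qq u * A - eta u * τ ≤ QQ A τ := by
    have h4 := mul_le_mul_of_nonneg_left (plane_le_NN hu (div_pos hτ hA)) hA.le
    unfold QQ
    have h5 : A * (qq u - eta u * (τ / A)) = qq u * A - eta u * τ := by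
      field_simp
    rw [h5] at h4
    exact h4
  rw [← hAdef, ← hA'def, h2] at h1
  linarith

end TwoHalfAux

open TwoHalfAux in
theorem twoHalf_of (hBd : BdStmt) (hW : WindowStmt) {ι : Type*} [Fintype ι] [Nonempty ι]
    (s t : ι → ℝ) (hs : ∀ i, s i ∈ Ioo (-1 : ℝ) 1) (ht : ∀ i, t i ∈ Ioo (-1 : ℝ) 1)
    {u : ℝ} (hu : 0 ≤ u) :
    ∃ u', 0 ≤ u' ∧
      Phi (avg s) + Phi (avg t) - 2 * Phi ((avg s + avg t) / 2)
        + qq u * aa ((avg s + avg t) / 2) - qq u' * ((aa (avg s) + aa (avg t)) / 2)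
        - (eta u - eta u') * ((avg (fun i => ent (s i)) + avg (fun i => ent (t i))) / 2)
      ≤ avg fun i => JJ (s i) (t i) := by
  rcases lt_trichotomy (avg s) (avg t) with h | h | h
  · exact twoHalf_lt hBd hW s t hs ht h hu
  · refine ⟨u, hu, ?_⟩
    have h1 := JJ_jensen s t hs ht
    rw [← h, JJ_self] at h1
    rw [← h]
    have e : (avg s + avg s) / 2 = avg s := by ring
    have e' : (aa (avg s) + aa (avg s)) / 2 = aa (avg s) := by ring
    rw [e, e']
    linarith
  · obtain ⟨u', hu', h1⟩ := twoHalf_lt hBd hW t s ht hs h hu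
    refine ⟨u', hu', ?_⟩
    have e : (fun i => JJ (t i) (s i)) = fun i => JJ (s i) (t i) := by
      funext i; exact JJ_symm _ _
    rw [e, add_comm (avg t) (avg s), add_comm (aa (avg t)) (aa (avg s)),
      add_comm (avg fun i => ent (t i)) (avg fun i => ent (s i)),
      add_comm (Phi (avg t)) (Phi (avg s))] at h1
    exact h1

end Vale.Agent.P322
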