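import Vale.Agent.P322.BEMain
import Vale.Agent.P322.Bd
import Vale.Agent.P322.M
import Vale.Agent.P322.TwoHalfCore

/-! Assembly: (BE), the boundary inequality and the two-half inequality. -/

open Real Set

namespace Vale.Agent.P322

theorem bdElemStmt : BdElemStmt := fun _z _ω hz0 hz1 hω0 hω1 b b' L m M hL hM hm hb hb' hb1 =>
  BE.BdElem hz0 hz1 hω0 hω1 b b' L m M hL hM hm hb hb' hb1

/-- the boundary inequality -/
theorem Bd {s t : ℝ} (hs : s ∈ Ioo (-1 : ℝ) 1) (ht : t ∈ Ioo (-1 : ℝ) 1) (hst : s < t) :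
    QQ (aa ((s + t) / 2)) ((t - s) / 2 * theta ((ath t - ath s) / 2))
      - QQ ((aa s + aa t) / 2) ((t - s) / 2 * theta ((ath t - ath s) / 2))
    ≤ JJ s t - (Phi s + Phi t - 2 * Phi ((s + t) / 2)) :=
  Bd_of bdElemStmt hs ht hst

/-- the two-half inequality -/
theorem twoHalf {ι : Type*} [Fintype ι] [Nonempty ι] (s t : ι → ℝ)
    (hs : ∀ i, s i ∈ Ioo (-1 : ℝ) 1) (ht : ∀ i, t i ∈ Ioo (-1 : ℝ) 1) {u : ℝ} (hu : 0 ≤ u) :
    ∃ u', 0 ≤ u' ∧
      Phi (avg s) + Phi (avg t) - 2 * Phi ((avg s + avg t) / 2)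
        + qq u * aa ((avg s + avg t) / 2) - qq u' * ((aa (avg s) + aa (avg t)) / 2)
        - (eta u - eta u') * ((avg (fun i => ent (s i)) + avg (fun i => ent (t i))) / 2)
      ≤ avg fun i => JJ (s i) (t i) :=
  twoHalf_of (fun _ _ hs ht hst => Bd hs ht hst)
    (fun _ _ _ h0 hx h1 h2 hv => window h0 hx h1 h2 hv) s t hs ht hu

end Vale.Agent.P322
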