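import Vale.Agent.P322.Defs
import Vale.Agent.P322.ExpPoly
import Vale.Agent.P322.HBasic

/-!
# The comparison function `ζ`
-/

open Real Set Filter Topology

namespace Vale.Agent.P322

namespace ZetaAux

/-- `q ≤ ln cosh` -/
lemma qq_le_log_cosh {u : ℝ} (hu : 0 < u) : qq u ≤ log (cosh u) := by
  have h := HS_le hu
  have hu' : u ≠ 0 := hu.ne'
  unfold qq G2 eta
  rw [if_neg hu']
  have h2 : HH u = log 2 + log (cosh u) - u * tanh u := by
    unfold HH
    rw [Real.log_mul (by norm_num) (cosh_pos u).ne']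
  have h3 : HH u * (sinh (2 * u) / (2 * u) - 1) = HH u * (sinh (2 * u) / (2 * u)) - HH u := by ring
  rw [h3]
  linarith

lemma sinh_sq_bound {u : ℝ} (hu : 0 ≤ u) : 15 * u ^ 2 ≤ sinh u ^ 2 * (15 - 5 * u ^ 2 + u ^ 4) := by
  have h := CS.nonneg_of_check 6 [⟨2, [15, 0, -5, 0, 1], []⟩, ⟨0, [-15, 0, -25, 0, -1], []⟩]
    (by decide) hu
  simp [CS.val, CS.Blk.val, CS.pv] at h
  have h2 := CS.cosh_two u
  have h3 := Real.cosh_sq u
  rw [h2, h3] at h
  nlinarith

lemma tanh_bound {u : ℝ} (hu : 0 ≤ u) : 15 * sinh u ≤ cosh u * (15 * u - 5 * u ^ 3 + 2 * u ^ 5) := by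
  have h := CS.nonneg_of_check 7 [⟨1, [0, 15, 0, -5, 0, 2], [-15]⟩] (by decide) hu
  simp [CS.val, CS.Blk.val, CS.pv] at h
  nlinarith

lemma coth_bound {u : ℝ} (hu : 0 ≤ u) : 3 * u * cosh u ≤ sinh u * (3 + u ^ 2) := by
  have h := CS.nonneg_of_check 3 [⟨1, [0, -3], [3, 0, 1]⟩] (by decide) hu
  simp [CS.val, CS.Blk.val, CS.pv] at h
  nlinarith

lemma log_cosh_bound {u : ℝ} (hu : 0 ≤ u) : log (cosh u) ≤ u ^ 2 / 2 - u ^ 4 / 12 + u ^ 6 / 45 := by
  have hd : ∀ x : ℝ, HasDerivAt (fun x => x ^ 2 / 2 - x ^ 4 / 12 + x ^ 6 / 45 - log (cosh x))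
      (x - x ^ 3 / 3 + 2 * x ^ 5 / 15 - sinh x / cosh x) x := by
    intro x
    have h1 : HasDerivAt (fun x => log (cosh x)) (sinh x / cosh x) x :=
      (Real.hasDerivAt_cosh x).log (cosh_pos x).ne'
    have h2 : HasDerivAt (fun x : ℝ => x ^ 2 / 2 - x ^ 4 / 12 + x ^ 6 / 45)
        (((2 : ℕ) : ℝ) * x ^ 1 / 2 - ((4 : ℕ) : ℝ) * x ^ 3 / 12 + ((6 : ℕ) : ℝ) * x ^ 5 / 45) x :=
      (((hasDerivAt_pow 2 x).div_const 2).sub ((hasDerivAt_pow 4 x).div_const 12)).add
        ((hasDerivAt_pow 6 x).div_const 45)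
    refine (h2.sub h1).congr_deriv ?_
    push_cast
    ring
  have hmono : MonotoneOn (fun x => x ^ 2 / 2 - x ^ 4 / 12 + x ^ 6 / 45 - log (cosh x))
      (Ici 0) := by
    apply monotoneOn_of_deriv_nonneg (convex_Ici 0)
    · exact fun x _ => (hd x).continuousAt.continuousWithinAt
    · exact fun x _ => (hd x).differentiableAt.differentiableWithinAt
    · intro x hx
      rw [interior_Ici] at hx
      rw [(hd x).deriv]
      have h := tanh_bound (le_of_lt hx)
      have hc := cosh_pos x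
      have h2 : sinh x / cosh x ≤ x - x ^ 3 / 3 + 2 * x ^ 5 / 15 := by
        rw [div_le_iff₀ hc]; linarith
      linarith
  have := hmono (Set.mem_Ici.2 le_rfl) (Set.mem_Ici.2 hu) hu
  simp at this
  linarith

/-- `p(u)` -/
noncomputable def pp (u : ℝ) : ℝ :=
  (u ^ 3)⁻¹ + 4 / 15 * u⁻¹ - 7 / 30 * u + u ^ 3 / 10 - 7 / 450 * u ^ 5 + 2 / 1125 * u ^ 7

/-- its antiderivative -/
noncomputable def PA (u : ℝ) : ℝ :=
  -(u ^ 2)⁻¹ / 2 + 4 / 15 * log u - 7 / 60 * u ^ 2 + u ^ 4 / 40 - 7 / 2700 * u ^ 6 + u ^ 8 / 4500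

lemma hasDerivAt_PA {u : ℝ} (hu : 0 < u) : HasDerivAt PA (pp u) u := by
  have h1 : HasDerivAt (fun x : ℝ => (x ^ 2)⁻¹) (-(((2 : ℕ) : ℝ) * u ^ 1) / (u ^ 2) ^ 2) u :=
    (hasDerivAt_pow 2 u).inv (by positivity)
  have h2 := Real.hasDerivAt_log hu.ne'
  have h3 : HasDerivAt PA (-(-(((2 : ℕ) : ℝ) * u ^ 1) / (u ^ 2) ^ 2) / 2 + 4 / 15 * u⁻¹ -
      7 / 60 * (((2 : ℕ) : ℝ) * u ^ 1) + ((4 : ℕ) : ℝ) * u ^ 3 / 40 -
      7 / 2700 * (((6 : ℕ) : ℝ) * u ^ 5) + ((8 : ℕ) : ℝ) * u ^ 7 / 4500) u :=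
    (((((h1.neg.div_const 2).add (h2.const_mul (4 / 15))).sub
      ((hasDerivAt_pow 2 u).const_mul (7 / 60))).add ((hasDerivAt_pow 4 u).div_const 40)).sub
      ((hasDerivAt_pow 6 u).const_mul (7 / 2700))).add ((hasDerivAt_pow 8 u).div_const 4500)
  refine h3.congr_deriv ?_
  unfold pp
  push_cast
  field_simp
  ring

lemma pp_eq {u : ℝ} (hu : 0 < u) : pp u = (1 + 6 / 5 * (u ^ 2 / 2 - u ^ 4 / 12 + u ^ 6 / 45)) *
    ((15 - 5 * u ^ 2 + u ^ 4) / (15 * u ^ 3)) := by
  unfold pp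
  field_simp
  ring

/-- the main part -/
noncomputable def AA (u : ℝ) : ℝ := cosh u / (2 * u * sinh u)

lemma hasDerivAt_AA {u : ℝ} (hu : 0 < u) :
    HasDerivAt AA (-(u + sinh u * cosh u) / (2 * u ^ 2 * sinh u ^ 2)) u := by
  have hs : 0 < sinh u := sinh_pos_iff.2 hu
  have h1 : HasDerivAt (fun x : ℝ => 2 * x * sinh x) (2 * 1 * sinh u + 2 * u * cosh u) u :=
    ((hasDerivAt_id u).const_mul 2).mul (Real.hasDerivAt_sinh u)
  have h2 : HasDerivAt AA ((sinh u * (2 * u * sinh u) - cosh u * (2 * 1 * sinh u + 2 * u * cosh u)) /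
      (2 * u * sinh u) ^ 2) u := (Real.hasDerivAt_cosh u).div h1 (by positivity)
  refine h2.congr_deriv ?_
  have h3 := Real.cosh_sq u
  field_simp
  linear_combination (-u) * h3

/-- the tail part -/
noncomputable def KK (u : ℝ) : ℝ := exp (-u) * (6 / 5 + 231 / 1000 / u) / sinh u

lemma hasDerivAt_KK {u : ℝ} (hu : 0 < u) :
    HasDerivAt KK (-((6 / 5 + 231 / 1000 / u) / sinh u ^ 2 +
      231 / 1000 / u ^ 2 * (exp (-u) / sinh u))) u := by
  have hs : 0 < sinh u := sinh_pos_iff.2 hu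
  have he : HasDerivAt (fun x : ℝ => exp (-x)) (-exp (-u)) u := by
    have := (hasDerivAt_id u).neg.exp
    simpa using this
  have hg : HasDerivAt (fun x : ℝ => 6 / 5 + 231 / 1000 / x) (231 / 1000 * (-(u ^ 2)⁻¹)) u := by
    have := ((hasDerivAt_inv hu.ne').const_mul (231 / 1000 : ℝ)).const_add (6 / 5 : ℝ)
    refine this.congr_of_eventuallyEq (Eventually.of_forall fun x => ?_)
    simp [div_eq_mul_inv]
  have h2 : HasDerivAt KK (((-exp (-u) * (6 / 5 + 231 / 1000 / u) +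
      exp (-u) * (231 / 1000 * (-(u ^ 2)⁻¹))) * sinh u -
      exp (-u) * (6 / 5 + 231 / 1000 / u) * cosh u) / sinh u ^ 2) u :=
    (he.mul hg).div (Real.hasDerivAt_sinh u) hs.ne'
  refine h2.congr_deriv ?_
  have h3 : cosh u + sinh u = exp u := Real.cosh_add_sinh u
  have h4 : exp (-u) * exp u = 1 := by rw [← exp_add]; simp
  have h5 : exp (-u) * (cosh u + sinh u) = 1 := by rw [h3, h4]
  field_simp
  linear_combination (-(u * (u * 6 * 1000 + 5 * 231))) * h5

/-- the comparison function -/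
noncomputable def zeta (u : ℝ) : ℝ :=
  AA u - (if u ≤ 1 then KK 1 + PA 1 - PA u else KK u)

/-- its right derivative -/
noncomputable def zeta' (u : ℝ) : ℝ :=
  -(u + sinh u * cosh u) / (2 * u ^ 2 * sinh u ^ 2) + (if u < 1 then pp u else
    (6 / 5 + 231 / 1000 / u) / sinh u ^ 2 + 231 / 1000 / u ^ 2 * (exp (-u) / sinh u))

lemma continuousAt_zeta {u : ℝ} (hu : 0 < u) : ContinuousAt zeta u := by
  unfold zeta
  refine (hasDerivAt_AA hu).continuousAt.sub ?_
  rcases lt_trichotomy u 1 with h | h | h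
  · have h1 : ContinuousAt (fun u => KK 1 + PA 1 - PA u) u :=
      continuousAt_const.sub (hasDerivAt_PA hu).continuousAt
    refine h1.congr ?_
    filter_upwards [gt_mem_nhds h] with x hx
    rw [if_pos hx.le]
  · subst h
    have h1 : ContinuousAt (fun u => KK 1 + PA 1 - PA u) 1 :=
      continuousAt_const.sub (hasDerivAt_PA hu).continuousAt
    have h2 : ContinuousAt KK 1 := (hasDerivAt_KK hu).continuousAt
    rw [continuousAt_iff_continuous_left_right]
    constructor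
    · refine h1.continuousWithinAt.congr (fun x hx => ?_) ?_
      · rw [if_pos (Set.mem_Iic.1 hx)]
      · rw [if_pos le_rfl]
    · refine h2.continuousWithinAt.congr (fun x hx => ?_) ?_
      · rcases (Set.mem_Ici.1 hx).eq_or_lt with h | h
        · rw [← h, if_pos le_rfl]; ring
        · rw [if_neg (not_le.2 h)]
      · rw [if_pos le_rfl]; ring
  · refine (hasDerivAt_KK hu).continuousAt.congr ?_
    filter_upwards [lt_mem_nhds h] with x hx
    rw [if_neg (not_le.2 hx)]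

lemma hasDerivWithinAt_zeta {u : ℝ} (hu : 0 < u) : HasDerivWithinAt zeta (zeta' u) (Ici u) u := by
  unfold zeta zeta'
  rcases lt_or_ge u 1 with h | h
  · rw [if_pos h]
    have h1 : HasDerivAt (fun u => KK 1 + PA 1 - PA u) (-pp u) u :=
      (hasDerivAt_PA hu).const_sub _
    have h2 := ((hasDerivAt_AA hu).sub h1).congr_deriv
      (show _ = -(u + sinh u * cosh u) / (2 * u ^ 2 * sinh u ^ 2) + pp u by ring)
    refine (h2.congr_of_eventuallyEq ?_).hasDerivWithinAt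
    filter_upwards [gt_mem_nhds h] with x hx
    simp only [Pi.sub_apply]
    rw [if_pos hx.le]
  · rw [if_neg (not_lt.2 h)]
    have h2 := ((hasDerivAt_AA hu).sub (hasDerivAt_KK hu)).congr_deriv
      (show _ = -(u + sinh u * cosh u) / (2 * u ^ 2 * sinh u ^ 2) +
        ((6 / 5 + 231 / 1000 / u) / sinh u ^ 2 + 231 / 1000 / u ^ 2 * (exp (-u) / sinh u)) by ring)
    refine h2.hasDerivWithinAt.congr (fun x hx => ?_) ?_
    · simp only [Pi.sub_apply]
      rcases (h.trans (Set.mem_Ici.1 hx)).eq_or_lt with h3 | h3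
      · rw [← h3, if_pos le_rfl]; ring
      · rw [if_neg (not_le.2 h3)]
    · simp only [Pi.sub_apply]
      rcases h.eq_or_lt with h3 | h3
      · rw [← h3, if_pos le_rfl]; ring
      · rw [if_neg (not_le.2 h3)]

/-- the integrand in terms of the derivative of the main part -/
lemma integrand_eq {u : ℝ} (hu : 0 < u) : (6 / 5 * qq u - eta u / 2) / (u * sinh u ^ 2) =
    -(u + sinh u * cosh u) / (2 * u ^ 2 * sinh u ^ 2) + (1 + 6 / 5 * qq u) / (u * sinh u ^ 2) := by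
  have hs : 0 < sinh u := sinh_pos_iff.2 hu
  unfold eta
  rw [if_neg hu.ne', sinh_two_mul]
  field_simp
  ring

lemma small_bound {u : ℝ} (hu : 0 < u) (h1 : u ≤ 1) :
    (1 + 6 / 5 * qq u) / (u * sinh u ^ 2) ≤ pp u := by
  have hs : 0 < sinh u := sinh_pos_iff.2 hu
  have h2 : qq u ≤ u ^ 2 / 2 - u ^ 4 / 12 + u ^ 6 / 45 :=
    (qq_le_log_cosh hu).trans (log_cosh_bound hu.le)
  have h3 := sinh_sq_bound hu.le
  rw [pp_eq hu]
  have h4 : 0 < 15 - 5 * u ^ 2 + u ^ 4 := by nlinarith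
  have h5 : 1 / (u * sinh u ^ 2) ≤ (15 - 5 * u ^ 2 + u ^ 4) / (15 * u ^ 3) := by
    rw [div_le_div_iff₀ (by positivity) (by positivity)]
    nlinarith [mul_le_mul_of_nonneg_left h3 hu.le]
  have h6 : 0 ≤ 1 + 6 / 5 * (u ^ 2 / 2 - u ^ 4 / 12 + u ^ 6 / 45) := by
    have : 0 ≤ u ^ 6 := by positivity
    nlinarith [mul_nonneg hu.le hu.le, pow_le_one₀ hu.le h1 (n := 2), sq_nonneg u]
  calc (1 + 6 / 5 * qq u) / (u * sinh u ^ 2) = (1 + 6 / 5 * qq u) * (1 / (u * sinh u ^ 2)) := by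
        ring
    _ ≤ (1 + 6 / 5 * (u ^ 2 / 2 - u ^ 4 / 12 + u ^ 6 / 45)) * (1 / (u * sinh u ^ 2)) :=
        mul_le_mul_of_nonneg_right (by linarith) (by positivity)
    _ ≤ _ := mul_le_mul_of_nonneg_left h5 h6

lemma exp_neg_two_bounds : (0.135335 : ℝ) < exp (-2) ∧ exp (-2) < 0.135336 := by
  have h1 := Real.exp_one_gt_d9
  have h2 := Real.exp_one_lt_d9
  have e : exp (-2) = 1 / (exp 1 * exp 1) := by
    rw [← exp_add, one_div, ← exp_neg]; norm_num
  rw [e]
  have h0 : 0 < exp 1 := exp_pos 1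
  constructor
  · rw [lt_div_iff₀ (by positivity)]; nlinarith
  · rw [div_lt_iff₀ (by positivity)]; nlinarith

lemma large_bound {u : ℝ} (h1 : 1 ≤ u) :
    (1 + 6 / 5 * qq u) / (u * sinh u ^ 2) ≤
      (6 / 5 + 231 / 1000 / u) / sinh u ^ 2 + 231 / 1000 / u ^ 2 * (exp (-u) / sinh u) := by
  have hu : 0 < u := by linarith
  have hs : 0 < sinh u := sinh_pos_iff.2 hu
  have hq := qq_le_log_cosh hu
  -- log cosh u ≤ u - log 2 + exp (-2u)
  have hlog : log (cosh u) ≤ u - log 2 + exp (-2 * u) := by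
    have e1 : cosh u = exp u * ((1 + exp (-2 * u)) / 2) := by
      rw [Real.cosh_eq]
      have : exp (-u) = exp u * exp (-2 * u) := by rw [← exp_add]; congr 1; ring
      rw [this]; ring
    rw [e1, Real.log_mul (exp_pos u).ne' (by positivity), Real.log_exp,
      Real.log_div (by positivity) (by norm_num)]
    have := Real.log_le_sub_one_of_pos (show 0 < 1 + exp (-2 * u) by positivity)
    linarith
  have hl2 := Real.log_two_gt_d9
  obtain ⟨he1, he2⟩ := exp_neg_two_bounds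
  -- exp (-2u) ≤ exp (-2) / (2u - 1)
  have hx : exp (-2 * u) * (2 * u - 1) ≤ exp (-2) := by
    have e1 : exp (-2) = exp (-2 * u) * exp (2 * u - 2) := by rw [← exp_add]; congr 1; ring
    rw [e1]
    refine mul_le_mul_of_nonneg_left ?_ (exp_pos _).le
    have := Real.add_one_le_exp (2 * u - 2)
    linarith
  set x := exp (-2 * u) with hxdef
  have hx0 : 0 < x := exp_pos _
  have hx1 : x ≤ exp (-2) := by
    have : x ≤ x * (2 * u - 1) := by nlinarith
    linarith
  have hes : exp (-u) * sinh u = (1 - x) / 2 := by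
    rw [Real.sinh_eq, hxdef]
    have e1 : exp (-u) * exp u = 1 := by rw [← exp_add]; simp
    have e2 : exp (-u) * exp (-u) = exp (-2 * u) := by rw [← exp_add]; congr 1; ring
    have : exp (-u) * ((exp u - exp (-u)) / 2) = (exp (-u) * exp u - exp (-u) * exp (-u)) / 2 := by
      ring
    rw [this, e1, e2]
  have hmain : 1 + 6 / 5 * qq u ≤ 6 / 5 * u + 231 / 1000 + 231 / 1000 * ((1 - x) / (2 * u)) := by
    have h3 : 1 + 6 / 5 * qq u ≤ 1 + 6 / 5 * (u - log 2 + x) := by linarith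
    refine h3.trans ?_
    have hgoal : 1 - 6 / 5 * log 2 - 231 / 1000 + 6 / 5 * x ≤ 231 / 1000 * ((1 - x) / (2 * u)) := by
      have h4 : (1 - 6 / 5 * log 2 - 231 / 1000 + 6 / 5 * x) * (2 * u) ≤ 231 / 1000 * (1 - x) := by
        have h5 : 1 - 6 / 5 * log 2 - 231 / 1000 ≤ -0.0627766 := by linarith
        have h6 : x * (2 * u) ≤ 0.13534 + x := by nlinarith
        nlinarith
      rw [← mul_div_assoc, le_div_iff₀ (by positivity)]
      exact h4
    linarith
  have hR : (6 / 5 + 231 / 1000 / u) / sinh u ^ 2 + 231 / 1000 / u ^ 2 * (exp (-u) / sinh u) =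
      (6 / 5 * u + 231 / 1000 + 231 / 1000 * ((exp (-u) * sinh u) / u)) / (u * sinh u ^ 2) := by
    field_simp
  rw [hR, hes]
  refine div_le_div_of_nonneg_right (hmain.trans (le_of_eq ?_)) (by positivity)
  congr 2
  rw [div_div]

lemma zeta'_ge {u : ℝ} (hu : 0 < u) :
    (6 / 5 * qq u - eta u / 2) / (u * sinh u ^ 2) ≤ zeta' u := by
  rw [integrand_eq hu]
  unfold zeta'
  split_ifs with h
  · have := small_bound hu h.le
    linarith
  · have := large_bound (not_lt.1 h)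
    linarith

lemma zeta_nonneg_large {u : ℝ} (h1 : 1 ≤ u) : KK u ≤ AA u := by
  have hu : 0 < u := by linarith
  have hs : 0 < sinh u := sinh_pos_iff.2 hu
  unfold KK AA
  rw [div_le_div_iff₀ hs (by positivity)]
  have h2 : exp (-u) * (6 / 5 + 231 / 1000 / u) * (2 * u) ≤ cosh u := by
    have e1 : exp (-u) * (6 / 5 + 231 / 1000 / u) * (2 * u) = exp (-u) * (12 / 5 * u + 231 / 500) := by
      field_simp
      ring
    have e2 : cosh u = exp (-u) * ((exp (2 * u) + 1) / 2) := by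
      rw [Real.cosh_eq]
      have : exp u = exp (-u) * exp (2 * u) := by rw [← exp_add]; congr 1; ring
      rw [this]; ring
    rw [e1, e2]
    refine mul_le_mul_of_nonneg_left ?_ (exp_pos _).le
    have h3 : exp (2 * u) = exp 2 * exp (2 * u - 2) := by rw [← exp_add]; congr 1; ring
    have h4 := Real.add_one_le_exp (2 * u - 2)
    have h5 : (7.38 : ℝ) ≤ exp 2 := by
      have := Real.exp_one_gt_d9
      have e : exp 2 = exp 1 * exp 1 := by rw [← exp_add]; norm_num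
      rw [e]; nlinarith
    have h6 : 0 < exp 2 := exp_pos 2
    rw [h3]
    nlinarith
  nlinarith [mul_le_mul_of_nonneg_right h2 hs.le]

lemma AA_PA_mono : MonotoneOn (fun u => AA u + PA u) (Icc (1 / 3) 1) := by
  have hd : ∀ x : ℝ, 0 < x → HasDerivAt (fun u => AA u + PA u)
      (-(x + sinh x * cosh x) / (2 * x ^ 2 * sinh x ^ 2) + pp x) x :=
    fun x hx => (hasDerivAt_AA hx).add (hasDerivAt_PA hx)
  apply monotoneOn_of_deriv_nonneg (convex_Icc _ _)
  · exact fun x hx => (hd x (by linarith [hx.1])).continuousAt.continuousWithinAt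
  · rw [interior_Icc]
    exact fun x hx => (hd x (by linarith [hx.1])).differentiableAt.differentiableWithinAt
  · intro x hx
    rw [interior_Icc] at hx
    have hx0 : 0 < x := by linarith [hx.1]
    have hx1 : x < 1 := hx.2
    rw [(hd x hx0).deriv]
    have hs : 0 < sinh x := sinh_pos_iff.2 hx0
    have h1 := coth_bound hx0.le
    have h2 := sinh_sq_bound hx0.le
    -- (x + sinh cosh) / (2x² sinh²) ≤ 1/x³ + x/30
    have h3 : (x + sinh x * cosh x) / (2 * x ^ 2 * sinh x ^ 2) ≤ (x ^ 3)⁻¹ + x / 30 := by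
      have e1 : (x + sinh x * cosh x) / (2 * x ^ 2 * sinh x ^ 2) =
          1 / (2 * x * sinh x ^ 2) + cosh x / (2 * x ^ 2 * sinh x) := by
        field_simp
      have e2 : 1 / (2 * x * sinh x ^ 2) ≤ (15 - 5 * x ^ 2 + x ^ 4) / (30 * x ^ 3) := by
        rw [div_le_div_iff₀ (by positivity) (by positivity)]
        nlinarith [mul_le_mul_of_nonneg_left h2 hx0.le]
      have e3 : cosh x / (2 * x ^ 2 * sinh x) ≤ (3 + x ^ 2) / (6 * x ^ 3) := by
        rw [div_le_div_iff₀ (by positivity) (by positivity)]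
        nlinarith [mul_le_mul_of_nonneg_left h1 (show 0 ≤ 2 * x ^ 2 by positivity)]
      have e4 : (15 - 5 * x ^ 2 + x ^ 4) / (30 * x ^ 3) + (3 + x ^ 2) / (6 * x ^ 3) =
          (x ^ 3)⁻¹ + x / 30 := by
        field_simp
        ring
      rw [e1, ← e4]
      exact add_le_add e2 e3
    have h4 : x / 30 ≤ 4 / 15 * x⁻¹ - 7 / 30 * x := by
      have : x⁻¹ ≥ x := by
        rw [ge_iff_le, le_inv_comm₀ hx0 hx0]
        have : 1 ≤ x⁻¹ := (one_le_inv₀ hx0).2 hx1.le
        linarith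
      linarith
    have h5 : 0 ≤ x ^ 3 / 10 - 7 / 450 * x ^ 5 + 2 / 1125 * x ^ 7 := by
      have e1 : x ^ 5 ≤ x ^ 3 := pow_le_pow_of_le_one hx0.le hx1.le (by norm_num)
      have e2 : 0 ≤ x ^ 7 := by positivity
      have e3 : 0 ≤ x ^ 3 := by positivity
      linarith
    unfold pp
    rw [neg_div]
    linarith

lemma log_three_le : log 3 ≤ 27 / 17 * log 2 := by
  have h : (17 : ℝ) * log 3 ≤ 27 * log 2 := by
    have h1 : (17 : ℝ) * log 3 = log (3 ^ 17) := by rw [Real.log_pow]; norm_num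
    have h2 : (27 : ℝ) * log 2 = log (2 ^ 27) := by rw [Real.log_pow]; norm_num
    rw [h1, h2]
    exact Real.log_le_log (by norm_num) (by norm_num)
  linarith

lemma coth_third : (3.11 : ℝ) * sinh (1 / 3) ≤ cosh (1 / 3) := by
  have h := CS.nonneg_of_check 7 [⟨1, [0, 45], [-45, 0, -15, 0, 1]⟩] (by decide)
    (show (0 : ℝ) ≤ 1 / 3 by norm_num)
  simp [CS.val, CS.Blk.val, CS.pv] at h
  have hs : 0 < sinh (1 / 3 : ℝ) := sinh_pos_iff.2 (by norm_num)
  have e : (3 : ℝ)⁻¹ = 1 / 3 := by norm_num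
  rw [e] at h
  nlinarith

lemma zeta_third : KK 1 + PA 1 - PA (1 / 3) ≤ AA (1 / 3) := by
  have h1 := coth_third
  have hs : 0 < sinh (1 / 3 : ℝ) := sinh_pos_iff.2 (by norm_num)
  have hA : (4.665 : ℝ) ≤ AA (1 / 3) := by
    unfold AA
    rw [le_div_iff₀ (by positivity)]
    linarith
  have hK : KK 1 ≤ 0.44797 := by
    unfold KK
    have hs1 : 0 < sinh (1 : ℝ) := sinh_pos_iff.2 (by norm_num)
    rw [div_le_iff₀ hs1, Real.sinh_eq]
    obtain ⟨he1, he2⟩ := exp_neg_two_bounds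
    have e : exp 1 = exp (-1) / exp (-2) := by rw [← exp_sub]; norm_num
    have h0 : 0 < exp (-1) := exp_pos _
    have h2 : 0 < exp (-2) := exp_pos _
    have h3 : (7.389 : ℝ) * exp (-1) ≤ exp 1 := by
      rw [e, le_div_iff₀ h2]
      nlinarith
    nlinarith
  have hP : PA 1 - PA (1 / 3) ≤ 4.2123 := by
    unfold PA
    have h3 := log_three_le
    have h2 := Real.log_two_lt_d9
    have h4 : log (1 / 3 : ℝ) = -log 3 := by rw [one_div, Real.log_inv]
    rw [h4, Real.log_one]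
    norm_num
    linarith
  linarith

lemma zeta_nonneg {u : ℝ} (hu : 1 / 3 ≤ u) : 0 ≤ zeta u := by
  unfold zeta
  split_ifs with h
  · have h1 := AA_PA_mono (Set.left_mem_Icc.2 (by norm_num)) (Set.mem_Icc.2 ⟨hu, h⟩) hu
    have h2 := zeta_third
    simp only at h1
    linarith
  · have := zeta_nonneg_large (not_le.1 h).le
    linarith

lemma tendsto_zeta : Tendsto zeta atTop (𝓝 0) := by
  -- 0 ≤ zeta u ≤ AA u ≤ 1 / u
  have h1 : ∀ᶠ u in atTop, 0 ≤ zeta u := by
    filter_upwards [eventually_ge_atTop (1 / 3 : ℝ)] with u hu using zeta_nonneg hu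
  have h2 : ∀ᶠ u in atTop, zeta u ≤ 2 * u⁻¹ := by
    filter_upwards [eventually_gt_atTop (1 : ℝ)] with u hu
    have hu0 : 0 < u := by linarith
    have hs : 0 < sinh u := sinh_pos_iff.2 hu0
    unfold zeta
    rw [if_neg (not_le.2 hu)]
    have hK : 0 ≤ KK u := by unfold KK; positivity
    have hA : AA u ≤ 2 * u⁻¹ := by
      unfold AA
      rw [div_le_iff₀ (by positivity)]
      have e1 : 2 * u⁻¹ * (2 * u * sinh u) = 4 * sinh u := by field_simp; ring
      rw [e1]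
      have h3 : cosh u = sinh u + exp (-u) := by rw [← Real.cosh_sub_sinh]; ring
      have h4 : exp (-u) ≤ 1 := by rw [Real.exp_le_one_iff]; linarith
      have h5 : 1 ≤ sinh u := by
        have := self_le_sinh_iff.2 hu0.le
        linarith
      linarith
    linarith
  have h3 : Tendsto (fun u : ℝ => 2 * u⁻¹) atTop (𝓝 0) := by
    simpa using tendsto_inv_atTop_zero.const_mul (2 : ℝ)
  exact tendsto_of_tendsto_of_tendsto_of_le_of_le' tendsto_const_nhds h3 h1 h2

end ZetaAux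

open ZetaAux in
theorem exists_zeta : ∃ ζ ζ' : ℝ → ℝ, (∀ u, 1 / 3 ≤ u → 0 ≤ ζ u) ∧ Tendsto ζ atTop (𝓝 0) ∧
    (∀ u, 1 / 3 ≤ u → ContinuousAt ζ u) ∧
    (∀ u, 1 / 3 < u → HasDerivWithinAt ζ (ζ' u) (Ici u) u) ∧
    (∀ u, 1 / 3 < u → (6 / 5 * qq u - eta u / 2) / (u * sinh u ^ 2) ≤ ζ' u) :=
  ⟨zeta, zeta', fun _ hu => zeta_nonneg hu, tendsto_zeta,
    fun _ hu => continuousAt_zeta (by linarith), fun _ hu => hasDerivWithinAt_zeta (by linarith),
    fun _ hu => zeta'_ge (by linarith)⟩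

end Vale.Agent.P322
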