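import Vale.Agent.P322.Glue
import Vale.Agent.P322.TwoHalf
import Vale.Agent.P322.TF
import Vale.Agent.P322.Zeta

/-! The Courtade-Kumar inequality in nats. -/

namespace Vale.Agent.P322

open Real Set

theorem bellman1 {n : ℕ} (g : (Fin n → Bool) → ℝ) (hg : ∀ x, g x ∈ Ioo (-1 : ℝ) 1) {u : ℝ}
    (hu : 0 ≤ u) :
    2 * (ent (avg g) - avg (fun x => ent (g x))) + qq u * aa (avg g)
      - eta u * avg (fun x => ent (g x)) ≤ Dir g :=
  Cube.bellman1_of (fun hm hu => Glue.base1 hm hu)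
    (fun s t hs ht _ hu => twoHalf s t hs ht hu) g hg hu

theorem bellman2 {n : ℕ} (g : (Fin n → Bool) → ℝ) (hg : ∀ x, g x ∈ Ioo (-1 : ℝ) 1) {u : ℝ}
    (hu : 0 ≤ u) (hu1 : u ≤ 1 / 3) :
    (eta u + 2) * (Ent g - Phi (tanh u)) + u * tanh u ≤ Dir g :=
  Cube.bellman2_of (U := 1 / 3)
    (fun s t hs ht _ hu hu1 => Glue.twoHalf2_of (fun h0 h1 h hX hu hu1 => tf h0 h1 h hX hu hu1)
      s t hs ht hu hu1)
    (fun hu _ => Glue.base2 hu) g hg hu hu1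

/-- For every sign-valued `f` on the cube and every `ρ ∈ [0,1]`,
`E Φ(T_ρ f) - Φ(E f) ≤ Φ(ρ)`. -/
theorem main_nats {n : ℕ} (f : (Fin n → Bool) → ℝ) (hf : ∀ x, f x = 1 ∨ f x = -1) {ρ : ℝ}
    (h0 : 0 ≤ ρ) (h1 : ρ ≤ 1) : Ent (noise ρ f) ≤ Phi ρ :=
  Ode.main_of (fun g hg _ hu => bellman1 g hg hu) (fun g hg _ hu hu1 => bellman2 g hg hu hu1)
    (fun ht => EntAux.half_sq_le_Phi ht) (fun ht => EntAux.Phi_le_log_two ht)
    (fun hu => Glue.eta_nonneg hu) (fun hu => qq_nonneg hu) exists_zeta f hf h0 h1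

end Vale.Agent.P322
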