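import Vale.Agent.P322.Channel

/-! The noise semigroup: `ρ d/dρ Ent(T_ρ f) = Dir(T_ρ f)`. -/

namespace Vale.Agent.P322

open Real Set

namespace NoiseAux

theorem ker_pos {n : ℕ} {ρ : ℝ} (h0 : -1 < ρ) (h1 : ρ < 1) (x y : Fin n → Bool) :
    0 < ker ρ x y := by
  unfold ker
  refine Finset.prod_pos fun i _ => ?_
  split_ifs <;> linarith

theorem one_sub_noise {n : ℕ} (f : (Fin n → Bool) → ℝ) (ρ : ℝ) (y : Fin n → Bool) :
    1 - noise ρ f y = ∑ x, ker ρ x y * (1 - f x) := by
  have h := Channel.sum_ker ρ y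
  unfold noise
  simp only [mul_sub, mul_one, Finset.sum_sub_distrib, h]

theorem one_add_noise {n : ℕ} (f : (Fin n → Bool) → ℝ) (ρ : ℝ) (y : Fin n → Bool) :
    1 + noise ρ f y = ∑ x, ker ρ x y * (1 + f x) := by
  have h := Channel.sum_ker ρ y
  unfold noise
  simp only [mul_add, mul_one, Finset.sum_add_distrib, h]

/-- one factor of the kernel -/
noncomputable def fac {n : ℕ} (x y : Fin n → Bool) (i : Fin n) (ρ : ℝ) : ℝ :=
  if x i = y i then (1 + ρ) / 2 else (1 - ρ) / 2

theorem hasDerivAt_fac {n : ℕ} (x y : Fin n → Bool) (i : Fin n) (ρ : ℝ) :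
    HasDerivAt (fac x y i) (if x i = y i then 1 / 2 else -(1 / 2)) ρ := by
  unfold fac
  split_ifs with h
  · have := ((hasDerivAt_id ρ).const_add 1).div_const 2
    simpa using this
  · have := ((hasDerivAt_id ρ).const_sub 1).div_const 2
    simpa [neg_div] using this

theorem ker_flip {n : ℕ} (ρ : ℝ) (x y : Fin n → Bool) (i : Fin n) :
    ker ρ x y - ker ρ x (flip y i)
      = 2 * ρ * ((∏ j ∈ Finset.univ.erase i, fac x y j ρ) *
          (if x i = y i then 1 / 2 else -(1 / 2))) := by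
  have h1 : ker ρ x y = (∏ j ∈ Finset.univ.erase i, fac x y j ρ) * fac x y i ρ := by
    unfold ker fac
    rw [Finset.prod_erase_mul _ _ (Finset.mem_univ i)]
  have h2 : ker ρ x (flip y i)
      = (∏ j ∈ Finset.univ.erase i, fac x y j ρ) * fac x (flip y i) i ρ := by
    unfold ker
    rw [← Finset.prod_erase_mul _ _ (Finset.mem_univ i)]
    congr 1
    refine Finset.prod_congr rfl fun j hj => ?_
    have : flip y i j = y j := by
      unfold flip
      exact Function.update_of_ne (Finset.ne_of_mem_erase hj) _ _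
    rw [this]
    rfl
  rw [h1, h2, ← mul_sub]
  have h3 : fac x y i ρ - fac x (flip y i) i ρ
      = 2 * ρ * (if x i = y i then 1 / 2 else -(1 / 2)) := by
    unfold fac flip
    rw [Function.update_self]
    cases hx : x i <;> cases hy : y i <;> simp <;> ring
  rw [h3]
  ring

/-- derivative of the kernel in `ρ` -/
noncomputable def kerd {n : ℕ} (ρ : ℝ) (x y : Fin n → Bool) : ℝ :=
  ∑ i, (∏ j ∈ Finset.univ.erase i, fac x y j ρ) * (if x i = y i then 1 / 2 else -(1 / 2))

theorem hasDerivAt_ker {n : ℕ} (ρ : ℝ) (x y : Fin n → Bool) :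
    HasDerivAt (fun ρ => ker ρ x y) (kerd ρ x y) ρ := by
  have := HasDerivAt.fun_finset_prod (u := Finset.univ) (f := fun i => fac x y i)
    (f' := fun i => if x i = y i then 1 / 2 else -(1 / 2)) (x := ρ)
    (fun i _ => hasDerivAt_fac x y i ρ)
  simpa [kerd, ker, fac, smul_eq_mul] using this

theorem mul_kerd {n : ℕ} (ρ : ℝ) (x y : Fin n → Bool) :
    ρ * kerd ρ x y = ∑ i, (ker ρ x y - ker ρ x (flip y i)) / 2 := by
  unfold kerd
  rw [Finset.mul_sum]
  refine Finset.sum_congr rfl fun i _ => ?_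
  rw [ker_flip]
  ring

noncomputable def noised {n : ℕ} (ρ : ℝ) (f : (Fin n → Bool) → ℝ) (y : Fin n → Bool) : ℝ :=
  ∑ x, kerd ρ x y * f x

theorem hasDerivAt_noise_pt {n : ℕ} (f : (Fin n → Bool) → ℝ) (ρ : ℝ) (y : Fin n → Bool) :
    HasDerivAt (fun ρ => noise ρ f y) (noised ρ f y) ρ := by
  unfold noise noised
  exact HasDerivAt.fun_sum fun x _ => (hasDerivAt_ker ρ x y).mul_const (f x)

theorem mul_noised {n : ℕ} (f : (Fin n → Bool) → ℝ) (ρ : ℝ) (y : Fin n → Bool) :
    ρ * noised ρ f y = ∑ i, (noise ρ f y - noise ρ f (flip y i)) / 2 := by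
  unfold noised noise
  rw [Finset.mul_sum]
  have : ∀ x, ρ * (kerd ρ x y * f x)
      = ∑ i, (ker ρ x y * f x - ker ρ x (flip y i) * f x) / 2 := by
    intro x
    rw [← mul_assoc, mul_kerd, Finset.sum_mul]
    exact Finset.sum_congr rfl fun i _ => by ring
  simp only [this]
  rw [Finset.sum_comm]
  refine Finset.sum_congr rfl fun i _ => ?_
  rw [← Finset.sum_div, Finset.sum_sub_distrib]

theorem flip_flip {n : ℕ} (y : Fin n → Bool) (i : Fin n) : flip (flip y i) i = y := by
  unfold flip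
  simp

theorem hasDerivAt_Phi {t : ℝ} (h : t ∈ Ioo (-1 : ℝ) 1) : HasDerivAt Phi (ath t) t := by
  have h1 : HasDerivAt (fun t : ℝ => 1 + t) 1 t := by
    simpa using (hasDerivAt_id t).const_add 1
  have h2 : HasDerivAt (fun t : ℝ => 1 - t) (-1) t := by
    simpa using (hasDerivAt_id t).const_sub 1
  have e1 : 1 + t ≠ 0 := by linarith [h.1]
  have e2 : 1 - t ≠ 0 := by linarith [h.2]
  have h3 := (h1.mul (h1.log e1)).add (h2.mul (h2.log e2))
  have h4 := h3.div_const 2
  have h5 : HasDerivAt Phi ((1 * log (1 + t) + (1 + t) * (1 / (1 + t))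
      + (-1 * log (1 - t) + (1 - t) * (-1 / (1 - t)))) / 2) t := h4
  convert h5 using 1
  unfold ath
  field_simp
  ring

theorem Dir_eq {n : ℕ} (g : (Fin n → Bool) → ℝ) :
    Dir g = avg fun y => ath (g y) * ∑ i, (g y - g (flip y i)) / 2 := by
  unfold Dir avg
  congr 1
  simp only [Finset.mul_sum]
  rw [Finset.sum_comm, Finset.sum_comm (f := fun y i => ath (g y) * ((g y - g (flip y i)) / 2))]
  refine Finset.sum_congr rfl fun i _ => ?_
  have hinv : ∑ y, ath (g (flip y i)) * ((g (flip y i) - g y) / 2)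
      = ∑ y, ath (g y) * ((g y - g (flip y i)) / 2) := by
    let σ : (Fin n → Bool) ≃ (Fin n → Bool) :=
      { toFun := fun y => flip y i
        invFun := fun y => flip y i
        left_inv := fun y => flip_flip y i
        right_inv := fun y => flip_flip y i }
    rw [← σ.sum_comp]
    refine Finset.sum_congr rfl fun y _ => ?_
    change ath (g (flip (flip y i) i)) * ((g (flip (flip y i) i) - g (flip y i)) / 2) = _
    rw [flip_flip]
  have : ∑ y, JJ (g y) (g (flip y i))
      = (∑ y, ath (g y) * ((g y - g (flip y i)) / 2)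
          + ∑ y, ath (g (flip y i)) * ((g (flip y i) - g y) / 2)) / 2 := by
    rw [← Finset.sum_add_distrib, Finset.sum_div]
    refine Finset.sum_congr rfl fun y _ => ?_
    unfold JJ
    ring
  rw [this, hinv]
  ring

end NoiseAux

open NoiseAux

theorem noise_mem {n : ℕ} (f : (Fin n → Bool) → ℝ) (hf : ∀ x, f x = 1 ∨ f x = -1)
    (hne : ∃ x y, f x ≠ f y) {ρ : ℝ} (h0 : 0 ≤ ρ) (h1 : ρ < 1) (y : Fin n → Bool) :
    noise ρ f y ∈ Ioo (-1 : ℝ) 1 := by
  have hex : (∃ x, f x = 1) ∧ (∃ x, f x = -1) := by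
    obtain ⟨x, x', hx⟩ := hne
    rcases hf x with h | h <;> rcases hf x' with h' | h'
    · exact absurd (h.trans h'.symm) hx
    · exact ⟨⟨x, h⟩, ⟨x', h'⟩⟩
    · exact ⟨⟨x', h'⟩, ⟨x, h⟩⟩
    · exact absurd (h.trans h'.symm) hx
  obtain ⟨⟨a, ha⟩, ⟨b, hb⟩⟩ := hex
  have hk := fun x => ker_pos (by linarith : -1 < ρ) h1 x y
  constructor
  · have : 0 < 1 + noise ρ f y := by
      rw [one_add_noise]
      refine Finset.sum_pos' (fun x _ => mul_nonneg (hk x).le ?_) ⟨a, Finset.mem_univ _, ?_⟩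
      · rcases hf x with h | h <;> rw [h] <;> norm_num
      · rw [ha]; have := hk a; positivity
    linarith
  · have : 0 < 1 - noise ρ f y := by
      rw [one_sub_noise]
      refine Finset.sum_pos' (fun x _ => mul_nonneg (hk x).le ?_) ⟨b, Finset.mem_univ _, ?_⟩
      · rcases hf x with h | h <;> rw [h] <;> norm_num
      · rw [hb]; have := hk b; positivity
    linarith

theorem avg_noise {n : ℕ} (f : (Fin n → Bool) → ℝ) (ρ : ℝ) : avg (noise ρ f) = avg f := by
  unfold avg
  rw [Channel.avg_noise_aux]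

theorem hasDerivAt_noise {n : ℕ} (f : (Fin n → Bool) → ℝ) (hf : ∀ x, f x = 1 ∨ f x = -1)
    (hne : ∃ x y, f x ≠ f y) {ρ : ℝ} (h0 : 0 < ρ) (h1 : ρ < 1) :
    HasDerivAt (fun ρ => Ent (noise ρ f)) (Dir (noise ρ f) / ρ) ρ := by
  have hE : (fun ρ => Ent (noise ρ f)) = fun ρ => avg (fun y => Phi (noise ρ f y)) - Phi (avg f) := by
    funext r
    unfold Ent
    rw [avg_noise]
  rw [hE]
  have hy : ∀ y, HasDerivAt (fun ρ => Phi (noise ρ f y))
      (ath (noise ρ f y) * noised ρ f y) ρ := fun y =>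
    HasDerivAt.comp (h₂ := Phi) ρ (hasDerivAt_Phi (noise_mem f hf hne h0.le h1 y))
      (hasDerivAt_noise_pt f ρ y)
  have hs : HasDerivAt (fun ρ => avg (fun y => Phi (noise ρ f y)))
      (avg fun y => ath (noise ρ f y) * noised ρ f y) ρ := by
    unfold avg
    exact (HasDerivAt.fun_sum fun y _ => hy y).div_const _
  have hfin := hs.sub_const (Phi (avg f))
  have heq : Dir (noise ρ f) / ρ = avg fun y => ath (noise ρ f y) * noised ρ f y := by
    rw [Dir_eq]
    unfold avg
    rw [div_div, mul_comm (Fintype.card _ : ℝ) ρ, ← div_div, Finset.sum_div]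
    congr 1
    refine Finset.sum_congr rfl fun y _ => ?_
    rw [← mul_noised]
    field_simp
  rw [heq]
  exact hfin

end Vale.Agent.P322
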