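import Vale.Agent.P322.Noise

/-! Integration of the entropy production inequalities along the noise semigroup. -/

namespace Vale.Agent.P322.Ode

open Real Set Filter Topology

theorem hasDerivAt_tanh (u : ℝ) : HasDerivAt tanh (1 / cosh u ^ 2) u := by
  have h : HasDerivAt (fun x => sinh x / cosh x) _ u :=
    (Real.hasDerivAt_sinh u).div (Real.hasDerivAt_cosh u) (cosh_pos u).ne'
  have he : (fun x => sinh x / cosh x) = tanh := by funext x; rw [tanh_eq_sinh_div_cosh]
  rw [he] at h
  convert h using 1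
  have := cosh_sq_sub_sinh_sq u
  congr 1
  nlinarith

theorem tanh_mem (u : ℝ) : tanh u ∈ Ioo (-1 : ℝ) 1 := by
  have h := cosh_pos u
  rw [tanh_eq_sinh_div_cosh]
  have := cosh_sq_sub_sinh_sq u
  constructor
  · rw [lt_div_iff₀ h]; nlinarith [abs_sinh u, sinh_lt_cosh u, cosh_neg u, sinh_lt_cosh (-u),
      sinh_neg u]
  · rw [div_lt_one h]; exact sinh_lt_cosh u

theorem tanh_pos' {u : ℝ} (h : 0 < u) : 0 < tanh u := by
  rw [tanh_eq_sinh_div_cosh]; exact div_pos (sinh_pos_iff.2 h) (cosh_pos u)

theorem one_add_tanh (u : ℝ) : 1 + tanh u = exp u / cosh u := by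
  rw [tanh_eq_sinh_div_cosh, eq_div_iff (cosh_pos u).ne', add_mul,
    div_mul_cancel₀ _ (cosh_pos u).ne', one_mul, cosh_add_sinh]

theorem one_sub_tanh (u : ℝ) : 1 - tanh u = exp (-u) / cosh u := by
  rw [tanh_eq_sinh_div_cosh, eq_div_iff (cosh_pos u).ne', sub_mul,
    div_mul_cancel₀ _ (cosh_pos u).ne', one_mul, cosh_sub_sinh]

theorem ath_tanh' (u : ℝ) : ath (tanh u) = u := by
  unfold ath
  rw [one_add_tanh, one_sub_tanh, log_div (exp_pos _).ne' (cosh_pos _).ne',
    log_div (exp_pos _).ne' (cosh_pos _).ne', log_exp, log_exp]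
  ring

theorem Phi_tanh' (u : ℝ) : Phi (tanh u) = u * tanh u - log (cosh u) := by
  unfold Phi
  rw [one_add_tanh, one_sub_tanh, log_div (exp_pos _).ne' (cosh_pos _).ne',
    log_div (exp_pos _).ne' (cosh_pos _).ne', log_exp, log_exp]
  have h1 : exp u = cosh u + sinh u := (cosh_add_sinh u).symm
  have h2 : exp (-u) = cosh u - sinh u := (cosh_sub_sinh u).symm
  rw [h1, h2, tanh_eq_sinh_div_cosh]
  have := (cosh_pos u).ne'
  field_simp
  ring

/-- `X(u) = Φ(tanh u)` -/
noncomputable def X (u : ℝ) : ℝ := Phi (tanh u)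

theorem hasDerivAt_X (u : ℝ) : HasDerivAt X (u / cosh u ^ 2) u := by
  have := HasDerivAt.comp (h₂ := Phi) u (NoiseAux.hasDerivAt_Phi (tanh_mem u)) (hasDerivAt_tanh u)
  rw [ath_tanh'] at this
  have h2 : HasDerivAt X (u * (1 / cosh u ^ 2)) u := this
  convert h2 using 1
  ring

/-- `F(u) = u tanh u` -/
noncomputable def F (u : ℝ) : ℝ := u * tanh u

theorem hasDerivAt_F (u : ℝ) : HasDerivAt F (tanh u + u / cosh u ^ 2) u := by
  have := (hasDerivAt_id u).mul (hasDerivAt_tanh u)
  have h2 : HasDerivAt F (1 * tanh u + u * (1 / cosh u ^ 2)) u := this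
  convert h2 using 1
  ring

theorem F_pos {u : ℝ} (h : 0 < u) : 0 < F u := mul_pos h (tanh_pos' h)

section

variable {n : ℕ} (f : (Fin n → Bool) → ℝ)

/-- `E(u) = Ent(T_{tanh u} f)` -/
noncomputable def E (u : ℝ) : ℝ := Ent (noise (tanh u) f)

variable (hf : ∀ x, f x = 1 ∨ f x = -1) (hne : ∃ x y, f x ≠ f y)

include hf hne

theorem hasDerivAt_E {u : ℝ} (hu : 0 < u) :
    HasDerivAt (E f) (Dir (noise (tanh u) f) / (sinh u * cosh u)) u := by
  have h := HasDerivAt.comp (h₂ := fun ρ => Ent (noise ρ f)) u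
    (hasDerivAt_noise f hf hne (tanh_pos' hu) (tanh_mem u).2) (hasDerivAt_tanh u)
  have h' : HasDerivAt (E f) (Dir (noise (tanh u) f) / tanh u * (1 / cosh u ^ 2)) u := h
  convert h' using 1
  rw [tanh_eq_sinh_div_cosh]
  have h1 := (sinh_pos_iff.2 hu).ne'
  have h2 := (cosh_pos u).ne'
  field_simp

/-- derivative of `(X - E)/F` -/
theorem hasDerivAt_ratio {u : ℝ} (hu : 0 < u) :
    HasDerivAt (fun u => (X u - E f u) / F u)
      ((F u - Dir (noise (tanh u) f) - (sinh (2 * u) / (2 * u) + 1) * (X u - E f u))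
        / (F u * (sinh u * cosh u))) u := by
  have h := ((hasDerivAt_X u).sub (hasDerivAt_E f hf hne hu)).div (hasDerivAt_F u) (F_pos hu).ne'
  have h' : HasDerivAt (fun u => (X u - E f u) / F u)
    (((u / cosh u ^ 2 - Dir (noise (tanh u) f) / (sinh u * cosh u)) * F u
      - (X u - E f u) * (tanh u + u / cosh u ^ 2)) / F u ^ 2) u := h
  convert h' using 1
  have h1 := (sinh_pos_iff.2 hu).ne'
  have h2 := (cosh_pos u).ne'
  have h3 := hu.ne'
  unfold F
  rw [tanh_eq_sinh_div_cosh, sinh_two_mul]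
  field_simp

/-- high noise: with the second Bellman inequality the ratio is antitone on `(0, U]` -/
theorem small {U : ℝ} (hU : 0 < U)
    (H2 : ∀ (g : (Fin n → Bool) → ℝ) (_ : ∀ x, g x ∈ Ioo (-1 : ℝ) 1) {u : ℝ} (_ : 0 ≤ u)
      (_ : u ≤ U), (eta u + 2) * (Ent g - Phi (tanh u)) + u * tanh u ≤ Dir g)
    (hD : 0 ≤ X U - E f U) {u : ℝ} (hu : 0 < u) (huU : u ≤ U) : 0 ≤ X u - E f u := by
  have hanti : AntitoneOn (fun u => (X u - E f u) / F u) (Icc u U) := by
    apply antitoneOn_of_deriv_nonpos (convex_Icc _ _)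
    · intro x hx
      exact (hasDerivAt_ratio f hf hne (lt_of_lt_of_le hu hx.1)).continuousAt.continuousWithinAt
    · intro x hx
      rw [interior_Icc] at hx
      exact (hasDerivAt_ratio f hf hne (hu.trans hx.1)).differentiableAt.differentiableWithinAt
    · intro x hx
      rw [interior_Icc] at hx
      have hx0 : 0 < x := hu.trans hx.1
      rw [(hasDerivAt_ratio f hf hne hx0).deriv]
      apply div_nonpos_of_nonpos_of_nonneg
      · have := H2 (noise (tanh x) f)
          (noise_mem f hf hne (tanh_pos' hx0).le (tanh_mem x).2) hx0.le hx.2.le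
        have he : eta x + 2 = sinh (2 * x) / (2 * x) + 1 := by
          unfold eta; rw [if_neg hx0.ne']; ring
        rw [he] at this
        unfold F X E
        linarith
      · exact (mul_pos (F_pos hx0) (mul_pos (sinh_pos_iff.2 hx0) (cosh_pos x))).le
  have h := hanti (left_mem_Icc.2 huU) (right_mem_Icc.2 huU) huU
  have h2 : 0 ≤ (X U - E f U) / F U := div_nonneg hD (F_pos hU).le
  have h3 : 0 ≤ (X u - E f u) / F u := h2.trans h
  have := mul_nonneg h3 (F_pos hu).le
  rwa [div_mul_cancel₀ _ (F_pos hu).ne'] at this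

/-- pointwise bound for the production deficit from the first Bellman inequality -/
theorem deficit
    (H1 : ∀ (g : (Fin n → Bool) → ℝ) (_ : ∀ x, g x ∈ Ioo (-1 : ℝ) 1) {u : ℝ} (_ : 0 ≤ u),
      2 * (ent (avg g) - avg (fun x => ent (g x))) + qq u * aa (avg g)
        - eta u * avg (fun x => ent (g x)) ≤ Dir g)
    (hPhi : ∀ {t : ℝ}, t ∈ Icc (-1 : ℝ) 1 → t ^ 2 / 2 ≤ Phi t)
    (heta : ∀ {u : ℝ}, 0 ≤ u → 0 ≤ eta u) (hqq : ∀ {u : ℝ}, 0 ≤ u → 0 ≤ qq u)
    {u : ℝ} (hu : 0 < u) :
    F u - Dir (noise (tanh u) f) - (sinh (2 * u) / (2 * u) + 1) * (X u - E f u)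
      ≤ avg f ^ 2 * (6 / 5 * qq u - eta u / 2) := by
  set g := noise (tanh u) f with hg
  have hmem := noise_mem f hf hne (tanh_pos' hu).le (tanh_mem u).2
  have h1 := H1 g hmem hu.le
  have hm : avg g = avg f := avg_noise f (tanh u)
  have hEnt : E f u = ent (avg g) - avg (fun x => ent (g x)) := by
    unfold E Ent ent
    rw [← hg]
    have : avg (fun x => log 2 - Phi (g x)) = log 2 - avg (fun x => Phi (g x)) := by
      unfold avg
      rw [Finset.sum_sub_distrib, sub_div]
      congr 1
      simp only [Finset.sum_const, Finset.card_univ, nsmul_eq_mul]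
      field_simp
    rw [this]
    ring
  have he : sinh (2 * u) / (2 * u) = eta u + 1 := by
    unfold eta; rw [if_neg hu.ne']; ring
  have hX : X u = log 2 - HH u := by
    unfold X HH
    rw [Phi_tanh', log_mul (by norm_num) (cosh_pos u).ne']
    ring
  have hF : F u = G2 u + 2 * X u := by
    unfold F G2 X
    rw [Phi_tanh']
    ring
  have hq : qq u = G2 u + HH u * eta u := rfl
  have hmb : avg f ∈ Icc (-1 : ℝ) 1 := by
    rw [← hm]
    unfold avg
    have hc : (0 : ℝ) < Fintype.card (Fin n → Bool) := by simp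
    constructor
    · rw [le_div_iff₀ hc]
      calc -1 * (Fintype.card (Fin n → Bool) : ℝ) = ∑ _x : Fin n → Bool, (-1 : ℝ) := by simp
        _ ≤ ∑ x, g x := Finset.sum_le_sum fun x _ => (hmem x).1.le
    · rw [div_le_iff₀ hc]
      calc ∑ x, g x ≤ ∑ _x : Fin n → Bool, (1 : ℝ) :=
            Finset.sum_le_sum fun x _ => (hmem x).2.le
        _ = 1 * (Fintype.card (Fin n → Bool) : ℝ) := by simp
  have hP := hPhi hmb
  have h0 := heta hu.le
  have h3 := hqq hu.le
  have e0 : avg (fun x => ent (g x)) = ent (avg g) - E f u := by rw [hEnt]; ring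
  rw [e0, hm] at h1
  have haa : aa (avg f) = 1 - 6 / 5 * avg f ^ 2 + 1 / 5 * avg f ^ 4 := by unfold aa; ring
  rw [haa] at h1
  have hent : ent (avg f) = log 2 - Phi (avg f) := rfl
  rw [hent] at h1
  rw [he]
  have e1 : 0 ≤ qq u * (1 / 5 * avg f ^ 4) := by positivity
  have e2 : eta u * (avg f ^ 2 / 2) ≤ eta u * Phi (avg f) := mul_le_mul_of_nonneg_left hP h0
  nlinarith [h1, e1, e2, hX, hF, hq]

/-- low noise -/
theorem large {U : ℝ} (hU : 0 < U)
    (H1 : ∀ (g : (Fin n → Bool) → ℝ) (_ : ∀ x, g x ∈ Ioo (-1 : ℝ) 1) {u : ℝ} (_ : 0 ≤ u),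
      2 * (ent (avg g) - avg (fun x => ent (g x))) + qq u * aa (avg g)
        - eta u * avg (fun x => ent (g x)) ≤ Dir g)
    (hPhi : ∀ {t : ℝ}, t ∈ Icc (-1 : ℝ) 1 → t ^ 2 / 2 ≤ Phi t)
    (hPhi2 : ∀ {t : ℝ}, t ∈ Icc (-1 : ℝ) 1 → Phi t ≤ log 2)
    (heta : ∀ {u : ℝ}, 0 ≤ u → 0 ≤ eta u) (hqq : ∀ {u : ℝ}, 0 ≤ u → 0 ≤ qq u)
    {ζ ζ' : ℝ → ℝ} (hζ0 : ∀ u, U ≤ u → 0 ≤ ζ u) (hζt : Tendsto ζ atTop (𝓝 0))
    (hζc : ∀ u, U ≤ u → ContinuousAt ζ u)
    (hζd : ∀ u, U < u → HasDerivWithinAt ζ (ζ' u) (Ici u) u)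
    (hζi : ∀ u, U < u → (6 / 5 * qq u - eta u / 2) / (u * sinh u ^ 2) ≤ ζ' u)
    {u : ℝ} (hu : U ≤ u) : 0 ≤ X u - E f u := by
  -- first for `u > U`
  have key : ∀ a, U < a → 0 ≤ X a - E f a := by
    intro a ha
    have ha0 : 0 < a := hU.trans ha
    have hcmp : ∀ b, a ≤ b → (X b - E f b) / F b
        ≤ (X a - E f a) / F a + avg f ^ 2 * (ζ b - ζ a) := by
      intro b hab
      have := image_le_of_deriv_right_le_deriv_boundary
        (f := fun u => (X u - E f u) / F u)
        (f' := fun u => (F u - Dir (noise (tanh u) f)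
          - (sinh (2 * u) / (2 * u) + 1) * (X u - E f u)) / (F u * (sinh u * cosh u)))
        (a := a) (b := b)
        (B := fun u => (X a - E f a) / F a + avg f ^ 2 * (ζ u - ζ a))
        (B' := fun u => avg f ^ 2 * ζ' u)
        (fun x hx => (hasDerivAt_ratio f hf hne
          (lt_of_lt_of_le ha0 hx.1)).continuousAt.continuousWithinAt)
        (fun x hx => (hasDerivAt_ratio f hf hne (lt_of_lt_of_le ha0 hx.1)).hasDerivWithinAt)
        (by simp)
        (fun x hx => by
          have : ContinuousAt ζ x := hζc x (ha.le.trans hx.1)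
          exact (continuousAt_const.add
            (continuousAt_const.mul (this.sub continuousAt_const))).continuousWithinAt)
        (fun x hx => by
          have := hζd x (lt_of_lt_of_le ha hx.1)
          have h2 := ((this.sub_const (ζ a)).const_mul (avg f ^ 2)).const_add
            ((X a - E f a) / F a)
          exact h2)
        (fun x hx => by
          have hx0 : 0 < x := lt_of_lt_of_le ha0 hx.1
          have hUx : U < x := lt_of_lt_of_le ha hx.1
          have hdef := deficit f hf hne H1 hPhi heta hqq hx0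
          have hs := sinh_pos_iff.2 hx0
          have hc := cosh_pos x
          have hFs : F x * (sinh x * cosh x) = x * sinh x ^ 2 := by
            unfold F
            rw [tanh_eq_sinh_div_cosh]
            field_simp
          have hden : 0 < x * sinh x ^ 2 := by positivity
          change (F x - Dir (noise (tanh x) f)
            - (sinh (2 * x) / (2 * x) + 1) * (X x - E f x)) / (F x * (sinh x * cosh x))
              ≤ avg f ^ 2 * ζ' x
          rw [hFs]
          calc (F x - Dir (noise (tanh x) f)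
                - (sinh (2 * x) / (2 * x) + 1) * (X x - E f x)) / (x * sinh x ^ 2)
              ≤ (avg f ^ 2 * (6 / 5 * qq x - eta x / 2)) / (x * sinh x ^ 2) := by
                gcongr
            _ = avg f ^ 2 * ((6 / 5 * qq x - eta x / 2) / (x * sinh x ^ 2)) := by ring
            _ ≤ avg f ^ 2 * ζ' x := by
                apply mul_le_mul_of_nonneg_left (hζi x hUx) (sq_nonneg _))
        (right_mem_Icc.2 hab)
      exact this
    -- lower bound of `(X b - E b)/F b`
    have hlow : ∀ b, a ≤ b → -(2 * log 2) / F b ≤ (X b - E f b) / F b := by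
      intro b hab
      have hb0 : 0 < b := lt_of_lt_of_le ha0 hab
      have hF := F_pos hb0
      gcongr
      have hXb : 0 ≤ X b := by
        have := hPhi (t := tanh b) ⟨(tanh_mem b).1.le, (tanh_mem b).2.le⟩
        have h2 : X b = Phi (tanh b) := rfl
        rw [h2]; nlinarith [sq_nonneg (tanh b)]
      have hEb : E f b ≤ 2 * log 2 := by
        unfold E Ent
        have hmem := noise_mem f hf hne (tanh_pos' hb0).le (tanh_mem b).2
        have hc : (0 : ℝ) < Fintype.card (Fin n → Bool) := by simp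
        have h1 : avg (fun x => Phi (noise (tanh b) f x)) ≤ log 2 := by
          unfold avg
          rw [div_le_iff₀ hc]
          calc ∑ x, Phi (noise (tanh b) f x) ≤ ∑ _x : Fin n → Bool, log 2 :=
                Finset.sum_le_sum fun x _ => hPhi2 ⟨(hmem x).1.le, (hmem x).2.le⟩
            _ = log 2 * (Fintype.card (Fin n → Bool) : ℝ) := by
                simp [mul_comm]
        have h2 : 0 ≤ Phi (avg (noise (tanh b) f)) := by
          have hm : avg (noise (tanh b) f) ∈ Icc (-1 : ℝ) 1 := by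
            unfold avg
            constructor
            · rw [le_div_iff₀ hc]
              calc -1 * (Fintype.card (Fin n → Bool) : ℝ) = ∑ _x : Fin n → Bool, (-1 : ℝ) := by
                    simp
                _ ≤ ∑ x, noise (tanh b) f x := Finset.sum_le_sum fun x _ => (hmem x).1.le
            · rw [div_le_iff₀ hc]
              calc ∑ x, noise (tanh b) f x ≤ ∑ _x : Fin n → Bool, (1 : ℝ) :=
                    Finset.sum_le_sum fun x _ => (hmem x).2.le
                _ = 1 * (Fintype.card (Fin n → Bool) : ℝ) := by simp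
          have := hPhi hm
          nlinarith [sq_nonneg (avg (noise (tanh b) f))]
        have h3 : 0 < log 2 := log_pos (by norm_num)
        linarith
      linarith
    have hFt : Tendsto F atTop atTop := by
      have h1 : Tendsto (fun b : ℝ => b * tanh a) atTop atTop :=
        tendsto_id.atTop_mul_const (tanh_pos' ha0)
      refine tendsto_atTop_mono' _ ?_ h1
      filter_upwards [eventually_ge_atTop a] with b hb
      unfold F
      have hb0 : 0 < b := lt_of_lt_of_le ha0 hb
      apply mul_le_mul_of_nonneg_left _ hb0.le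
      have hmono : MonotoneOn tanh univ := by
        apply monotoneOn_of_deriv_nonneg convex_univ
        · exact fun x _ => (hasDerivAt_tanh x).continuousAt.continuousWithinAt
        · exact fun x _ => (hasDerivAt_tanh x).differentiableAt.differentiableWithinAt
        · intro x _
          rw [(hasDerivAt_tanh x).deriv]
          have := cosh_pos x
          positivity
      exact hmono (mem_univ _) (mem_univ _) hb
    have hlim : Tendsto (fun b => -(2 * log 2) / F b - avg f ^ 2 * (ζ b - ζ a)) atTop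
        (𝓝 (0 - avg f ^ 2 * (0 - ζ a))) := by
      exact (hFt.const_div_atTop _).sub (tendsto_const_nhds.mul (hζt.sub tendsto_const_nhds))
    have hle : 0 - avg f ^ 2 * (0 - ζ a) ≤ (X a - E f a) / F a := by
      apply le_of_tendsto hlim
      filter_upwards [eventually_ge_atTop a] with b hb
      have h1 := hcmp b hb
      have h2 := hlow b hb
      linarith
    have h4 : 0 ≤ avg f ^ 2 * ζ a := mul_nonneg (sq_nonneg _) (hζ0 a ha.le)
    have h5 : 0 ≤ (X a - E f a) / F a := by linarith
    have := mul_nonneg h5 (F_pos ha0).le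
    rwa [div_mul_cancel₀ _ (F_pos ha0).ne'] at this
  rcases hu.lt_or_eq with h | h
  · exact key u h
  · subst h
    have hc : ContinuousAt (fun u => X u - E f u) U :=
      (hasDerivAt_X U).continuousAt.sub (hasDerivAt_E f hf hne hU).continuousAt
    have h1 : Tendsto (fun u => X u - E f u) (𝓝[>] U) (𝓝 (X U - E f U)) :=
      hc.tendsto.mono_left nhdsWithin_le_nhds
    apply ge_of_tendsto h1
    filter_upwards [self_mem_nhdsWithin] with b hb
    exact key b hb

end


theorem avg_const {ι : Type*} [Fintype ι] [Nonempty ι] (c : ℝ) : avg (fun _ : ι => c) = c := by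
  unfold avg
  simp only [Finset.sum_const, Finset.card_univ, nsmul_eq_mul]
  have : (Fintype.card ι : ℝ) ≠ 0 := by
    exact_mod_cast Fintype.card_ne_zero
  field_simp

theorem Ent_const {ι : Type*} [Fintype ι] [Nonempty ι] (c : ℝ) : Ent (fun _ : ι => c) = 0 := by
  unfold Ent
  rw [avg_const c, avg_const (Phi c), sub_self]

theorem noise_const {n : ℕ} (c ρ : ℝ) : noise ρ (fun _ : Fin n → Bool => c) = fun _ => c := by
  funext y
  unfold noise
  rw [← Finset.sum_mul, Channel.sum_ker, one_mul]

theorem noise_zero {n : ℕ} (f : (Fin n → Bool) → ℝ) : noise 0 f = fun _ => avg f := by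
  funext y
  unfold noise avg
  have h : ∀ x : Fin n → Bool, ker 0 x y = (1 / 2) ^ n := by
    intro x
    unfold ker
    have : ∀ i, (if x i = y i then (1 + (0 : ℝ)) / 2 else (1 - 0) / 2) = 1 / 2 := by
      intro i; split_ifs <;> norm_num
    simp only [this, Finset.prod_const, Finset.card_univ, Fintype.card_fin]
  simp only [h]
  rw [← Finset.mul_sum]
  simp
  field_simp

theorem noise_one {n : ℕ} (f : (Fin n → Bool) → ℝ) : noise 1 f = f := by
  funext y
  unfold noise
  rw [Finset.sum_eq_single y]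
  · have : ker 1 y y = 1 := by
      unfold ker
      simp
    rw [this, one_mul]
  · intro x _ hx
    have : ker 1 x y = 0 := by
      unfold ker
      obtain ⟨i, hi⟩ := Function.ne_iff.1 hx
      apply Finset.prod_eq_zero (Finset.mem_univ i)
      simp [hi]
    rw [this, zero_mul]
  · intro h; exact absurd (Finset.mem_univ _) h

theorem Phi_one : Phi 1 = log 2 := by
  unfold Phi; norm_num

theorem Phi_neg_one : Phi (-1) = log 2 := by
  unfold Phi; norm_num

/-- The final inequality in nats from the two Bellman inequalities and the comparison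
function. -/
theorem main_of
    (H1 : ∀ {n : ℕ} (g : (Fin n → Bool) → ℝ) (_ : ∀ x, g x ∈ Ioo (-1 : ℝ) 1) {u : ℝ} (_ : 0 ≤ u),
      2 * (ent (avg g) - avg (fun x => ent (g x))) + qq u * aa (avg g)
        - eta u * avg (fun x => ent (g x)) ≤ Dir g)
    (H2 : ∀ {n : ℕ} (g : (Fin n → Bool) → ℝ) (_ : ∀ x, g x ∈ Ioo (-1 : ℝ) 1) {u : ℝ} (_ : 0 ≤ u)
      (_ : u ≤ 1 / 3), (eta u + 2) * (Ent g - Phi (tanh u)) + u * tanh u ≤ Dir g)
    (hPhi : ∀ {t : ℝ}, t ∈ Icc (-1 : ℝ) 1 → t ^ 2 / 2 ≤ Phi t)
    (hPhi2 : ∀ {t : ℝ}, t ∈ Icc (-1 : ℝ) 1 → Phi t ≤ log 2)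
    (heta : ∀ {u : ℝ}, 0 ≤ u → 0 ≤ eta u) (hqq : ∀ {u : ℝ}, 0 ≤ u → 0 ≤ qq u)
    (hζ : ∃ ζ ζ' : ℝ → ℝ, (∀ u, 1 / 3 ≤ u → 0 ≤ ζ u) ∧ Tendsto ζ atTop (𝓝 0) ∧
      (∀ u, 1 / 3 ≤ u → ContinuousAt ζ u) ∧
      (∀ u, 1 / 3 < u → HasDerivWithinAt ζ (ζ' u) (Ici u) u) ∧
      (∀ u, 1 / 3 < u → (6 / 5 * qq u - eta u / 2) / (u * sinh u ^ 2) ≤ ζ' u))
    {n : ℕ} (f : (Fin n → Bool) → ℝ) (hf : ∀ x, f x = 1 ∨ f x = -1) {ρ : ℝ}
    (h0 : 0 ≤ ρ) (h1 : ρ ≤ 1) : Ent (noise ρ f) ≤ Phi ρ := by
  have hPhi_nonneg : ∀ {t : ℝ}, t ∈ Icc (-1 : ℝ) 1 → 0 ≤ Phi t := fun {t} ht => by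
    have := hPhi ht
    nlinarith [sq_nonneg t]
  by_cases hne : ∃ x y, f x ≠ f y
  · rcases h0.lt_or_eq with h0' | h0'
    · rcases h1.lt_or_eq with h1' | h1'
      · -- interior
        obtain ⟨ζ, ζ', z0, z1, z2, z3, z4⟩ := hζ
        have hU : (0 : ℝ) < 1 / 3 := by norm_num
        have hlarge : ∀ {u : ℝ}, 1 / 3 ≤ u → 0 ≤ X u - E f u := fun {u} hu =>
          large f hf hne hU (fun g hg {u} hu => H1 g hg hu) hPhi hPhi2 heta hqq z0 z1 z2 z3 z4 hu
        set u := ath ρ with hu
        have hρ : tanh u = ρ := by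
          have hmem : ρ ∈ Ioo (-1 : ℝ) 1 := ⟨by linarith, h1'⟩
          have : ρ = tanh (artanh ρ) := (tanh_artanh hmem).symm
          rw [hu]
          conv_lhs => rw [this, ath_tanh']
          rw [← this]
        have hupos : 0 < u := by
          rw [hu]
          unfold ath
          have : log (1 - ρ) < log (1 + ρ) := log_lt_log (by linarith) (by linarith)
          linarith
        have hfin : 0 ≤ X u - E f u := by
          rcases le_total u (1 / 3) with h | h
          · exact small f hf hne hU (fun g hg {u} hu hu1 => H2 g hg hu hu1)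
              (hlarge le_rfl) hupos h
          · exact hlarge h
        unfold X E at hfin
        rw [hρ] at hfin
        linarith
      · -- ρ = 1
        subst h1'
        rw [noise_one, Phi_one]
        unfold Ent
        have hc : (0 : ℝ) < Fintype.card (Fin n → Bool) := by simp
        have e1 : avg (fun x => Phi (f x)) = log 2 := by
          have : (fun x => Phi (f x)) = fun _ => log 2 := by
            funext x
            rcases hf x with h | h <;> rw [h]
            · exact Phi_one
            · exact Phi_neg_one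
          rw [this, avg_const]
        have hm : avg f ∈ Icc (-1 : ℝ) 1 := by
          unfold avg
          constructor
          · rw [le_div_iff₀ hc]
            calc -1 * (Fintype.card (Fin n → Bool) : ℝ) = ∑ _x : Fin n → Bool, (-1 : ℝ) := by simp
              _ ≤ ∑ x, f x := Finset.sum_le_sum fun x _ => by
                  rcases hf x with h | h <;> rw [h] <;> norm_num
          · rw [div_le_iff₀ hc]
            calc ∑ x, f x ≤ ∑ _x : Fin n → Bool, (1 : ℝ) :=
                  Finset.sum_le_sum fun x _ => by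
                    rcases hf x with h | h <;> rw [h] <;> norm_num
              _ = 1 * (Fintype.card (Fin n → Bool) : ℝ) := by simp
        have := hPhi_nonneg hm
        rw [e1]
        linarith
    · -- ρ = 0
      subst h0'
      rw [noise_zero, Ent_const]
      exact hPhi_nonneg ⟨by norm_num, by norm_num⟩
  · push_neg at hne
    have hc : f = fun _ => f default := by
      funext x; exact hne x default
    rw [hc, noise_const, Ent_const]
    exact hPhi_nonneg ⟨by linarith, h1⟩

end Vale.Agent.P322.Ode
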